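import Crest.Agent.R310.BxTab

set_option autoImplicit false

namespace Crest.Agent.R310.Bx

open Crest.Agent.Lib.IBox

theorem HT_2_3_3_4_t_f_f_c2624 : HT 2 3 3 4 true false false ⟨0, 46170898432, 412316860416, 549755813888, 549755813888, 824633720832, 1044536046387, 1072023837081⟩ :=
  fcheck_sound (code := 0) (by decide +kernel)

theorem HT_2_3_3_4_t_f_f_c2625 : HT 2 3 3 4 true false false ⟨0, 46170898432, 412316860416, 481036337152, 549755813888, 824633720832, 1072023837081, 1099511627776⟩ :=
  fcheck_sound (code := 27) (by decide +kernel)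

theorem HT_2_3_3_4_t_f_f_c2626 : HT 2 3 3 4 true false false ⟨0, 46170898432, 481036337152, 549755813888, 549755813888, 824633720832, 1072023837081, 1085767732428⟩ :=
  fcheck_sound (code := 0) (by decide +kernel)

theorem HT_2_3_3_4_t_f_f_c2627 : HT 2 3 3 4 true false false ⟨0, 46170898432, 481036337152, 549755813888, 549755813888, 824633720832, 1085767732428, 1099511627776⟩ :=
  fcheck_sound (code := 4535508538403) (by decide +kernel)

theorem HT_2_3_3_4_t_f_f_c2628 : HT 2 3 3 4 true false false ⟨0, 46170898432, 412316860416, 549755813888, 824633720832, 1099511627776, 1044536046387, 1099511627776⟩ :=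
  fcheck_sound (code := 16818308) (by decide +kernel)

theorem HT_2_3_3_4_t_f_f_c2629 : HT 2 3 3 4 true false false ⟨0, 46170898432, 549755813888, 1099511627776, 0, 274877906944, 989560464998, 1099511627776⟩ :=
  fcheck_sound (code := 4362093602) (by decide +kernel)

theorem HT_2_3_3_4_t_f_f_c2630 : HT 2 3 3 4 true false false ⟨0, 46170898432, 549755813888, 1099511627776, 274877906944, 412316860416, 989560464998, 1099511627776⟩ :=
  fcheck_sound (code := 4362093602) (by decide +kernel)

theorem HT_2_3_3_4_t_f_f_c2631 : HT 2 3 3 4 true false false ⟨0, 46170898432, 549755813888, 824633720832, 412316860416, 549755813888, 989560464998, 1044536046387⟩ :=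
  fcheck_sound (code := 0) (by decide +kernel)

theorem HT_2_3_3_4_t_f_f_c2632 : HT 2 3 3 4 true false false ⟨0, 46170898432, 549755813888, 824633720832, 412316860416, 549755813888, 1044536046387, 1072023837081⟩ :=
  fcheck_sound (code := 0) (by decide +kernel)

theorem HT_2_3_3_4_t_f_f_c2633 : HT 2 3 3 4 true false false ⟨0, 46170898432, 549755813888, 824633720832, 412316860416, 481036337152, 1072023837081, 1099511627776⟩ :=
  fcheck_sound (code := 18) (by decide +kernel)

theorem HT_2_3_3_4_t_f_f_c2634 : HT 2 3 3 4 true false false ⟨0, 46170898432, 549755813888, 824633720832, 481036337152, 549755813888, 1072023837081, 1085767732428⟩ :=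
  fcheck_sound (code := 0) (by decide +kernel)

theorem HT_2_3_3_4_t_f_f_c2635 : HT 2 3 3 4 true false false ⟨0, 46170898432, 549755813888, 824633720832, 481036337152, 549755813888, 1085767732428, 1099511627776⟩ :=
  fcheck_sound (code := 4604225918498) (by decide +kernel)

theorem HT_2_3_3_4_t_f_f_c2636 : HT 2 3 3 4 true false false ⟨0, 46170898432, 824633720832, 1099511627776, 412316860416, 549755813888, 989560464998, 1099511627776⟩ :=
  fcheck_sound (code := 1076637956) (by decide +kernel)

theorem HT_2_3_3_4_t_f_f_c2637 : HT 2 3 3 4 true false false ⟨0, 46170898432, 549755813888, 687194767360, 549755813888, 824633720832, 989560464998, 1044536046387⟩ :=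
  fcheck_sound (code := 258) (by decide +kernel)

theorem HT_2_3_3_4_t_f_f_c2638 : HT 2 3 3 4 true false false ⟨0, 46170898432, 549755813888, 687194767360, 549755813888, 824633720832, 1044536046387, 1072023837081⟩ :=
  fcheck_sound (code := 0) (by decide +kernel)

theorem HT_2_3_3_4_t_f_f_c2639 : HT 2 3 3 4 true false false ⟨0, 46170898432, 549755813888, 687194767360, 549755813888, 824633720832, 1072023837081, 1085767732428⟩ :=
  fcheck_sound (code := 0) (by decide +kernel)

theorem HT_2_3_3_4_t_f_f_c2640 : HT 2 3 3 4 true false false ⟨0, 46170898432, 549755813888, 687194767360, 549755813888, 824633720832, 1085767732428, 1099511627776⟩ :=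
  fcheck_sound (code := 687463990923) (by decide +kernel)

theorem HT_2_3_3_4_t_f_f_c2641 : HT 2 3 3 4 true false false ⟨0, 46170898432, 687194767360, 824633720832, 549755813888, 824633720832, 989560464998, 1044536046387⟩ :=
  fcheck_sound (code := 0) (by decide +kernel)

end Crest.Agent.R310.Bx
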