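import Crest.Agent.R310.BxTab

set_option autoImplicit false

namespace Crest.Agent.R310.Bx

open Crest.Agent.Lib.IBox

theorem HT_2_3_3_4_f_f_t_c2797 : HT 2 3 3 4 false false true ⟨0, 5771362304, 0, 137438953472, 0, 68719476736, 1092639680102, 1096075653939⟩ :=
  fcheck_sound (code := 1155) (by decide +kernel)

theorem HT_2_3_3_4_f_f_t_c2798 : HT 2 3 3 4 false false true ⟨0, 2885681152, 0, 34359738368, 0, 17179869184, 1096075653939, 1099511627776⟩ :=
  fcheck_sound (code := 0) (by decide +kernel)

theorem HT_2_3_3_4_f_f_t_c2799 : HT 2 3 3 4 false false true ⟨0, 2885681152, 0, 34359738368, 17179869184, 34359738368, 1096075653939, 1099511627776⟩ :=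
  fcheck_sound (code := 2) (by decide +kernel)

theorem HT_2_3_3_4_f_f_t_c2800 : HT 2 3 3 4 false false true ⟨0, 2885681152, 34359738368, 68719476736, 0, 34359738368, 1096075653939, 1099511627776⟩ :=
  fcheck_sound (code := 0) (by decide +kernel)

theorem HT_2_3_3_4_f_f_t_c2801 : HT 2 3 3 4 false false true ⟨2885681152, 5771362304, 0, 68719476736, 0, 34359738368, 1096075653939, 1099511627776⟩ :=
  fcheck_sound (code := 4) (by decide +kernel)

theorem HT_2_3_3_4_f_f_t_c2802 : HT 2 3 3 4 false false true ⟨0, 5771362304, 0, 68719476736, 34359738368, 68719476736, 1096075653939, 1099511627776⟩ :=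
  fcheck_sound (code := 67252258) (by decide +kernel)

theorem HT_2_3_3_4_f_f_t_c2803 : HT 2 3 3 4 false false true ⟨0, 5771362304, 68719476736, 137438953472, 0, 68719476736, 1096075653939, 1099511627776⟩ :=
  fcheck_sound (code := 4295771163) (by decide +kernel)

theorem HT_2_3_3_4_f_f_t_c2804 : HT 2 3 3 4 false false true ⟨5771362304, 11542724608, 0, 137438953472, 0, 68719476736, 1092639680102, 1096075653939⟩ :=
  fcheck_sound (code := 1050) (by decide +kernel)

theorem HT_2_3_3_4_f_f_t_c2805 : HT 2 3 3 4 false false true ⟨5771362304, 11542724608, 0, 68719476736, 0, 68719476736, 1096075653939, 1099511627776⟩ :=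
  fcheck_sound (code := 1050755) (by decide +kernel)

theorem HT_2_3_3_4_f_f_t_c2806 : HT 2 3 3 4 false false true ⟨5771362304, 11542724608, 68719476736, 137438953472, 0, 68719476736, 1096075653939, 1099511627776⟩ :=
  fcheck_sound (code := 9438235) (by decide +kernel)

theorem HT_2_3_3_4_f_f_t_c2807 : HT 2 3 3 4 false false true ⟨0, 11542724608, 0, 137438953472, 68719476736, 137438953472, 1092639680102, 1099511627776⟩ :=
  fcheck_sound (code := 275415904290) (by decide +kernel)

theorem HT_2_3_3_4_f_f_t_c2808 : HT 2 3 3 4 false false true ⟨0, 11542724608, 137438953472, 274877906944, 0, 68719476736, 1092639680102, 1099511627776⟩ :=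
  fcheck_sound (code := 2203327202947) (by decide +kernel)

theorem HT_2_3_3_4_f_f_t_c2809 : HT 2 3 3 4 false false true ⟨0, 11542724608, 137438953472, 274877906944, 68719476736, 137438953472, 1092639680102, 1096075653939⟩ :=
  fcheck_sound (code := 4) (by decide +kernel)

theorem HT_2_3_3_4_f_f_t_c2810 : HT 2 3 3 4 false false true ⟨0, 11542724608, 137438953472, 274877906944, 68719476736, 137438953472, 1096075653939, 1099511627776⟩ :=
  fcheck_sound (code := 68994205779) (by decide +kernel)

theorem HT_2_3_3_4_f_f_t_c2811 : HT 2 3 3 4 false false true ⟨0, 11542724608, 0, 274877906944, 137438953472, 274877906944, 1085767732428, 1099511627776⟩ :=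
  fcheck_sound (code := 1128103628845090) (by decide +kernel)

theorem HT_2_3_3_4_f_f_t_c2812 : HT 2 3 3 4 false false true ⟨0, 11542724608, 274877906944, 549755813888, 0, 137438953472, 1085767732428, 1099511627776⟩ :=
  fcheck_sound (code := 9024827957249667) (by decide +kernel)

theorem HT_2_3_3_4_f_f_t_c2813 : HT 2 3 3 4 false false true ⟨0, 11542724608, 274877906944, 549755813888, 137438953472, 274877906944, 1085767732428, 1092639680102⟩ :=
  fcheck_sound (code := 4) (by decide +kernel)

theorem HT_2_3_3_4_f_f_t_c2814 : HT 2 3 3 4 false false true ⟨0, 11542724608, 274877906944, 549755813888, 137438953472, 206158430208, 1092639680102, 1099511627776⟩ :=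
  fcheck_sound (code := 72158672336402) (by decide +kernel)

theorem HT_2_3_3_4_f_f_t_c2815 : HT 2 3 3 4 false false true ⟨0, 11542724608, 274877906944, 549755813888, 206158430208, 274877906944, 1092639680102, 1096075653939⟩ :=
  fcheck_sound (code := 0) (by decide +kernel)

theorem HT_2_3_3_4_f_f_t_c2816 : HT 2 3 3 4 false false true ⟨0, 11542724608, 274877906944, 549755813888, 206158430208, 274877906944, 1096075653939, 1097793640857⟩ :=
  fcheck_sound (code := 0) (by decide +kernel)

end Crest.Agent.R310.Bx
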