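import Crest.Agent.R310.BxTab

set_option autoImplicit false

namespace Crest.Agent.R310.Bx

open Crest.Agent.Lib.IBox

theorem HT_2_3_3_4_f_f_t_c2817 : HT 2 3 3 4 false false true ⟨0, 1442840576, 274877906944, 549755813888, 206158430208, 274877906944, 1097793640857, 1099511627776⟩ :=
  fcheck_sound (code := 50864146) (by decide +kernel)

theorem HT_2_3_3_4_f_f_t_c2818 : HT 2 3 3 4 false false true ⟨1442840576, 2885681152, 274877906944, 549755813888, 206158430208, 274877906944, 1097793640857, 1099511627776⟩ :=
  fcheck_sound (code := 50864146) (by decide +kernel)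

theorem HT_2_3_3_4_f_f_t_c2819 : HT 2 3 3 4 false false true ⟨2885681152, 5771362304, 274877906944, 549755813888, 206158430208, 274877906944, 1097793640857, 1099511627776⟩ :=
  fcheck_sound (code := 2114) (by decide +kernel)

theorem HT_2_3_3_4_f_f_t_c2820 : HT 2 3 3 4 false false true ⟨5771362304, 11542724608, 274877906944, 549755813888, 206158430208, 274877906944, 1097793640857, 1099511627776⟩ :=
  fcheck_sound (code := 2) (by decide +kernel)

theorem HT_2_3_3_4_f_f_t_c2821 : HT 2 3 3 4 false false true ⟨11542724608, 23085449216, 0, 274877906944, 0, 137438953472, 1085767732428, 1092639680102⟩ :=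
  fcheck_sound (code := 1050) (by decide +kernel)

theorem HT_2_3_3_4_f_f_t_c2822 : HT 2 3 3 4 false false true ⟨11542724608, 23085449216, 0, 137438953472, 0, 68719476736, 1092639680102, 1096075653939⟩ :=
  fcheck_sound (code := 1050) (by decide +kernel)

theorem HT_2_3_3_4_f_f_t_c2823 : HT 2 3 3 4 false false true ⟨11542724608, 23085449216, 0, 68719476736, 0, 68719476736, 1096075653939, 1099511627776⟩ :=
  fcheck_sound (code := 1050755) (by decide +kernel)

theorem HT_2_3_3_4_f_f_t_c2824 : HT 2 3 3 4 false false true ⟨11542724608, 23085449216, 68719476736, 137438953472, 0, 68719476736, 1096075653939, 1099511627776⟩ :=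
  fcheck_sound (code := 1051) (by decide +kernel)

theorem HT_2_3_3_4_f_f_t_c2825 : HT 2 3 3 4 false false true ⟨11542724608, 23085449216, 0, 137438953472, 68719476736, 137438953472, 1092639680102, 1099511627776⟩ :=
  fcheck_sound (code := 1191970) (by decide +kernel)

theorem HT_2_3_3_4_f_f_t_c2826 : HT 2 3 3 4 false false true ⟨11542724608, 23085449216, 137438953472, 274877906944, 0, 137438953472, 1092639680102, 1099511627776⟩ :=
  fcheck_sound (code := 1857574417435) (by decide +kernel)

theorem HT_2_3_3_4_f_f_t_c2827 : HT 2 3 3 4 false false true ⟨11542724608, 23085449216, 0, 274877906944, 137438953472, 274877906944, 1085767732428, 1099511627776⟩ :=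
  fcheck_sound (code := 4832964642) (by decide +kernel)

theorem HT_2_3_3_4_f_f_t_c2828 : HT 2 3 3 4 false false true ⟨11542724608, 23085449216, 274877906944, 549755813888, 0, 137438953472, 1085767732428, 1099511627776⟩ :=
  fcheck_sound (code := 8980099) (by decide +kernel)

theorem HT_2_3_3_4_f_f_t_c2829 : HT 2 3 3 4 false false true ⟨11542724608, 23085449216, 274877906944, 549755813888, 137438953472, 274877906944, 1085767732428, 1099511627776⟩ :=
  fcheck_sound (code := 36100815437501636) (by decide +kernel)

theorem HT_2_3_3_4_f_f_t_c2830 : HT 2 3 3 4 false false true ⟨23085449216, 46170898432, 0, 549755813888, 0, 274877906944, 1072023837081, 1085767732428⟩ :=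
  fcheck_sound (code := 83580332082842) (by decide +kernel)

theorem HT_2_3_3_4_f_f_t_c2831 : HT 2 3 3 4 false false true ⟨23085449216, 46170898432, 0, 274877906944, 0, 137438953472, 1085767732428, 1092639680102⟩ :=
  fcheck_sound (code := 1050) (by decide +kernel)

theorem HT_2_3_3_4_f_f_t_c2832 : HT 2 3 3 4 false false true ⟨23085449216, 46170898432, 0, 137438953472, 0, 68719476736, 1092639680102, 1096075653939⟩ :=
  fcheck_sound (code := 1050) (by decide +kernel)

theorem HT_2_3_3_4_f_f_t_c2833 : HT 2 3 3 4 false false true ⟨23085449216, 46170898432, 0, 68719476736, 0, 68719476736, 1096075653939, 1099511627776⟩ :=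
  fcheck_sound (code := 50470923) (by decide +kernel)

theorem HT_2_3_3_4_f_f_t_c2834 : HT 2 3 3 4 false false true ⟨23085449216, 46170898432, 68719476736, 137438953472, 0, 68719476736, 1096075653939, 1099511627776⟩ :=
  fcheck_sound (code := 1051) (by decide +kernel)

theorem HT_2_3_3_4_f_f_t_c2835 : HT 2 3 3 4 false false true ⟨23085449216, 46170898432, 0, 137438953472, 68719476736, 137438953472, 1092639680102, 1099511627776⟩ :=
  fcheck_sound (code := 110626) (by decide +kernel)

theorem HT_2_3_3_4_f_f_t_c2836 : HT 2 3 3 4 false false true ⟨23085449216, 46170898432, 137438953472, 274877906944, 0, 68719476736, 1092639680102, 1099511627776⟩ :=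
  fcheck_sound (code := 1155) (by decide +kernel)

theorem HT_2_3_3_4_f_f_t_c2837 : HT 2 3 3 4 false false true ⟨23085449216, 46170898432, 137438953472, 274877906944, 68719476736, 137438953472, 1092639680102, 1099511627776⟩ :=
  fcheck_sound (code := 795202) (by decide +kernel)

end Crest.Agent.R310.Bx
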