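import Crest.Agent.R310.BxTab

set_option autoImplicit false

namespace Crest.Agent.R310.Bx

open Crest.Agent.Lib.IBox

theorem HT_2_3_3_4_f_f_t_c2838 : HT 2 3 3 4 false false true ⟨23085449216, 46170898432, 0, 274877906944, 137438953472, 274877906944, 1085767732428, 1099511627776⟩ :=
  fcheck_sound (code := 1126434) (by decide +kernel)

theorem HT_2_3_3_4_f_f_t_c2839 : HT 2 3 3 4 false false true ⟨23085449216, 46170898432, 274877906944, 549755813888, 0, 274877906944, 1085767732428, 1099511627776⟩ :=
  fcheck_sound (code := 604703150191149782152219) (by decide +kernel)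

theorem HT_2_3_3_4_f_f_t_c2840 : HT 2 3 3 4 false false true ⟨0, 46170898432, 0, 274877906944, 274877906944, 549755813888, 1044536046387, 1099511627776⟩ :=
  fcheck_sound (code := 67126852) (by decide +kernel)

theorem HT_2_3_3_4_f_f_t_c2841 : HT 2 3 3 4 false false true ⟨0, 46170898432, 274877906944, 412316860416, 274877906944, 412316860416, 1044536046387, 1099511627776⟩ :=
  fcheck_sound (code := 1050692) (by decide +kernel)

theorem HT_2_3_3_4_f_f_t_c2842 : HT 2 3 3 4 false false true ⟨0, 46170898432, 412316860416, 549755813888, 274877906944, 412316860416, 1044536046387, 1072023837081⟩ :=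
  fcheck_sound (code := 0) (by decide +kernel)

theorem HT_2_3_3_4_f_f_t_c2843 : HT 2 3 3 4 false false true ⟨0, 46170898432, 412316860416, 549755813888, 274877906944, 343597383680, 1072023837081, 1099511627776⟩ :=
  fcheck_sound (code := 309311047953) (by decide +kernel)

theorem HT_2_3_3_4_f_f_t_c2844 : HT 2 3 3 4 false false true ⟨0, 46170898432, 412316860416, 549755813888, 343597383680, 412316860416, 1072023837081, 1099511627776⟩ :=
  fcheck_sound (code := 0) (by decide +kernel)

theorem HT_2_3_3_4_f_f_t_c2845 : HT 2 3 3 4 false false true ⟨0, 46170898432, 274877906944, 549755813888, 412316860416, 549755813888, 1044536046387, 1099511627776⟩ :=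
  fcheck_sound (code := 68) (by decide +kernel)

theorem HT_2_3_3_4_f_f_t_c2846 : HT 2 3 3 4 false false true ⟨0, 46170898432, 549755813888, 1099511627776, 0, 549755813888, 1044536046387, 1072023837081⟩ :=
  fcheck_sound (code := 262355) (by decide +kernel)

theorem HT_2_3_3_4_f_f_t_c2847 : HT 2 3 3 4 false false true ⟨0, 46170898432, 549755813888, 824633720832, 0, 137438953472, 1072023837081, 1099511627776⟩ :=
  fcheck_sound (code := 1) (by decide +kernel)

theorem HT_2_3_3_4_f_f_t_c2848 : HT 2 3 3 4 false false true ⟨0, 46170898432, 549755813888, 687194767360, 137438953472, 206158430208, 1072023837081, 1099511627776⟩ :=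
  fcheck_sound (code := 0) (by decide +kernel)

theorem HT_2_3_3_4_f_f_t_c2849 : HT 2 3 3 4 false false true ⟨0, 46170898432, 549755813888, 687194767360, 206158430208, 274877906944, 1072023837081, 1099511627776⟩ :=
  fcheck_sound (code := 648536110335631898) (by decide +kernel)

theorem HT_2_3_3_4_f_f_t_c2850 : HT 2 3 3 4 false false true ⟨0, 46170898432, 687194767360, 824633720832, 137438953472, 274877906944, 1072023837081, 1099511627776⟩ :=
  fcheck_sound (code := 1) (by decide +kernel)

theorem HT_2_3_3_4_f_f_t_c2851 : HT 2 3 3 4 false false true ⟨0, 46170898432, 824633720832, 1099511627776, 0, 274877906944, 1072023837081, 1099511627776⟩ :=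
  fcheck_sound (code := 1) (by decide +kernel)

theorem HT_2_3_3_4_f_f_t_c2852 : HT 2 3 3 4 false false true ⟨0, 23085449216, 549755813888, 824633720832, 274877906944, 549755813888, 1072023837081, 1085767732428⟩ :=
  fcheck_sound (code := 1) (by decide +kernel)

theorem HT_2_3_3_4_f_f_t_c2853 : HT 2 3 3 4 false false true ⟨0, 23085449216, 549755813888, 824633720832, 274877906944, 549755813888, 1085767732428, 1092639680102⟩ :=
  fcheck_sound (code := 1) (by decide +kernel)

theorem HT_2_3_3_4_f_f_t_c2854 : HT 2 3 3 4 false false true ⟨0, 11542724608, 549755813888, 824633720832, 274877906944, 549755813888, 1092639680102, 1096075653939⟩ :=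
  fcheck_sound (code := 33564179) (by decide +kernel)

theorem HT_2_3_3_4_f_f_t_c2855 : HT 2 3 3 4 false false true ⟨0, 5771362304, 549755813888, 824633720832, 274877906944, 549755813888, 1096075653939, 1097793640857⟩ :=
  fcheck_sound (code := 2148021779) (by decide +kernel)

theorem HT_2_3_3_4_f_f_t_c2856 : HT 2 3 3 4 false false true ⟨0, 5771362304, 549755813888, 824633720832, 274877906944, 549755813888, 1097793640857, 1099511627776⟩ :=
  fcheck_sound (code := 8933566317211) (by decide +kernel)

theorem HT_2_3_3_4_f_f_t_c2857 : HT 2 3 3 4 false false true ⟨5771362304, 11542724608, 549755813888, 824633720832, 274877906944, 549755813888, 1096075653939, 1099511627776⟩ :=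
  fcheck_sound (code := 137573971475) (by decide +kernel)

theorem HT_2_3_3_4_f_f_t_c2858 : HT 2 3 3 4 false false true ⟨11542724608, 23085449216, 549755813888, 824633720832, 274877906944, 549755813888, 1092639680102, 1099511627776⟩ :=
  fcheck_sound (code := 137573971475) (by decide +kernel)

theorem HT_2_3_3_4_f_f_t_c2859 : HT 2 3 3 4 false false true ⟨23085449216, 46170898432, 549755813888, 824633720832, 274877906944, 549755813888, 1072023837081, 1099511627776⟩ :=
  fcheck_sound (code := 137495654660) (by decide +kernel)

theorem HT_2_3_3_4_f_f_t_c2860 : HT 2 3 3 4 false false true ⟨0, 46170898432, 824633720832, 1099511627776, 274877906944, 549755813888, 1072023837081, 1085767732428⟩ :=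
  fcheck_sound (code := 211) (by decide +kernel)

end Crest.Agent.R310.Bx
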