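import Crest.Agent.R310.BxTab

set_option autoImplicit false

namespace Crest.Agent.R310.Bx

open Crest.Agent.Lib.IBox

theorem HT_3_2_3_4_f_f_t_c3175 : HT 3 2 3 4 false false true ⟨23085449216, 46170898432, 549755813888, 1099511627776, 274877906944, 549755813888, 879609302220, 934584883609⟩ :=
  fcheck_sound (code := 6741940718382115877710650252337917433118928916842949413481751037587) (by decide +kernel)

theorem HT_3_2_3_4_f_f_t_c3176 : HT 3 2 3 4 false false true ⟨23085449216, 46170898432, 549755813888, 1099511627776, 274877906944, 549755813888, 934584883609, 989560464998⟩ :=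
  fcheck_sound (code := 237713804169487002010747181195) (by decide +kernel)

theorem HT_3_2_3_4_f_f_t_c3177 : HT 3 2 3 4 false false true ⟨0, 46170898432, 0, 549755813888, 549755813888, 824633720832, 879609302220, 989560464998⟩ :=
  fcheck_sound (code := 105929758740004460606327525141611571833304399803239451691120990305) (by decide +kernel)

theorem HT_3_2_3_4_f_f_t_c3178 : HT 3 2 3 4 false false true ⟨0, 46170898432, 549755813888, 1099511627776, 549755813888, 824633720832, 879609302220, 989560464998⟩ :=
  fcheck_sound (code := 574494840359744404757734913020652621528741677677983873507686142486938908201384986312574780250212782184531) (by decide +kernel)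

theorem HT_3_2_3_4_f_f_t_c3179 : HT 3 2 3 4 false false true ⟨0, 46170898432, 0, 1099511627776, 824633720832, 1099511627776, 879609302220, 989560464998⟩ :=
  fcheck_sound (code := 1646056959610322661287457713817672406230660207819525257131858017) (by decide +kernel)

theorem HT_3_2_3_4_f_f_t_c3180 : HT 3 2 3 4 false false true ⟨0, 11542724608, 0, 1099511627776, 0, 549755813888, 989560464998, 1044536046387⟩ :=
  fcheck_sound (code := 1498795625247529917110495477534906131592850981274835) (by decide +kernel)

theorem HT_3_2_3_4_f_f_t_c3181 : HT 3 2 3 4 false false true ⟨11542724608, 23085449216, 0, 1099511627776, 0, 549755813888, 989560464998, 1044536046387⟩ :=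
  fcheck_sound (code := 32275399907665395670806965249867089107) (by decide +kernel)

theorem HT_3_2_3_4_f_f_t_c3182 : HT 3 2 3 4 false false true ⟨0, 11542724608, 0, 1099511627776, 0, 549755813888, 1044536046387, 1072023837081⟩ :=
  fcheck_sound (code := 34565243387098470077202997460231881939) (by decide +kernel)

theorem HT_3_2_3_4_f_f_t_c3183 : HT 3 2 3 4 false false true ⟨0, 11542724608, 0, 274877906944, 0, 274877906944, 1072023837081, 1085767732428⟩ :=
  fcheck_sound (code := 8323) (by decide +kernel)

theorem HT_3_2_3_4_f_f_t_c3184 : HT 3 2 3 4 false false true ⟨0, 11542724608, 0, 137438953472, 0, 137438953472, 1085767732428, 1092639680102⟩ :=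
  fcheck_sound (code := 131) (by decide +kernel)

theorem HT_3_2_3_4_f_f_t_c3185 : HT 3 2 3 4 false false true ⟨0, 11542724608, 0, 68719476736, 0, 68719476736, 1092639680102, 1096075653939⟩ :=
  fcheck_sound (code := 25) (by decide +kernel)

theorem HT_3_2_3_4_f_f_t_c3186 : HT 3 2 3 4 false false true ⟨0, 2885681152, 0, 34359738368, 0, 34359738368, 1096075653939, 1099511627776⟩ :=
  fcheck_sound (code := 257) (by decide +kernel)

theorem HT_3_2_3_4_f_f_t_c3187 : HT 3 2 3 4 false false true ⟨2885681152, 5771362304, 0, 34359738368, 0, 34359738368, 1096075653939, 1099511627776⟩ :=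
  fcheck_sound (code := 0) (by decide +kernel)

theorem HT_3_2_3_4_f_f_t_c3188 : HT 3 2 3 4 false false true ⟨5771362304, 11542724608, 0, 34359738368, 0, 34359738368, 1096075653939, 1099511627776⟩ :=
  fcheck_sound (code := 0) (by decide +kernel)

theorem HT_3_2_3_4_f_f_t_c3189 : HT 3 2 3 4 false false true ⟨0, 11542724608, 0, 34359738368, 34359738368, 68719476736, 1096075653939, 1099511627776⟩ :=
  fcheck_sound (code := 0) (by decide +kernel)

theorem HT_3_2_3_4_f_f_t_c3190 : HT 3 2 3 4 false false true ⟨0, 5771362304, 34359738368, 68719476736, 0, 68719476736, 1096075653939, 1099511627776⟩ :=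
  fcheck_sound (code := 33) (by decide +kernel)

theorem HT_3_2_3_4_f_f_t_c3191 : HT 3 2 3 4 false false true ⟨5771362304, 11542724608, 34359738368, 68719476736, 0, 68719476736, 1096075653939, 1099511627776⟩ :=
  fcheck_sound (code := 0) (by decide +kernel)

theorem HT_3_2_3_4_f_f_t_c3192 : HT 3 2 3 4 false false true ⟨0, 11542724608, 0, 68719476736, 68719476736, 137438953472, 1092639680102, 1099511627776⟩ :=
  fcheck_sound (code := 0) (by decide +kernel)

theorem HT_3_2_3_4_f_f_t_c3193 : HT 3 2 3 4 false false true ⟨0, 5771362304, 68719476736, 137438953472, 0, 137438953472, 1092639680102, 1096075653939⟩ :=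
  fcheck_sound (code := 131) (by decide +kernel)

theorem HT_3_2_3_4_f_f_t_c3194 : HT 3 2 3 4 false false true ⟨0, 5771362304, 68719476736, 137438953472, 0, 68719476736, 1096075653939, 1099511627776⟩ :=
  fcheck_sound (code := 27) (by decide +kernel)

theorem HT_3_2_3_4_f_f_t_c3195 : HT 3 2 3 4 false false true ⟨0, 5771362304, 68719476736, 137438953472, 68719476736, 137438953472, 1096075653939, 1099511627776⟩ :=
  fcheck_sound (code := 1043) (by decide +kernel)

theorem HT_3_2_3_4_f_f_t_c3196 : HT 3 2 3 4 false false true ⟨5771362304, 11542724608, 68719476736, 137438953472, 0, 137438953472, 1092639680102, 1099511627776⟩ :=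
  fcheck_sound (code := 587210971) (by decide +kernel)

theorem HT_3_2_3_4_f_f_t_c3197 : HT 3 2 3 4 false false true ⟨0, 11542724608, 0, 137438953472, 137438953472, 274877906944, 1085767732428, 1099511627776⟩ :=
  fcheck_sound (code := 0) (by decide +kernel)

theorem HT_3_2_3_4_f_f_t_c3198 : HT 3 2 3 4 false false true ⟨0, 11542724608, 137438953472, 274877906944, 0, 274877906944, 1085767732428, 1092639680102⟩ :=
  fcheck_sound (code := 4980891) (by decide +kernel)

theorem HT_3_2_3_4_f_f_t_c3199 : HT 3 2 3 4 false false true ⟨0, 11542724608, 137438953472, 274877906944, 0, 137438953472, 1092639680102, 1099511627776⟩ :=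
  fcheck_sound (code := 16782363) (by decide +kernel)

end Crest.Agent.R310.Bx
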