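import Crest.Agent.R310.BxTab

set_option autoImplicit false

namespace Crest.Agent.R310.Bx

open Crest.Agent.Lib.IBox

theorem HT_3_3_3_4_f_f_t_c3285 : HT 3 3 3 4 false false true ⟨0, 23085449216, 0, 549755813888, 0, 1099511627776, 989560464998, 1044536046387⟩ :=
  fcheck_sound (code := 3) (by decide +kernel)

theorem HT_3_3_3_4_f_f_t_c3286 : HT 3 3 3 4 false false true ⟨0, 23085449216, 0, 274877906944, 0, 549755813888, 1044536046387, 1072023837081⟩ :=
  fcheck_sound (code := 0) (by decide +kernel)

theorem HT_3_3_3_4_f_f_t_c3287 : HT 3 3 3 4 false false true ⟨0, 23085449216, 0, 274877906944, 0, 549755813888, 1072023837081, 1085767732428⟩ :=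
  fcheck_sound (code := 3) (by decide +kernel)

theorem HT_3_3_3_4_f_f_t_c3288 : HT 3 3 3 4 false false true ⟨0, 23085449216, 0, 274877906944, 0, 549755813888, 1085767732428, 1099511627776⟩ :=
  fcheck_sound (code := 262283) (by decide +kernel)

theorem HT_3_3_3_4_f_f_t_c3289 : HT 3 3 3 4 false false true ⟨0, 23085449216, 274877906944, 549755813888, 0, 549755813888, 1044536046387, 1099511627776⟩ :=
  fcheck_sound (code := 0) (by decide +kernel)

theorem HT_3_3_3_4_f_f_t_c3290 : HT 3 3 3 4 false false true ⟨0, 23085449216, 0, 549755813888, 549755813888, 1099511627776, 1044536046387, 1099511627776⟩ :=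
  fcheck_sound (code := 2099290) (by decide +kernel)

theorem HT_3_3_3_4_f_f_t_c3291 : HT 3 3 3 4 false false true ⟨23085449216, 46170898432, 0, 549755813888, 0, 1099511627776, 989560464998, 1044536046387⟩ :=
  fcheck_sound (code := 3) (by decide +kernel)

theorem HT_3_3_3_4_f_f_t_c3292 : HT 3 3 3 4 false false true ⟨23085449216, 46170898432, 0, 549755813888, 0, 549755813888, 1044536046387, 1099511627776⟩ :=
  fcheck_sound (code := 8657383452) (by decide +kernel)

theorem HT_3_3_3_4_f_f_t_c3293 : HT 3 3 3 4 false false true ⟨23085449216, 46170898432, 0, 549755813888, 549755813888, 1099511627776, 1044536046387, 1099511627776⟩ :=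
  fcheck_sound (code := 25) (by decide +kernel)

theorem HT_3_3_3_4_f_f_t_c3294 : HT 3 3 3 4 false false true ⟨0, 46170898432, 549755813888, 1099511627776, 0, 1099511627776, 989560464998, 1099511627776⟩ :=
  fcheck_sound (code := 4985385517321) (by decide +kernel)

theorem HTE_3_3_3_f_f_t_c3295 : HTE 3 3 3 false false true ⟨0, 46170898432, 0, 1099511627776, 0, 1099511627776, 0, 0⟩ :=
  fcheck_sound (code := 221505360735563264666) (by decide +kernel)

theorem HTU_2_2_t_c3296 : HTU 2 2 true ⟨0, 46170898432, 0, 1099511627776, 0, 0, 0, 0⟩ :=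
  fcheck_sound (code := 17040394) (by decide +kernel)

theorem HTU_2_2_f_c3297 : HTU 2 2 false ⟨0, 46170898432, 0, 1099511627776, 0, 0, 0, 0⟩ :=
  fcheck_sound (code := 17040394) (by decide +kernel)

theorem HTU_2_3_t_c3298 : HTU 2 3 true ⟨0, 46170898432, 0, 1099511627776, 0, 0, 0, 0⟩ :=
  fcheck_sound (code := 73967190727062519882) (by decide +kernel)

theorem HTU_2_3_f_c3299 : HTU 2 3 false ⟨0, 46170898432, 0, 1099511627776, 0, 0, 0, 0⟩ :=
  fcheck_sound (code := 91544602705110506323165752288311852179767960146) (by decide +kernel)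

theorem HTU_3_3_t_c3300 : HTU 3 3 true ⟨0, 46170898432, 0, 1099511627776, 0, 0, 0, 0⟩ :=
  fcheck_sound (code := 68870504530) (by decide +kernel)

theorem HTU_3_3_f_c3301 : HTU 3 3 false ⟨0, 46170898432, 0, 1099511627776, 0, 0, 0, 0⟩ :=
  fcheck_sound (code := 68870504594) (by decide +kernel)

theorem HO_0_t_f_f_c3302 : HO 0 true false false ⟨0, 34896609280, 0, 1099511627776, 0, 1099511627776, 329853488332, 439804651111⟩ :=
  fcheck_sound (code := 1943570848684986043565402490138) (by decide +kernel)

theorem HO_1_t_f_f_c3303 : HO 1 true false false ⟨0, 34896609280, 0, 1099511627776, 0, 1099511627776, 439804651110, 549755813888⟩ :=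
  fcheck_sound (code := 113597357058380121770266) (by decide +kernel)

theorem HO_2_t_f_f_c3304 : HO 2 true false false ⟨0, 34896609280, 0, 1099511627776, 0, 1099511627776, 549755813888, 659706976666⟩ :=
  fcheck_sound (code := 275465240858) (by decide +kernel)

theorem HO_3_t_f_f_c3305 : HO 3 true false false ⟨0, 34896609280, 0, 1099511627776, 0, 1099511627776, 659706976665, 879609302221⟩ :=
  fcheck_sound (code := 70746629320100422677110074403733786) (by decide +kernel)

theorem HO_4_t_f_f_c3306 : HO 4 true false false ⟨0, 34896609280, 0, 1099511627776, 0, 1099511627776, 879609302220, 1099511627776⟩ :=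
  fcheck_sound (code := 27922269722) (by decide +kernel)

theorem HOE_t_f_f_c3307 : HOE true false false ⟨0, 34896609280, 0, 1099511627776, 0, 1099511627776, 0, 0⟩ :=
  fcheck_sound (code := 0) (by decide +kernel)

theorem HO_0_f_t_f_c3308 : HO 0 false true false ⟨0, 34896609280, 0, 1099511627776, 0, 1099511627776, 329853488332, 439804651111⟩ :=
  fcheck_sound (code := 166621579921514231345869218875589843) (by decide +kernel)

theorem HO_1_f_t_f_c3309 : HO 1 false true false ⟨0, 34896609280, 0, 1099511627776, 0, 1099511627776, 439804651110, 549755813888⟩ :=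
  fcheck_sound (code := 1051) (by decide +kernel)

theorem HO_2_f_t_f_c3310 : HO 2 false true false ⟨0, 34896609280, 0, 1099511627776, 0, 1099511627776, 549755813888, 659706976666⟩ :=
  fcheck_sound (code := 1016819190375021472010630729303827) (by decide +kernel)

theorem HO_3_f_t_f_c3311 : HO 3 false true false ⟨0, 34896609280, 0, 1099511627776, 0, 1099511627776, 659706976665, 879609302221⟩ :=
  fcheck_sound (code := 113105822935612112538712164532452660345014487756076834525505149737850775203) (by decide +kernel)

theorem HO_4_f_t_f_c3312 : HO 4 false true false ⟨0, 34896609280, 0, 1099511627776, 0, 1099511627776, 879609302220, 1099511627776⟩ :=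
  fcheck_sound (code := 27) (by decide +kernel)

theorem HOE_f_t_f_c3313 : HOE false true false ⟨0, 34896609280, 0, 1099511627776, 0, 1099511627776, 0, 0⟩ :=
  fcheck_sound (code := 0) (by decide +kernel)

theorem HO_0_f_f_t_c3314 : HO 0 false false true ⟨0, 34896609280, 0, 1099511627776, 0, 1099511627776, 329853488332, 439804651111⟩ :=
  fcheck_sound (code := 166621579921514231345869218875589843) (by decide +kernel)

theorem HO_1_f_f_t_c3315 : HO 1 false false true ⟨0, 34896609280, 0, 1099511627776, 0, 1099511627776, 439804651110, 549755813888⟩ :=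
  fcheck_sound (code := 1051) (by decide +kernel)

theorem HO_2_f_f_t_c3316 : HO 2 false false true ⟨0, 34896609280, 0, 1099511627776, 0, 1099511627776, 549755813888, 659706976666⟩ :=
  fcheck_sound (code := 1016819190375021472010630729303827) (by decide +kernel)

theorem HO_3_f_f_t_c3317 : HO 3 false false true ⟨0, 34896609280, 0, 1099511627776, 0, 1099511627776, 659706976665, 879609302221⟩ :=
  fcheck_sound (code := 113105822935612112538712164532452311895870760715090248029907139607202244259) (by decide +kernel)

theorem HO_4_f_f_t_c3318 : HO 4 false false true ⟨0, 34896609280, 0, 1099511627776, 0, 1099511627776, 879609302220, 1099511627776⟩ :=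
  fcheck_sound (code := 27) (by decide +kernel)

theorem HOE_f_f_t_c3319 : HOE false false true ⟨0, 34896609280, 0, 1099511627776, 0, 1099511627776, 0, 0⟩ :=
  fcheck_sound (code := 0) (by decide +kernel)

end Crest.Agent.R310.Bx
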