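import Crest.Agent.R310.BxTab

set_option autoImplicit false

namespace Crest.Agent.R310.Bx

open Crest.Agent.Lib.IBox

theorem HP_1_4_4_3_c710 : HP 1 4 4 3 ⟨137438953472, 171798691840, 469583091028, 481036337151, 469582173524, 481035550719, 769658139443, 879609302221⟩ :=
  fcheck_sound (code := 0) (by decide +kernel)

theorem HP_1_4_4_3_c711 : HP 1 4 4 3 ⟨171798691840, 206158430208, 458129844906, 481036337151, 469582173524, 481035550719, 769658139443, 879609302221⟩ :=
  fcheck_sound (code := 16642) (by decide +kernel)

theorem HP_1_4_4_3_c712 : HP 1 4 4 3 ⟨137438953472, 206158430208, 481036337151, 503942829397, 458128796330, 481035550719, 769658139443, 879609302221⟩ :=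
  fcheck_sound (code := 5) (by decide +kernel)

theorem HP_1_4_4_3_c713 : HP 1 4 4 3 ⟨137438953472, 171798691840, 458129844906, 503942829397, 481035550719, 503942305109, 769658139443, 879609302221⟩ :=
  fcheck_sound (code := 0) (by decide +kernel)

theorem HP_1_4_4_3_c714 : HP 1 4 4 3 ⟨171798691840, 206158430208, 458129844906, 503942829397, 481035550719, 503942305109, 769658139443, 879609302221⟩ :=
  fcheck_sound (code := 0) (by decide +kernel)

theorem HP_1_4_4_3_c715 : HP 1 4 4 3 ⟨206158430208, 274877906944, 458129844906, 503942829397, 458128796330, 503942305109, 659706976665, 879609302221⟩ :=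
  fcheck_sound (code := 5632234161285126601475300) (by decide +kernel)

theorem HP_1_4_4_3_c716 : HP 1 4 4 3 ⟨137438953472, 274877906944, 503942829397, 549755813888, 458128796330, 503942305109, 659706976665, 879609302221⟩ :=
  fcheck_sound (code := 5) (by decide +kernel)

theorem HP_1_4_4_3_c717 : HP 1 4 4 3 ⟨137438953472, 274877906944, 458129844906, 503942829397, 503942305109, 549755813888, 659706976665, 769658139443⟩ :=
  fcheck_sound (code := 137479848097) (by decide +kernel)

theorem HP_1_4_4_3_c718 : HP 1 4 4 3 ⟨137438953472, 274877906944, 458129844906, 503942829397, 503942305109, 549755813888, 769658139443, 879609302221⟩ :=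
  fcheck_sound (code := 1153) (by decide +kernel)

theorem HP_1_4_4_3_c719 : HP 1 4 4 3 ⟨137438953472, 274877906944, 503942829397, 549755813888, 503942305109, 549755813888, 659706976665, 879609302221⟩ :=
  fcheck_sound (code := 68736647436) (by decide +kernel)

theorem HP_1_4_4_4_c720 : HP 1 4 4 4 ⟨137438953472, 154618822656, 458129844906, 481036337151, 458128796330, 469582173524, 879609302220, 1099511627776⟩ :=
  fcheck_sound (code := 20514) (by decide +kernel)

theorem HP_1_4_4_4_c721 : HP 1 4 4 4 ⟨137438953472, 154618822656, 458129844906, 469583091028, 469582173524, 481035550719, 879609302220, 1099511627776⟩ :=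
  fcheck_sound (code := 4) (by decide +kernel)

theorem HP_1_4_4_4_c722 : HP 1 4 4 4 ⟨137438953472, 154618822656, 469583091028, 481036337151, 469582173524, 481035550719, 879609302220, 989560464998⟩ :=
  fcheck_sound (code := 2754) (by decide +kernel)

theorem HP_1_4_4_4_c723 : HP 1 4 4 4 ⟨137438953472, 154618822656, 469583091028, 481036337151, 469582173524, 481035550719, 989560464998, 1099511627776⟩ :=
  fcheck_sound (code := 1795708433) (by decide +kernel)

theorem HP_1_4_4_4_c724 : HP 1 4 4 4 ⟨154618822656, 171798691840, 458129844906, 481036337151, 458128796330, 463855484927, 879609302220, 989560464998⟩ :=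
  fcheck_sound (code := 23058) (by decide +kernel)

theorem HP_1_4_4_4_c725 : HP 1 4 4 4 ⟨154618822656, 171798691840, 458129844906, 469583091028, 463855484927, 469582173524, 879609302220, 934584883609⟩ :=
  fcheck_sound (code := 0) (by decide +kernel)

theorem HP_1_4_4_4_c726 : HP 1 4 4 4 ⟨154618822656, 171798691840, 469583091028, 481036337151, 463855484927, 469582173524, 879609302220, 934584883609⟩ :=
  fcheck_sound (code := 5) (by decide +kernel)

theorem HP_1_4_4_4_c727 : HP 1 4 4 4 ⟨154618822656, 171798691840, 458129844906, 481036337151, 463855484927, 469582173524, 934584883609, 989560464998⟩ :=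
  fcheck_sound (code := 322) (by decide +kernel)

end Crest.Agent.R310.Bx
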