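import Crest.Agent.R310.BxTab

set_option autoImplicit false

namespace Crest.Agent.R310.Bx

open Crest.Agent.Lib.IBox

theorem HP_1_4_4_4_c728 : HP 1 4 4 4 ⟨154618822656, 171798691840, 458129844906, 481036337151, 469582173524, 481035550719, 879609302220, 989560464998⟩ :=
  fcheck_sound (code := 0) (by decide +kernel)

theorem HP_1_4_4_4_c729 : HP 1 4 4 4 ⟨154618822656, 171798691840, 458129844906, 481036337151, 458128796330, 469582173524, 989560464998, 1099511627776⟩ :=
  fcheck_sound (code := 103852315070127323821673977360844058) (by decide +kernel)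

theorem HP_1_4_4_4_c730 : HP 1 4 4 4 ⟨154618822656, 171798691840, 458129844906, 481036337151, 469582173524, 481035550719, 989560464998, 1044536046387⟩ :=
  fcheck_sound (code := 0) (by decide +kernel)

theorem HP_1_4_4_4_c731 : HP 1 4 4 4 ⟨154618822656, 171798691840, 458129844906, 481036337151, 469582173524, 481035550719, 1044536046387, 1072023837081⟩ :=
  fcheck_sound (code := 0) (by decide +kernel)

theorem HP_1_4_4_4_c732 : HP 1 4 4 4 ⟨154618822656, 171798691840, 458129844906, 481036337151, 469582173524, 481035550719, 1072023837081, 1099511627776⟩ :=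
  fcheck_sound (code := 74) (by decide +kernel)

theorem HP_1_4_4_4_c733 : HP 1 4 4 4 ⟨137438953472, 171798691840, 481036337151, 503942829397, 458128796330, 481035550719, 879609302220, 1099511627776⟩ :=
  fcheck_sound (code := 5) (by decide +kernel)

theorem HP_1_4_4_4_c734 : HP 1 4 4 4 ⟨137438953472, 171798691840, 458129844906, 481036337151, 481035550719, 503942305109, 879609302220, 934584883609⟩ :=
  fcheck_sound (code := 0) (by decide +kernel)

theorem HP_1_4_4_4_c735 : HP 1 4 4 4 ⟨137438953472, 171798691840, 458129844906, 481036337151, 481035550719, 503942305109, 934584883609, 989560464998⟩ :=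
  fcheck_sound (code := 10) (by decide +kernel)

theorem HP_1_4_4_4_c736 : HP 1 4 4 4 ⟨137438953472, 171798691840, 458129844906, 481036337151, 481035550719, 503942305109, 989560464998, 1099511627776⟩ :=
  fcheck_sound (code := 10) (by decide +kernel)

theorem HP_1_4_4_4_c737 : HP 1 4 4 4 ⟨137438953472, 171798691840, 481036337151, 503942829397, 481035550719, 503942305109, 879609302220, 1099511627776⟩ :=
  fcheck_sound (code := 0) (by decide +kernel)

theorem HP_1_4_4_4_c738 : HP 1 4 4 4 ⟨171798691840, 206158430208, 458129844906, 503942829397, 458128796330, 469582173524, 879609302220, 989560464998⟩ :=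
  fcheck_sound (code := 0) (by decide +kernel)

theorem HP_1_4_4_4_c739 : HP 1 4 4 4 ⟨171798691840, 206158430208, 458129844906, 503942829397, 469582173524, 481035550719, 879609302220, 989560464998⟩ :=
  fcheck_sound (code := 20498) (by decide +kernel)

theorem HP_1_4_4_4_c740 : HP 1 4 4 4 ⟨171798691840, 206158430208, 458129844906, 503942829397, 481035550719, 503942305109, 879609302220, 989560464998⟩ :=
  fcheck_sound (code := 0) (by decide +kernel)

theorem HP_1_4_4_4_c741 : HP 1 4 4 4 ⟨171798691840, 206158430208, 458129844906, 503942829397, 458128796330, 481035550719, 989560464998, 1044536046387⟩ :=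
  fcheck_sound (code := 1311875) (by decide +kernel)

theorem HP_1_4_4_4_c742 : HP 1 4 4 4 ⟨171798691840, 206158430208, 458129844906, 503942829397, 458128796330, 481035550719, 1044536046387, 1099511627776⟩ :=
  fcheck_sound (code := 91585146715375252) (by decide +kernel)

theorem HP_1_4_4_4_c743 : HP 1 4 4 4 ⟨171798691840, 206158430208, 458129844906, 503942829397, 481035550719, 503942305109, 989560464998, 1099511627776⟩ :=
  fcheck_sound (code := 0) (by decide +kernel)

end Crest.Agent.R310.Bx
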