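import Crest.Agent.R310.Run.X0
import Crest.Agent.R310.Run.X1
import Crest.Agent.R310.Run.X2
import Crest.Agent.R310.Run.X3
import Crest.Agent.R310.Run.X4
import Crest.Agent.R310.Run.X5
import Crest.Agent.R310.Run.X6
import Crest.Agent.R310.Run.X7
import Crest.Agent.R310.Run.X8
import Crest.Agent.R310.Run.X9
import Crest.Agent.R310.Run.X10
import Crest.Agent.R310.Run.X11
import Crest.Agent.R310.Run.X12
import Crest.Agent.R310.Run.X13
import Crest.Agent.R310.Run.X14
import Crest.Agent.R310.Run.X15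
import Crest.Agent.R310.Run.X16
import Crest.Agent.R310.Run.X17
import Crest.Agent.R310.Run.X18
import Crest.Agent.R310.Run.X19
import Crest.Agent.R310.Run.X20
import Crest.Agent.R310.Run.X21
import Crest.Agent.R310.Run.X22
import Crest.Agent.R310.Run.X23
import Crest.Agent.R310.Run.X24
import Crest.Agent.R310.Run.X25
import Crest.Agent.R310.Run.X26
import Crest.Agent.R310.Run.X27
import Crest.Agent.R310.Run.X28
import Crest.Agent.R310.Run.X29
import Crest.Agent.R310.Run.X30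
import Crest.Agent.R310.Run.X31
import Crest.Agent.R310.Run.X32
import Crest.Agent.R310.Run.X33
import Crest.Agent.R310.Run.X34
import Crest.Agent.R310.Run.X35
import Crest.Agent.R310.Run.X36
import Crest.Agent.R310.Run.X37
import Crest.Agent.R310.Run.X38
import Crest.Agent.R310.Run.X39
import Crest.Agent.R310.Run.X40
import Crest.Agent.R310.Run.X41
import Crest.Agent.R310.Run.X42
import Crest.Agent.R310.Run.X43
import Crest.Agent.R310.Run.X44
import Crest.Agent.R310.Run.X45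
import Crest.Agent.R310.Run.X46
import Crest.Agent.R310.Run.X47
import Crest.Agent.R310.Run.X48
import Crest.Agent.R310.Run.X49
import Crest.Agent.R310.Run.X50
import Crest.Agent.R310.Run.X51
import Crest.Agent.R310.Run.X52
import Crest.Agent.R310.Run.X53
import Crest.Agent.R310.Run.X54
import Crest.Agent.R310.Run.X55
import Crest.Agent.R310.Run.X56
import Crest.Agent.R310.Run.X57
import Crest.Agent.R310.Run.X58
import Crest.Agent.R310.Run.X59
import Crest.Agent.R310.Run.X60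
import Crest.Agent.R310.Run.X61
import Crest.Agent.R310.Run.X62
import Crest.Agent.R310.Run.X63
import Crest.Agent.R310.Run.X64
import Crest.Agent.R310.Run.X65
import Crest.Agent.R310.Run.X66
import Crest.Agent.R310.Run.X67
import Crest.Agent.R310.Run.X68
import Crest.Agent.R310.Run.X69
import Crest.Agent.R310.Run.X70
import Crest.Agent.R310.Run.X71
import Crest.Agent.R310.Run.X72
import Crest.Agent.R310.Run.X73
import Crest.Agent.R310.Run.X74
import Crest.Agent.R310.Run.X75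
import Crest.Agent.R310.Run.X76
import Crest.Agent.R310.Run.X77
import Crest.Agent.R310.Run.X78
import Crest.Agent.R310.Run.X79
import Crest.Agent.R310.Run.X80
import Crest.Agent.R310.Run.X81
import Crest.Agent.R310.Run.X82
import Crest.Agent.R310.Run.X83
import Crest.Agent.R310.Run.X84
import Crest.Agent.R310.Run.X85
import Crest.Agent.R310.Run.X86
import Crest.Agent.R310.Run.X87
import Crest.Agent.R310.Run.X88
import Crest.Agent.R310.Run.X89
import Crest.Agent.R310.Run.X90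
import Crest.Agent.R310.Run.X91
import Crest.Agent.R310.Run.X92
import Crest.Agent.R310.Run.X93
import Crest.Agent.R310.Run.X94
import Crest.Agent.R310.Run.X95
import Crest.Agent.R310.Run.X96
import Crest.Agent.R310.Run.X97
import Crest.Agent.R310.Run.X98
import Crest.Agent.R310.Run.X99
import Crest.Agent.R310.Run.X100
import Crest.Agent.R310.Run.X101
import Crest.Agent.R310.Run.X102
import Crest.Agent.R310.Run.X103
import Crest.Agent.R310.Run.X104
import Crest.Agent.R310.Run.X105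
import Crest.Agent.R310.Run.X106
import Crest.Agent.R310.Run.X107
import Crest.Agent.R310.Run.X108
import Crest.Agent.R310.Run.X109
import Crest.Agent.R310.Run.X110
import Crest.Agent.R310.Run.X111
import Crest.Agent.R310.Run.X112
import Crest.Agent.R310.Run.X113
import Crest.Agent.R310.Run.X114
import Crest.Agent.R310.Run.X115
import Crest.Agent.R310.Run.X116
import Crest.Agent.R310.Run.X117
import Crest.Agent.R310.Run.X118
import Crest.Agent.R310.Run.X119
import Crest.Agent.R310.Run.X120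
import Crest.Agent.R310.Run.X121
import Crest.Agent.R310.Run.X122
import Crest.Agent.R310.Run.X123
import Crest.Agent.R310.Run.X124
import Crest.Agent.R310.Run.X125
import Crest.Agent.R310.Run.X126
import Crest.Agent.R310.Run.X127
import Crest.Agent.R310.Run.X128
import Crest.Agent.R310.Run.X129
import Crest.Agent.R310.Run.X130
import Crest.Agent.R310.Run.X131
import Crest.Agent.R310.Run.X132
import Crest.Agent.R310.Run.X133
import Crest.Agent.R310.Run.X134
import Crest.Agent.R310.Run.X135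
import Crest.Agent.R310.Run.X136
import Crest.Agent.R310.Run.X137
import Crest.Agent.R310.Run.X138
import Crest.Agent.R310.Run.X139
import Crest.Agent.R310.Run.X140
import Crest.Agent.R310.Run.X141
import Crest.Agent.R310.Run.X142
import Crest.Agent.R310.Run.X143
import Crest.Agent.R310.Run.X144
import Crest.Agent.R310.Run.X145
import Crest.Agent.R310.Run.X146
import Crest.Agent.R310.Run.X147
import Crest.Agent.R310.Run.X148
import Crest.Agent.R310.Run.X149
import Crest.Agent.R310.Run.X150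
import Crest.Agent.R310.Run.X151
import Crest.Agent.R310.Run.X152
import Crest.Agent.R310.Run.X153
import Crest.Agent.R310.Run.X154
import Crest.Agent.R310.Run.X155
import Crest.Agent.R310.Run.X156
import Crest.Agent.R310.Run.X157
import Crest.Agent.R310.Run.X158

set_option autoImplicit false

namespace Crest.Agent.R310.Bx

open Crest.Agent.Lib.IBox

theorem HP_0_0_0_0 : HP 0 0 0 0 ⟨0, 137438953472, 0, 137438953472, (-1048576), 137438953472, 329853488332, 439804651111⟩ :=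
  (FHolds.split3 68718952448 HP_0_0_0_0_c0 HP_0_0_0_0_c1)

theorem HP_0_0_0_1 : HP 0 0 0 1 ⟨0, 137438953472, 0, 137438953472, (-1048576), 137438953472, 439804651110, 549755813888⟩ :=
  HP_0_0_0_1_c2

theorem HP_0_0_0_2 : HP 0 0 0 2 ⟨0, 137438953472, 0, 137438953472, (-1048576), 137438953472, 549755813888, 659706976666⟩ :=
  (FHolds.split3 68718952448 HP_0_0_0_2_c3 HP_0_0_0_2_c4)

theorem HP_0_0_0_3 : HP 0 0 0 3 ⟨0, 137438953472, 0, 137438953472, (-1048576), 137438953472, 659706976665, 879609302221⟩ :=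
  (FHolds.split3 68718952448 (FHolds.split1 68719476736 (FHolds.split2 68719476736 (FHolds.split4 769658139443 HP_0_0_0_3_c5 HP_0_0_0_3_c6) HP_0_0_0_3_c7) HP_0_0_0_3_c8) (FHolds.split1 68719476736 HP_0_0_0_3_c9 HP_0_0_0_3_c10))

theorem HP_0_0_0_4 : HP 0 0 0 4 ⟨0, 137438953472, 0, 137438953472, (-1048576), 137438953472, 879609302220, 1099511627776⟩ :=
  (FHolds.split3 68718952448 (FHolds.split1 68719476736 HP_0_0_0_4_c11 HP_0_0_0_4_c12) HP_0_0_0_4_c13)

theorem HE_0_0_0 : HE 0 0 0 ⟨0, 137438953472, 0, 137438953472, (-1048576), 137438953472, 0, 0⟩ :=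
  HE_0_0_0_c14

theorem HP_0_0_1_0 : HP 0 0 1 0 ⟨0, 137438953472, 0, 137438953472, 137438953472, 274877906944, 329853488332, 439804651111⟩ :=
  HP_0_0_1_0_c15

theorem HP_0_0_1_1 : HP 0 0 1 1 ⟨0, 137438953472, 0, 137438953472, 137438953472, 274877906944, 439804651110, 549755813888⟩ :=
  HP_0_0_1_1_c16

theorem HP_0_0_1_2 : HP 0 0 1 2 ⟨0, 137438953472, 0, 137438953472, 137438953472, 274877906944, 549755813888, 659706976666⟩ :=
  HP_0_0_1_2_c17

theorem HP_0_0_1_3 : HP 0 0 1 3 ⟨0, 137438953472, 0, 137438953472, 137438953472, 274877906944, 659706976665, 879609302221⟩ :=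
  HP_0_0_1_3_c18

theorem HP_0_0_1_4 : HP 0 0 1 4 ⟨0, 137438953472, 0, 137438953472, 137438953472, 274877906944, 879609302220, 1099511627776⟩ :=
  HP_0_0_1_4_c19

theorem HE_0_0_1 : HE 0 0 1 ⟨0, 137438953472, 0, 137438953472, 137438953472, 274877906944, 0, 0⟩ :=
  HE_0_0_1_c20

theorem HP_0_1_1_0 : HP 0 1 1 0 ⟨0, 137438953472, 137438953472, 274877906944, 137437904896, 274877906944, 329853488332, 439804651111⟩ :=
  HP_0_1_1_0_c21

theorem HP_0_1_1_1 : HP 0 1 1 1 ⟨0, 137438953472, 137438953472, 274877906944, 137437904896, 274877906944, 439804651110, 549755813888⟩ :=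
  HP_0_1_1_1_c22

theorem HP_0_1_1_2 : HP 0 1 1 2 ⟨0, 137438953472, 137438953472, 274877906944, 137437904896, 274877906944, 549755813888, 659706976666⟩ :=
  HP_0_1_1_2_c23

theorem HP_0_1_1_3 : HP 0 1 1 3 ⟨0, 137438953472, 137438953472, 274877906944, 137437904896, 274877906944, 659706976665, 879609302221⟩ :=
  HP_0_1_1_3_c24

theorem HP_0_1_1_4 : HP 0 1 1 4 ⟨0, 137438953472, 137438953472, 274877906944, 137437904896, 274877906944, 879609302220, 1099511627776⟩ :=
  HP_0_1_1_4_c25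

theorem HE_0_1_1 : HE 0 1 1 ⟨0, 137438953472, 137438953472, 274877906944, 137437904896, 274877906944, 0, 0⟩ :=
  HE_0_1_1_c26

theorem HP_0_0_2_0 : HP 0 0 2 0 ⟨0, 137438953472, 0, 137438953472, 274877906944, 366503875926, 329853488332, 439804651111⟩ :=
  (FHolds.split1 68719476736 (FHolds.split3 320690891435 HP_0_0_2_0_c27 HP_0_0_2_0_c28) (FHolds.split2 68719476736 (FHolds.split4 384829069721 HP_0_0_2_0_c29 HP_0_0_2_0_c30) HP_0_0_2_0_c31))

theorem HP_0_0_2_1 : HP 0 0 2 1 ⟨0, 137438953472, 0, 137438953472, 274877906944, 366503875926, 439804651110, 549755813888⟩ :=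
  HP_0_0_2_1_c32

theorem HP_0_0_2_2 : HP 0 0 2 2 ⟨0, 137438953472, 0, 137438953472, 274877906944, 366503875926, 549755813888, 659706976666⟩ :=
  HP_0_0_2_2_c33

theorem HP_0_0_2_3 : HP 0 0 2 3 ⟨0, 137438953472, 0, 137438953472, 274877906944, 366503875926, 659706976665, 879609302221⟩ :=
  HP_0_0_2_3_c34

theorem HP_0_0_2_4 : HP 0 0 2 4 ⟨0, 137438953472, 0, 137438953472, 274877906944, 366503875926, 879609302220, 1099511627776⟩ :=
  HP_0_0_2_4_c35

theorem HE_0_0_2 : HE 0 0 2 ⟨0, 137438953472, 0, 137438953472, 274877906944, 366503875926, 0, 0⟩ :=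
  HE_0_0_2_c36

theorem HP_0_1_2_0 : HP 0 1 2 0 ⟨0, 137438953472, 137438953472, 274877906944, 274877906944, 366503875926, 329853488332, 439804651111⟩ :=
  (FHolds.split1 68719476736 HP_0_1_2_0_c37 HP_0_1_2_0_c38)

theorem HP_0_1_2_1 : HP 0 1 2 1 ⟨0, 137438953472, 137438953472, 274877906944, 274877906944, 366503875926, 439804651110, 549755813888⟩ :=
  (FHolds.split1 68719476736 HP_0_1_2_1_c39 HP_0_1_2_1_c40)

theorem HP_0_1_2_2 : HP 0 1 2 2 ⟨0, 137438953472, 137438953472, 274877906944, 274877906944, 366503875926, 549755813888, 659706976666⟩ :=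
  HP_0_1_2_2_c41

theorem HP_0_1_2_3 : HP 0 1 2 3 ⟨0, 137438953472, 137438953472, 274877906944, 274877906944, 366503875926, 659706976665, 879609302221⟩ :=
  HP_0_1_2_3_c42

theorem HP_0_1_2_4 : HP 0 1 2 4 ⟨0, 137438953472, 137438953472, 274877906944, 274877906944, 366503875926, 879609302220, 1099511627776⟩ :=
  HP_0_1_2_4_c43

theorem HE_0_1_2 : HE 0 1 2 ⟨0, 137438953472, 137438953472, 274877906944, 274877906944, 366503875926, 0, 0⟩ :=
  HE_0_1_2_c44

theorem HP_0_2_2_0 : HP 0 2 2 0 ⟨0, 137438953472, 274877906944, 366503875926, 274876858368, 366503875926, 329853488332, 439804651111⟩ :=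
  HP_0_2_2_0_c45

theorem HP_0_2_2_1 : HP 0 2 2 1 ⟨0, 137438953472, 274877906944, 366503875926, 274876858368, 366503875926, 439804651110, 549755813888⟩ :=
  (FHolds.split1 68719476736 HP_0_2_2_1_c46 HP_0_2_2_1_c47)

theorem HP_0_2_2_2 : HP 0 2 2 2 ⟨0, 137438953472, 274877906944, 366503875926, 274876858368, 366503875926, 549755813888, 659706976666⟩ :=
  HP_0_2_2_2_c48

theorem HP_0_2_2_3 : HP 0 2 2 3 ⟨0, 137438953472, 274877906944, 366503875926, 274876858368, 366503875926, 659706976665, 879609302221⟩ :=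
  HP_0_2_2_3_c49

theorem HP_0_2_2_4 : HP 0 2 2 4 ⟨0, 137438953472, 274877906944, 366503875926, 274876858368, 366503875926, 879609302220, 1099511627776⟩ :=
  HP_0_2_2_4_c50

theorem HE_0_2_2 : HE 0 2 2 ⟨0, 137438953472, 274877906944, 366503875926, 274876858368, 366503875926, 0, 0⟩ :=
  HE_0_2_2_c51

theorem HP_0_0_3_0 : HP 0 0 3 0 ⟨0, 137438953472, 0, 137438953472, 366503875925, 458129844907, 329853488332, 439804651111⟩ :=
  (FHolds.split1 68719476736 (FHolds.split3 412316860416 HP_0_0_3_0_c52 (FHolds.split2 68719476736 HP_0_0_3_0_c53 HP_0_0_3_0_c54)) (FHolds.split2 68719476736 (FHolds.split3 412316860416 HP_0_0_3_0_c55 HP_0_0_3_0_c56) HP_0_0_3_0_c57))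

theorem HP_0_0_3_1 : HP 0 0 3 1 ⟨0, 137438953472, 0, 137438953472, 366503875925, 458129844907, 439804651110, 549755813888⟩ :=
  (FHolds.split1 68719476736 (FHolds.split3 412316860416 HP_0_0_3_1_c58 HP_0_0_3_1_c59) (FHolds.split2 68719476736 HP_0_0_3_1_c60 HP_0_0_3_1_c61))

theorem HP_0_0_3_2 : HP 0 0 3 2 ⟨0, 137438953472, 0, 137438953472, 366503875925, 458129844907, 549755813888, 659706976666⟩ :=
  (FHolds.split1 68719476736 HP_0_0_3_2_c62 HP_0_0_3_2_c63)

theorem HP_0_0_3_3 : HP 0 0 3 3 ⟨0, 137438953472, 0, 137438953472, 366503875925, 458129844907, 659706976665, 879609302221⟩ :=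
  HP_0_0_3_3_c64

theorem HP_0_0_3_4 : HP 0 0 3 4 ⟨0, 137438953472, 0, 137438953472, 366503875925, 458129844907, 879609302220, 1099511627776⟩ :=
  HP_0_0_3_4_c65

theorem HE_0_0_3 : HE 0 0 3 ⟨0, 137438953472, 0, 137438953472, 366503875925, 458129844907, 0, 0⟩ :=
  HE_0_0_3_c66

theorem HP_0_1_3_0 : HP 0 1 3 0 ⟨0, 137438953472, 137438953472, 274877906944, 366503875925, 458129844907, 329853488332, 439804651111⟩ :=
  (FHolds.split1 68719476736 HP_0_1_3_0_c67 HP_0_1_3_0_c68)

theorem HP_0_1_3_1 : HP 0 1 3 1 ⟨0, 137438953472, 137438953472, 274877906944, 366503875925, 458129844907, 439804651110, 549755813888⟩ :=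
  (FHolds.split1 68719476736 (FHolds.split3 412316860416 HP_0_1_3_1_c69 HP_0_1_3_1_c70) HP_0_1_3_1_c71)

theorem HP_0_1_3_2 : HP 0 1 3 2 ⟨0, 137438953472, 137438953472, 274877906944, 366503875925, 458129844907, 549755813888, 659706976666⟩ :=
  (FHolds.split1 68719476736 (FHolds.split3 412316860416 HP_0_1_3_2_c72 HP_0_1_3_2_c73) (FHolds.split3 412316860416 HP_0_1_3_2_c74 HP_0_1_3_2_c75))

theorem HP_0_1_3_3 : HP 0 1 3 3 ⟨0, 137438953472, 137438953472, 274877906944, 366503875925, 458129844907, 659706976665, 879609302221⟩ :=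
  (FHolds.split1 68719476736 HP_0_1_3_3_c76 (FHolds.split3 412316860416 HP_0_1_3_3_c77 HP_0_1_3_3_c78))

theorem HP_0_1_3_4 : HP 0 1 3 4 ⟨0, 137438953472, 137438953472, 274877906944, 366503875925, 458129844907, 879609302220, 1099511627776⟩ :=
  HP_0_1_3_4_c79

theorem HE_0_1_3 : HE 0 1 3 ⟨0, 137438953472, 137438953472, 274877906944, 366503875925, 458129844907, 0, 0⟩ :=
  HE_0_1_3_c80

theorem HP_0_2_3_0 : HP 0 2 3 0 ⟨0, 137438953472, 274877906944, 366503875926, 366503875925, 458129844907, 329853488332, 439804651111⟩ :=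
  (FHolds.split4 384829069721 HP_0_2_3_0_c81 HP_0_2_3_0_c82)

theorem HP_0_2_3_1 : HP 0 2 3 1 ⟨0, 137438953472, 274877906944, 366503875926, 366503875925, 458129844907, 439804651110, 549755813888⟩ :=
  (FHolds.split1 68719476736 HP_0_2_3_1_c83 HP_0_2_3_1_c84)

theorem HP_0_2_3_2 : HP 0 2 3 2 ⟨0, 137438953472, 274877906944, 366503875926, 366503875925, 458129844907, 549755813888, 659706976666⟩ :=
  (FHolds.split1 68719476736 HP_0_2_3_2_c85 HP_0_2_3_2_c86)

theorem HP_0_2_3_3 : HP 0 2 3 3 ⟨0, 137438953472, 274877906944, 366503875926, 366503875925, 458129844907, 659706976665, 879609302221⟩ :=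
  HP_0_2_3_3_c87

theorem HP_0_2_3_4 : HP 0 2 3 4 ⟨0, 137438953472, 274877906944, 366503875926, 366503875925, 458129844907, 879609302220, 1099511627776⟩ :=
  HP_0_2_3_4_c88

theorem HE_0_2_3 : HE 0 2 3 ⟨0, 137438953472, 274877906944, 366503875926, 366503875925, 458129844907, 0, 0⟩ :=
  HE_0_2_3_c89

theorem HP_0_3_3_0 : HP 0 3 3 0 ⟨0, 137438953472, 366503875925, 458129844907, 366502827349, 458129844907, 329853488332, 439804651111⟩ :=
  HP_0_3_3_0_c90

theorem HP_0_3_3_1 : HP 0 3 3 1 ⟨0, 137438953472, 366503875925, 458129844907, 366502827349, 458129844907, 439804651110, 549755813888⟩ :=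
  HP_0_3_3_1_c91

theorem HP_0_3_3_2 : HP 0 3 3 2 ⟨0, 137438953472, 366503875925, 458129844907, 366502827349, 458129844907, 549755813888, 659706976666⟩ :=
  HP_0_3_3_2_c92

theorem HP_0_3_3_3 : HP 0 3 3 3 ⟨0, 137438953472, 366503875925, 458129844907, 366502827349, 458129844907, 659706976665, 879609302221⟩ :=
  HP_0_3_3_3_c93

theorem HP_0_3_3_4 : HP 0 3 3 4 ⟨0, 137438953472, 366503875925, 458129844907, 366502827349, 458129844907, 879609302220, 1099511627776⟩ :=
  HP_0_3_3_4_c94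

theorem HE_0_3_3 : HE 0 3 3 ⟨0, 137438953472, 366503875925, 458129844907, 366502827349, 458129844907, 0, 0⟩ :=
  HE_0_3_3_c95

theorem HP_0_0_4_0 : HP 0 0 4 0 ⟨0, 137438953472, 0, 137438953472, 458129844906, 549755813888, 329853488332, 439804651111⟩ :=
  (FHolds.split1 68719476736 (FHolds.split4 384829069721 HP_0_0_4_0_c96 (FHolds.split3 503942829397 HP_0_0_4_0_c97 HP_0_0_4_0_c98)) HP_0_0_4_0_c99)

theorem HP_0_0_4_1 : HP 0 0 4 1 ⟨0, 137438953472, 0, 137438953472, 458129844906, 549755813888, 439804651110, 549755813888⟩ :=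
  (FHolds.split1 68719476736 (FHolds.split2 68719476736 (FHolds.split3 503942829397 (FHolds.split2 34359738368 HP_0_0_4_1_c100 HP_0_0_4_1_c101) (FHolds.split2 34359738368 (FHolds.split4 494780232499 HP_0_0_4_1_c102 (FHolds.split1 34359738368 HP_0_0_4_1_c103 HP_0_0_4_1_c104)) HP_0_0_4_1_c105)) HP_0_0_4_1_c106) (FHolds.split2 68719476736 (FHolds.split3 503942829397 (FHolds.split2 34359738368 HP_0_0_4_1_c107 HP_0_0_4_1_c108) HP_0_0_4_1_c109) HP_0_0_4_1_c110))

theorem HP_0_0_4_2 : HP 0 0 4 2 ⟨0, 137438953472, 0, 137438953472, 458129844906, 549755813888, 549755813888, 659706976666⟩ :=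
  (FHolds.split1 68719476736 (FHolds.split3 503942829397 HP_0_0_4_2_c111 (FHolds.split2 68719476736 (FHolds.split2 34359738368 (FHolds.split4 604731395277 (FHolds.split1 34359738368 HP_0_0_4_2_c112 HP_0_0_4_2_c113) (FHolds.split1 34359738368 HP_0_0_4_2_c114 HP_0_0_4_2_c115)) HP_0_0_4_2_c116) HP_0_0_4_2_c117)) (FHolds.split2 68719476736 (FHolds.split3 503942829397 (FHolds.split4 604731395277 HP_0_0_4_2_c118 (FHolds.split1 103079215104 HP_0_0_4_2_c119 HP_0_0_4_2_c120)) (FHolds.split2 34359738368 HP_0_0_4_2_c121 (FHolds.split3 526849321642 HP_0_0_4_2_c122 HP_0_0_4_2_c123))) (FHolds.split4 604731395277 HP_0_0_4_2_c124 HP_0_0_4_2_c125)))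

theorem HP_0_0_4_3 : HP 0 0 4 3 ⟨0, 137438953472, 0, 137438953472, 458129844906, 549755813888, 659706976665, 879609302221⟩ :=
  (FHolds.split1 68719476736 (FHolds.split3 503942829397 HP_0_0_4_3_c126 (FHolds.split2 68719476736 (FHolds.split4 769658139443 (FHolds.split2 34359738368 (FHolds.split1 34359738368 (FHolds.split3 526849321642 HP_0_0_4_3_c127 HP_0_0_4_3_c128) HP_0_0_4_3_c129) HP_0_0_4_3_c130) HP_0_0_4_3_c131) HP_0_0_4_3_c132)) (FHolds.split2 68719476736 (FHolds.split4 769658139443 (FHolds.split3 503942829397 (FHolds.split1 103079215104 HP_0_0_4_3_c133 HP_0_0_4_3_c134) (FHolds.split1 103079215104 HP_0_0_4_3_c135 HP_0_0_4_3_c136)) (FHolds.split3 503942829397 HP_0_0_4_3_c137 HP_0_0_4_3_c138)) (FHolds.split4 769658139443 HP_0_0_4_3_c139 HP_0_0_4_3_c140)))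

theorem HP_0_0_4_4 : HP 0 0 4 4 ⟨0, 137438953472, 0, 137438953472, 458129844906, 549755813888, 879609302220, 1099511627776⟩ :=
  (FHolds.split1 68719476736 (FHolds.split3 503942829397 HP_0_0_4_4_c141 (FHolds.split2 68719476736 HP_0_0_4_4_c142 HP_0_0_4_4_c143)) (FHolds.split2 68719476736 (FHolds.split3 503942829397 (FHolds.split3 481036337151 HP_0_0_4_4_c144 (FHolds.split1 103079215104 HP_0_0_4_4_c145 HP_0_0_4_4_c146)) (FHolds.split4 989560464998 HP_0_0_4_4_c147 HP_0_0_4_4_c148)) (FHolds.split3 503942829397 (FHolds.split3 481036337151 HP_0_0_4_4_c149 HP_0_0_4_4_c150) (FHolds.split4 989560464998 HP_0_0_4_4_c151 HP_0_0_4_4_c152))))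

theorem HE_0_0_4 : HE 0 0 4 ⟨0, 137438953472, 0, 137438953472, 458129844906, 549755813888, 0, 0⟩ :=
  HE_0_0_4_c153

theorem HP_0_1_4_0 : HP 0 1 4 0 ⟨0, 137438953472, 137438953472, 274877906944, 458129844906, 549755813888, 329853488332, 439804651111⟩ :=
  HP_0_1_4_0_c154

theorem HP_0_1_4_1 : HP 0 1 4 1 ⟨0, 137438953472, 137438953472, 274877906944, 458129844906, 549755813888, 439804651110, 549755813888⟩ :=
  (FHolds.split1 68719476736 (FHolds.split3 503942829397 HP_0_1_4_1_c155 HP_0_1_4_1_c156) (FHolds.split2 206158430208 HP_0_1_4_1_c157 HP_0_1_4_1_c158))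

theorem HP_0_1_4_2 : HP 0 1 4 2 ⟨0, 137438953472, 137438953472, 274877906944, 458129844906, 549755813888, 549755813888, 659706976666⟩ :=
  (FHolds.split1 68719476736 (FHolds.split3 503942829397 HP_0_1_4_2_c159 HP_0_1_4_2_c160) (FHolds.split3 503942829397 HP_0_1_4_2_c161 HP_0_1_4_2_c162))

theorem HP_0_1_4_3 : HP 0 1 4 3 ⟨0, 137438953472, 137438953472, 274877906944, 458129844906, 549755813888, 659706976665, 879609302221⟩ :=
  (FHolds.split1 68719476736 (FHolds.split3 503942829397 HP_0_1_4_3_c163 HP_0_1_4_3_c164) (FHolds.split3 503942829397 (FHolds.split3 481036337151 HP_0_1_4_3_c165 HP_0_1_4_3_c166) HP_0_1_4_3_c167))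

theorem HP_0_1_4_4 : HP 0 1 4 4 ⟨0, 137438953472, 137438953472, 274877906944, 458129844906, 549755813888, 879609302220, 1099511627776⟩ :=
  (FHolds.split1 68719476736 (FHolds.split3 503942829397 HP_0_1_4_4_c168 (FHolds.split4 989560464998 HP_0_1_4_4_c169 (FHolds.split3 526849321642 HP_0_1_4_4_c170 HP_0_1_4_4_c171))) (FHolds.split3 503942829397 (FHolds.split3 481036337151 HP_0_1_4_4_c172 (FHolds.split4 989560464998 HP_0_1_4_4_c173 (FHolds.split1 103079215104 HP_0_1_4_4_c174 (FHolds.split3 492489583274 HP_0_1_4_4_c175 HP_0_1_4_4_c176)))) (FHolds.split4 989560464998 HP_0_1_4_4_c177 (FHolds.split3 526849321642 (FHolds.split1 103079215104 HP_0_1_4_4_c178 HP_0_1_4_4_c179) HP_0_1_4_4_c180))))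

theorem HE_0_1_4 : HE 0 1 4 ⟨0, 137438953472, 137438953472, 274877906944, 458129844906, 549755813888, 0, 0⟩ :=
  HE_0_1_4_c181

theorem HP_0_2_4_0 : HP 0 2 4 0 ⟨0, 137438953472, 274877906944, 366503875926, 458129844906, 549755813888, 329853488332, 439804651111⟩ :=
  HP_0_2_4_0_c182

theorem HP_0_2_4_1 : HP 0 2 4 1 ⟨0, 137438953472, 274877906944, 366503875926, 458129844906, 549755813888, 439804651110, 549755813888⟩ :=
  (FHolds.split3 503942829397 HP_0_2_4_1_c183 HP_0_2_4_1_c184)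

theorem HP_0_2_4_2 : HP 0 2 4 2 ⟨0, 137438953472, 274877906944, 366503875926, 458129844906, 549755813888, 549755813888, 659706976666⟩ :=
  (FHolds.split1 68719476736 HP_0_2_4_2_c185 HP_0_2_4_2_c186)

theorem HP_0_2_4_3 : HP 0 2 4 3 ⟨0, 137438953472, 274877906944, 366503875926, 458129844906, 549755813888, 659706976665, 879609302221⟩ :=
  (FHolds.split1 68719476736 HP_0_2_4_3_c187 (FHolds.split2 320690891435 HP_0_2_4_3_c188 HP_0_2_4_3_c189))

theorem HP_0_2_4_4 : HP 0 2 4 4 ⟨0, 137438953472, 274877906944, 366503875926, 458129844906, 549755813888, 879609302220, 1099511627776⟩ :=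
  (FHolds.split1 68719476736 HP_0_2_4_4_c190 (FHolds.split3 503942829397 (FHolds.split3 481036337151 HP_0_2_4_4_c191 (FHolds.split1 103079215104 HP_0_2_4_4_c192 HP_0_2_4_4_c193)) HP_0_2_4_4_c194))

theorem HE_0_2_4 : HE 0 2 4 ⟨0, 137438953472, 274877906944, 366503875926, 458129844906, 549755813888, 0, 0⟩ :=
  HE_0_2_4_c195

theorem HP_0_3_4_0 : HP 0 3 4 0 ⟨0, 137438953472, 366503875925, 458129844907, 458129844906, 549755813888, 329853488332, 439804651111⟩ :=
  HP_0_3_4_0_c196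

theorem HP_0_3_4_1 : HP 0 3 4 1 ⟨0, 137438953472, 366503875925, 458129844907, 458129844906, 549755813888, 439804651110, 549755813888⟩ :=
  HP_0_3_4_1_c197

theorem HP_0_3_4_2 : HP 0 3 4 2 ⟨0, 137438953472, 366503875925, 458129844907, 458129844906, 549755813888, 549755813888, 659706976666⟩ :=
  HP_0_3_4_2_c198

theorem HP_0_3_4_3 : HP 0 3 4 3 ⟨0, 137438953472, 366503875925, 458129844907, 458129844906, 549755813888, 659706976665, 879609302221⟩ :=
  (FHolds.split1 68719476736 HP_0_3_4_3_c199 (FHolds.split4 769658139443 HP_0_3_4_3_c200 HP_0_3_4_3_c201))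

theorem HP_0_3_4_4 : HP 0 3 4 4 ⟨0, 137438953472, 366503875925, 458129844907, 458129844906, 549755813888, 879609302220, 1099511627776⟩ :=
  (FHolds.split3 503942829397 (FHolds.split1 68719476736 HP_0_3_4_4_c202 HP_0_3_4_4_c203) HP_0_3_4_4_c204)

theorem HE_0_3_4 : HE 0 3 4 ⟨0, 137438953472, 366503875925, 458129844907, 458129844906, 549755813888, 0, 0⟩ :=
  HE_0_3_4_c205

theorem HP_0_4_4_0 : HP 0 4 4 0 ⟨0, 137438953472, 458129844906, 549755813888, 458128796330, 549755813888, 329853488332, 439804651111⟩ :=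
  HP_0_4_4_0_c206

theorem HP_0_4_4_1 : HP 0 4 4 1 ⟨0, 137438953472, 458129844906, 549755813888, 458128796330, 549755813888, 439804651110, 549755813888⟩ :=
  HP_0_4_4_1_c207

theorem HP_0_4_4_2 : HP 0 4 4 2 ⟨0, 137438953472, 458129844906, 549755813888, 458128796330, 549755813888, 549755813888, 659706976666⟩ :=
  HP_0_4_4_2_c208

theorem HP_0_4_4_3 : HP 0 4 4 3 ⟨0, 137438953472, 458129844906, 549755813888, 458128796330, 549755813888, 659706976665, 879609302221⟩ :=
  (FHolds.split1 68719476736 HP_0_4_4_3_c209 (FHolds.split3 503942305109 (FHolds.split2 503942829397 (FHolds.split3 481035550719 HP_0_4_4_3_c210 (FHolds.split2 481036337151 HP_0_4_4_3_c211 HP_0_4_4_3_c212)) HP_0_4_4_3_c213) (FHolds.split4 769658139443 HP_0_4_4_3_c214 (FHolds.split2 503942829397 (FHolds.split1 103079215104 HP_0_4_4_3_c215 HP_0_4_4_3_c216) HP_0_4_4_3_c217))))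

theorem HP_0_4_4_4 : HP 0 4 4 4 ⟨0, 137438953472, 458129844906, 549755813888, 458128796330, 549755813888, 879609302220, 1099511627776⟩ :=
  (FHolds.split1 68719476736 HP_0_4_4_4_c218 (FHolds.split3 503942305109 HP_0_4_4_4_c219 HP_0_4_4_4_c220))

theorem HE_0_4_4 : HE 0 4 4 ⟨0, 137438953472, 458129844906, 549755813888, 458128796330, 549755813888, 0, 0⟩ :=
  HE_0_4_4_c221

theorem HP_0_0_5_0 : HP 0 0 5 0 ⟨0, 137438953472, 0, 137438953472, 549755813888, 641381782870, 329853488332, 439804651111⟩ :=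
  HP_0_0_5_0_c222

theorem HP_0_0_5_1 : HP 0 0 5 1 ⟨0, 137438953472, 0, 137438953472, 549755813888, 641381782870, 439804651110, 549755813888⟩ :=
  HP_0_0_5_1_c223

theorem HP_0_0_5_2 : HP 0 0 5 2 ⟨0, 137438953472, 0, 137438953472, 549755813888, 641381782870, 549755813888, 659706976666⟩ :=
  (FHolds.split1 68719476736 (FHolds.split2 68719476736 (FHolds.split3 595568798379 HP_0_0_5_2_c224 HP_0_0_5_2_c225) HP_0_0_5_2_c226) HP_0_0_5_2_c227)

theorem HP_0_0_5_3 : HP 0 0 5 3 ⟨0, 137438953472, 0, 137438953472, 549755813888, 641381782870, 659706976665, 879609302221⟩ :=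
  (FHolds.split1 68719476736 (FHolds.split2 68719476736 (FHolds.split2 34359738368 (FHolds.split3 595568798379 HP_0_0_5_3_c228 HP_0_0_5_3_c229) HP_0_0_5_3_c230) HP_0_0_5_3_c231) (FHolds.split2 68719476736 (FHolds.split4 769658139443 HP_0_0_5_3_c232 HP_0_0_5_3_c233) HP_0_0_5_3_c234))

theorem HP_0_0_5_4 : HP 0 0 5 4 ⟨0, 137438953472, 0, 137438953472, 549755813888, 641381782870, 879609302220, 1099511627776⟩ :=
  (FHolds.split1 68719476736 (FHolds.split2 68719476736 (FHolds.split2 34359738368 (FHolds.split3 595568798379 HP_0_0_5_4_c235 HP_0_0_5_4_c236) HP_0_0_5_4_c237) HP_0_0_5_4_c238) (FHolds.split2 68719476736 (FHolds.split2 34359738368 HP_0_0_5_4_c239 (FHolds.split3 595568798379 HP_0_0_5_4_c240 HP_0_0_5_4_c241)) HP_0_0_5_4_c242))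

theorem HE_0_0_5 : HE 0 0 5 ⟨0, 137438953472, 0, 137438953472, 549755813888, 641381782870, 0, 0⟩ :=
  HE_0_0_5_c243

theorem HP_0_1_5_0 : HP 0 1 5 0 ⟨0, 137438953472, 137438953472, 274877906944, 549755813888, 641381782870, 329853488332, 439804651111⟩ :=
  HP_0_1_5_0_c244

theorem HP_0_1_5_1 : HP 0 1 5 1 ⟨0, 137438953472, 137438953472, 274877906944, 549755813888, 641381782870, 439804651110, 549755813888⟩ :=
  HP_0_1_5_1_c245

theorem HP_0_1_5_2 : HP 0 1 5 2 ⟨0, 137438953472, 137438953472, 274877906944, 549755813888, 641381782870, 549755813888, 659706976666⟩ :=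
  HP_0_1_5_2_c246

theorem HP_0_1_5_3 : HP 0 1 5 3 ⟨0, 137438953472, 137438953472, 274877906944, 549755813888, 641381782870, 659706976665, 879609302221⟩ :=
  (FHolds.split1 68719476736 HP_0_1_5_3_c247 HP_0_1_5_3_c248)

theorem HP_0_1_5_4 : HP 0 1 5 4 ⟨0, 137438953472, 137438953472, 274877906944, 549755813888, 641381782870, 879609302220, 1099511627776⟩ :=
  HP_0_1_5_4_c249

theorem HE_0_1_5 : HE 0 1 5 ⟨0, 137438953472, 137438953472, 274877906944, 549755813888, 641381782870, 0, 0⟩ :=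
  HE_0_1_5_c250

theorem HP_0_2_5_0 : HP 0 2 5 0 ⟨0, 137438953472, 274877906944, 366503875926, 549755813888, 641381782870, 329853488332, 439804651111⟩ :=
  HP_0_2_5_0_c251

theorem HP_0_2_5_1 : HP 0 2 5 1 ⟨0, 137438953472, 274877906944, 366503875926, 549755813888, 641381782870, 439804651110, 549755813888⟩ :=
  HP_0_2_5_1_c252

theorem HP_0_2_5_2 : HP 0 2 5 2 ⟨0, 137438953472, 274877906944, 366503875926, 549755813888, 641381782870, 549755813888, 659706976666⟩ :=
  HP_0_2_5_2_c253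

theorem HP_0_2_5_3 : HP 0 2 5 3 ⟨0, 137438953472, 274877906944, 366503875926, 549755813888, 641381782870, 659706976665, 879609302221⟩ :=
  HP_0_2_5_3_c254

theorem HP_0_2_5_4 : HP 0 2 5 4 ⟨0, 137438953472, 274877906944, 366503875926, 549755813888, 641381782870, 879609302220, 1099511627776⟩ :=
  HP_0_2_5_4_c255

theorem HE_0_2_5 : HE 0 2 5 ⟨0, 137438953472, 274877906944, 366503875926, 549755813888, 641381782870, 0, 0⟩ :=
  HE_0_2_5_c256

theorem HP_0_3_5_0 : HP 0 3 5 0 ⟨0, 137438953472, 366503875925, 458129844907, 549755813888, 641381782870, 329853488332, 439804651111⟩ :=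
  HP_0_3_5_0_c257

theorem HP_0_3_5_1 : HP 0 3 5 1 ⟨0, 137438953472, 366503875925, 458129844907, 549755813888, 641381782870, 439804651110, 549755813888⟩ :=
  HP_0_3_5_1_c258

theorem HP_0_3_5_2 : HP 0 3 5 2 ⟨0, 137438953472, 366503875925, 458129844907, 549755813888, 641381782870, 549755813888, 659706976666⟩ :=
  HP_0_3_5_2_c259

theorem HP_0_3_5_3 : HP 0 3 5 3 ⟨0, 137438953472, 366503875925, 458129844907, 549755813888, 641381782870, 659706976665, 879609302221⟩ :=
  HP_0_3_5_3_c260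

theorem HP_0_3_5_4 : HP 0 3 5 4 ⟨0, 137438953472, 366503875925, 458129844907, 549755813888, 641381782870, 879609302220, 1099511627776⟩ :=
  HP_0_3_5_4_c261

theorem HE_0_3_5 : HE 0 3 5 ⟨0, 137438953472, 366503875925, 458129844907, 549755813888, 641381782870, 0, 0⟩ :=
  HE_0_3_5_c262

theorem HP_0_4_5_0 : HP 0 4 5 0 ⟨0, 137438953472, 458129844906, 549755813888, 549755813888, 641381782870, 329853488332, 439804651111⟩ :=
  (FHolds.split4 384829069721 HP_0_4_5_0_c263 HP_0_4_5_0_c264)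

theorem HP_0_4_5_1 : HP 0 4 5 1 ⟨0, 137438953472, 458129844906, 549755813888, 549755813888, 641381782870, 439804651110, 549755813888⟩ :=
  HP_0_4_5_1_c265

theorem HP_0_4_5_2 : HP 0 4 5 2 ⟨0, 137438953472, 458129844906, 549755813888, 549755813888, 641381782870, 549755813888, 659706976666⟩ :=
  (FHolds.split1 68719476736 HP_0_4_5_2_c266 HP_0_4_5_2_c267)

theorem HP_0_4_5_3 : HP 0 4 5 3 ⟨0, 137438953472, 458129844906, 549755813888, 549755813888, 641381782870, 659706976665, 879609302221⟩ :=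
  (FHolds.split1 68719476736 (FHolds.split2 503942829397 HP_0_4_5_3_c268 (FHolds.split3 595568798379 HP_0_4_5_3_c269 HP_0_4_5_3_c270)) (FHolds.split3 595568798379 (FHolds.split2 503942829397 HP_0_4_5_3_c271 HP_0_4_5_3_c272) (FHolds.split2 503942829397 HP_0_4_5_3_c273 HP_0_4_5_3_c274)))

theorem HP_0_4_5_4 : HP 0 4 5 4 ⟨0, 137438953472, 458129844906, 549755813888, 549755813888, 641381782870, 879609302220, 1099511627776⟩ :=
  (FHolds.split1 68719476736 HP_0_4_5_4_c275 (FHolds.split2 503942829397 (FHolds.split2 481036337151 HP_0_4_5_4_c276 HP_0_4_5_4_c277) HP_0_4_5_4_c278))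

theorem HE_0_4_5 : HE 0 4 5 ⟨0, 137438953472, 458129844906, 549755813888, 549755813888, 641381782870, 0, 0⟩ :=
  HE_0_4_5_c279

theorem HP_0_5_5_0 : HP 0 5 5 0 ⟨0, 137438953472, 549755813888, 641381782870, 549754765312, 641381782870, 329853488332, 439804651111⟩ :=
  (FHolds.split4 384829069721 HP_0_5_5_0_c280 HP_0_5_5_0_c281)

theorem HP_0_5_5_1 : HP 0 5 5 1 ⟨0, 137438953472, 549755813888, 641381782870, 549754765312, 641381782870, 439804651110, 549755813888⟩ :=
  HP_0_5_5_1_c282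

theorem HP_0_5_5_2 : HP 0 5 5 2 ⟨0, 137438953472, 549755813888, 641381782870, 549754765312, 641381782870, 549755813888, 659706976666⟩ :=
  (FHolds.split3 595568274091 HP_0_5_5_2_c283 (FHolds.split2 595568798379 HP_0_5_5_2_c284 HP_0_5_5_2_c285))

theorem HP_0_5_5_3 : HP 0 5 5 3 ⟨0, 137438953472, 549755813888, 641381782870, 549754765312, 641381782870, 659706976665, 879609302221⟩ :=
  (FHolds.split3 595568274091 (FHolds.split2 595568798379 (FHolds.split1 68719476736 HP_0_5_5_3_c286 HP_0_5_5_3_c287) HP_0_5_5_3_c288) (FHolds.split2 595568798379 (FHolds.split1 68719476736 HP_0_5_5_3_c289 HP_0_5_5_3_c290) HP_0_5_5_3_c291))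

theorem HP_0_5_5_4 : HP 0 5 5 4 ⟨0, 137438953472, 549755813888, 641381782870, 549754765312, 641381782870, 879609302220, 1099511627776⟩ :=
  (FHolds.split3 595568274091 HP_0_5_5_4_c292 HP_0_5_5_4_c293)

theorem HE_0_5_5 : HE 0 5 5 ⟨0, 137438953472, 549755813888, 641381782870, 549754765312, 641381782870, 0, 0⟩ :=
  HE_0_5_5_c294

theorem HP_1_0_0_0 : HP 1 0 0 0 ⟨137438953472, 274877906944, 0, 137438953472, (-1048576), 137438953472, 329853488332, 439804651111⟩ :=
  HP_1_0_0_0_c295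

theorem HP_1_0_0_1 : HP 1 0 0 1 ⟨137438953472, 274877906944, 0, 137438953472, (-1048576), 137438953472, 439804651110, 549755813888⟩ :=
  HP_1_0_0_1_c296

theorem HP_1_0_0_2 : HP 1 0 0 2 ⟨137438953472, 274877906944, 0, 137438953472, (-1048576), 137438953472, 549755813888, 659706976666⟩ :=
  (FHolds.split3 68718952448 HP_1_0_0_2_c297 (FHolds.split1 206158430208 HP_1_0_0_2_c298 HP_1_0_0_2_c299))

theorem HP_1_0_0_3 : HP 1 0 0 3 ⟨137438953472, 274877906944, 0, 137438953472, (-1048576), 137438953472, 659706976665, 879609302221⟩ :=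
  (FHolds.split3 68718952448 HP_1_0_0_3_c300 (FHolds.split1 206158430208 (FHolds.split2 68719476736 HP_1_0_0_3_c301 HP_1_0_0_3_c302) HP_1_0_0_3_c303))

theorem HP_1_0_0_4 : HP 1 0 0 4 ⟨137438953472, 274877906944, 0, 137438953472, (-1048576), 137438953472, 879609302220, 1099511627776⟩ :=
  (FHolds.split3 68718952448 HP_1_0_0_4_c304 (FHolds.split1 206158430208 (FHolds.split2 68719476736 HP_1_0_0_4_c305 HP_1_0_0_4_c306) HP_1_0_0_4_c307))

theorem HE_1_0_0 : HE 1 0 0 ⟨137438953472, 274877906944, 0, 137438953472, (-1048576), 137438953472, 0, 0⟩ :=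
  HE_1_0_0_c308

theorem HP_1_0_1_0 : HP 1 0 1 0 ⟨137438953472, 274877906944, 0, 137438953472, 137438953472, 274877906944, 329853488332, 439804651111⟩ :=
  (FHolds.split1 206158430208 HP_1_0_1_0_c309 HP_1_0_1_0_c310)

theorem HP_1_0_1_1 : HP 1 0 1 1 ⟨137438953472, 274877906944, 0, 137438953472, 137438953472, 274877906944, 439804651110, 549755813888⟩ :=
  HP_1_0_1_1_c311

theorem HP_1_0_1_2 : HP 1 0 1 2 ⟨137438953472, 274877906944, 0, 137438953472, 137438953472, 274877906944, 549755813888, 659706976666⟩ :=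
  HP_1_0_1_2_c312

theorem HP_1_0_1_3 : HP 1 0 1 3 ⟨137438953472, 274877906944, 0, 137438953472, 137438953472, 274877906944, 659706976665, 879609302221⟩ :=
  HP_1_0_1_3_c313

theorem HP_1_0_1_4 : HP 1 0 1 4 ⟨137438953472, 274877906944, 0, 137438953472, 137438953472, 274877906944, 879609302220, 1099511627776⟩ :=
  HP_1_0_1_4_c314

theorem HE_1_0_1 : HE 1 0 1 ⟨137438953472, 274877906944, 0, 137438953472, 137438953472, 274877906944, 0, 0⟩ :=
  HE_1_0_1_c315

theorem HP_1_1_1_0 : HP 1 1 1 0 ⟨137438953472, 274877906944, 137438953472, 274877906944, 137437904896, 274877906944, 329853488332, 439804651111⟩ :=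
  (FHolds.split4 384829069721 HP_1_1_1_0_c316 HP_1_1_1_0_c317)

theorem HP_1_1_1_1 : HP 1 1 1 1 ⟨137438953472, 274877906944, 137438953472, 274877906944, 137437904896, 274877906944, 439804651110, 549755813888⟩ :=
  (FHolds.split1 206158430208 HP_1_1_1_1_c318 (FHolds.split3 206157905920 HP_1_1_1_1_c319 HP_1_1_1_1_c320))

theorem HP_1_1_1_2 : HP 1 1 1 2 ⟨137438953472, 274877906944, 137438953472, 274877906944, 137437904896, 274877906944, 549755813888, 659706976666⟩ :=
  HP_1_1_1_2_c321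

theorem HP_1_1_1_3 : HP 1 1 1 3 ⟨137438953472, 274877906944, 137438953472, 274877906944, 137437904896, 274877906944, 659706976665, 879609302221⟩ :=
  HP_1_1_1_3_c322

theorem HP_1_1_1_4 : HP 1 1 1 4 ⟨137438953472, 274877906944, 137438953472, 274877906944, 137437904896, 274877906944, 879609302220, 1099511627776⟩ :=
  HP_1_1_1_4_c323

theorem HE_1_1_1 : HE 1 1 1 ⟨137438953472, 274877906944, 137438953472, 274877906944, 137437904896, 274877906944, 0, 0⟩ :=
  HE_1_1_1_c324

theorem HP_1_0_2_0 : HP 1 0 2 0 ⟨137438953472, 274877906944, 0, 137438953472, 274877906944, 366503875926, 329853488332, 439804651111⟩ :=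
  (FHolds.split1 206158430208 (FHolds.split2 68719476736 HP_1_0_2_0_c325 HP_1_0_2_0_c326) HP_1_0_2_0_c327)

theorem HP_1_0_2_1 : HP 1 0 2 1 ⟨137438953472, 274877906944, 0, 137438953472, 274877906944, 366503875926, 439804651110, 549755813888⟩ :=
  (FHolds.split1 206158430208 (FHolds.split2 68719476736 HP_1_0_2_1_c328 (FHolds.split3 320690891435 HP_1_0_2_1_c329 HP_1_0_2_1_c330)) HP_1_0_2_1_c331)

theorem HP_1_0_2_2 : HP 1 0 2 2 ⟨137438953472, 274877906944, 0, 137438953472, 274877906944, 366503875926, 549755813888, 659706976666⟩ :=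
  (FHolds.split1 206158430208 HP_1_0_2_2_c332 HP_1_0_2_2_c333)

theorem HP_1_0_2_3 : HP 1 0 2 3 ⟨137438953472, 274877906944, 0, 137438953472, 274877906944, 366503875926, 659706976665, 879609302221⟩ :=
  HP_1_0_2_3_c334

theorem HP_1_0_2_4 : HP 1 0 2 4 ⟨137438953472, 274877906944, 0, 137438953472, 274877906944, 366503875926, 879609302220, 1099511627776⟩ :=
  HP_1_0_2_4_c335

theorem HE_1_0_2 : HE 1 0 2 ⟨137438953472, 274877906944, 0, 137438953472, 274877906944, 366503875926, 0, 0⟩ :=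
  HE_1_0_2_c336

theorem HP_1_1_2_0 : HP 1 1 2 0 ⟨137438953472, 274877906944, 137438953472, 274877906944, 274877906944, 366503875926, 329853488332, 439804651111⟩ :=
  (FHolds.split4 384829069721 HP_1_1_2_0_c337 (FHolds.split1 206158430208 HP_1_1_2_0_c338 (FHolds.split2 206158430208 HP_1_1_2_0_c339 HP_1_1_2_0_c340)))

theorem HP_1_1_2_1 : HP 1 1 2 1 ⟨137438953472, 274877906944, 137438953472, 274877906944, 274877906944, 366503875926, 439804651110, 549755813888⟩ :=
  (FHolds.split1 206158430208 HP_1_1_2_1_c341 (FHolds.split2 206158430208 HP_1_1_2_1_c342 HP_1_1_2_1_c343))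

theorem HP_1_1_2_2 : HP 1 1 2 2 ⟨137438953472, 274877906944, 137438953472, 274877906944, 274877906944, 366503875926, 549755813888, 659706976666⟩ :=
  (FHolds.split1 206158430208 HP_1_1_2_2_c344 HP_1_1_2_2_c345)

theorem HP_1_1_2_3 : HP 1 1 2 3 ⟨137438953472, 274877906944, 137438953472, 274877906944, 274877906944, 366503875926, 659706976665, 879609302221⟩ :=
  HP_1_1_2_3_c346

theorem HP_1_1_2_4 : HP 1 1 2 4 ⟨137438953472, 274877906944, 137438953472, 274877906944, 274877906944, 366503875926, 879609302220, 1099511627776⟩ :=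
  HP_1_1_2_4_c347

theorem HE_1_1_2 : HE 1 1 2 ⟨137438953472, 274877906944, 137438953472, 274877906944, 274877906944, 366503875926, 0, 0⟩ :=
  HE_1_1_2_c348

theorem HP_1_2_2_0 : HP 1 2 2 0 ⟨137438953472, 274877906944, 274877906944, 366503875926, 274876858368, 366503875926, 329853488332, 439804651111⟩ :=
  (FHolds.split4 384829069721 HP_1_2_2_0_c349 (FHolds.split1 206158430208 HP_1_2_2_0_c350 (FHolds.split3 320690367147 HP_1_2_2_0_c351 (FHolds.split2 320690891435 HP_1_2_2_0_c352 HP_1_2_2_0_c353))))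

theorem HP_1_2_2_1 : HP 1 2 2 1 ⟨137438953472, 274877906944, 274877906944, 366503875926, 274876858368, 366503875926, 439804651110, 549755813888⟩ :=
  (FHolds.split3 320690367147 HP_1_2_2_1_c354 (FHolds.split2 320690891435 (FHolds.split1 206158430208 HP_1_2_2_1_c355 HP_1_2_2_1_c356) (FHolds.split1 206158430208 HP_1_2_2_1_c357 (FHolds.split4 494780232499 HP_1_2_2_1_c358 HP_1_2_2_1_c359))))

theorem HP_1_2_2_2 : HP 1 2 2 2 ⟨137438953472, 274877906944, 274877906944, 366503875926, 274876858368, 366503875926, 549755813888, 659706976666⟩ :=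
  (FHolds.split3 320690367147 HP_1_2_2_2_c360 (FHolds.split2 320690891435 HP_1_2_2_2_c361 (FHolds.split1 206158430208 HP_1_2_2_2_c362 HP_1_2_2_2_c363)))

theorem HP_1_2_2_3 : HP 1 2 2 3 ⟨137438953472, 274877906944, 274877906944, 366503875926, 274876858368, 366503875926, 659706976665, 879609302221⟩ :=
  (FHolds.split1 206158430208 HP_1_2_2_3_c364 HP_1_2_2_3_c365)

theorem HP_1_2_2_4 : HP 1 2 2 4 ⟨137438953472, 274877906944, 274877906944, 366503875926, 274876858368, 366503875926, 879609302220, 1099511627776⟩ :=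
  HP_1_2_2_4_c366

theorem HE_1_2_2 : HE 1 2 2 ⟨137438953472, 274877906944, 274877906944, 366503875926, 274876858368, 366503875926, 0, 0⟩ :=
  HE_1_2_2_c367

theorem HP_1_0_3_0 : HP 1 0 3 0 ⟨137438953472, 274877906944, 0, 137438953472, 366503875925, 458129844907, 329853488332, 439804651111⟩ :=
  (FHolds.split1 206158430208 (FHolds.split2 68719476736 HP_1_0_3_0_c368 (FHolds.split3 412316860416 HP_1_0_3_0_c369 HP_1_0_3_0_c370)) (FHolds.split4 384829069721 HP_1_0_3_0_c371 HP_1_0_3_0_c372))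

theorem HP_1_0_3_1 : HP 1 0 3 1 ⟨137438953472, 274877906944, 0, 137438953472, 366503875925, 458129844907, 439804651110, 549755813888⟩ :=
  (FHolds.split1 206158430208 (FHolds.split3 412316860416 HP_1_0_3_1_c373 (FHolds.split2 68719476736 HP_1_0_3_1_c374 (FHolds.split2 103079215104 (FHolds.split1 171798691840 HP_1_0_3_1_c375 HP_1_0_3_1_c376) HP_1_0_3_1_c377))) (FHolds.split2 68719476736 HP_1_0_3_1_c378 (FHolds.split4 494780232499 HP_1_0_3_1_c379 (FHolds.split3 412316860416 HP_1_0_3_1_c380 HP_1_0_3_1_c381))))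

theorem HP_1_0_3_2 : HP 1 0 3 2 ⟨137438953472, 274877906944, 0, 137438953472, 366503875925, 458129844907, 549755813888, 659706976666⟩ :=
  (FHolds.split1 206158430208 (FHolds.split3 412316860416 HP_1_0_3_2_c382 (FHolds.split2 68719476736 HP_1_0_3_2_c383 (FHolds.split2 103079215104 (FHolds.split1 171798691840 HP_1_0_3_2_c384 (FHolds.split3 435223352661 HP_1_0_3_2_c385 (FHolds.split4 604731395277 HP_1_0_3_2_c386 HP_1_0_3_2_c387))) HP_1_0_3_2_c388))) (FHolds.split2 68719476736 HP_1_0_3_2_c389 (FHolds.split3 412316860416 HP_1_0_3_2_c390 (FHolds.split4 604731395277 (FHolds.split2 103079215104 HP_1_0_3_2_c391 (FHolds.split1 240518168576 HP_1_0_3_2_c392 HP_1_0_3_2_c393)) (FHolds.split2 103079215104 HP_1_0_3_2_c394 HP_1_0_3_2_c395)))))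

theorem HP_1_0_3_3 : HP 1 0 3 3 ⟨137438953472, 274877906944, 0, 137438953472, 366503875925, 458129844907, 659706976665, 879609302221⟩ :=
  (FHolds.split1 206158430208 (FHolds.split3 412316860416 HP_1_0_3_3_c396 (FHolds.split1 171798691840 HP_1_0_3_3_c397 (FHolds.split4 769658139443 (FHolds.split2 68719476736 HP_1_0_3_3_c398 HP_1_0_3_3_c399) HP_1_0_3_3_c400))) (FHolds.split2 68719476736 HP_1_0_3_3_c401 (FHolds.split3 412316860416 HP_1_0_3_3_c402 (FHolds.split4 769658139443 (FHolds.split3 435223352661 HP_1_0_3_3_c403 HP_1_0_3_3_c404) HP_1_0_3_3_c405))))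

theorem HP_1_0_3_4 : HP 1 0 3 4 ⟨137438953472, 274877906944, 0, 137438953472, 366503875925, 458129844907, 879609302220, 1099511627776⟩ :=
  (FHolds.split1 206158430208 (FHolds.split3 412316860416 HP_1_0_3_4_c406 (FHolds.split1 171798691840 HP_1_0_3_4_c407 (FHolds.split3 435223352661 HP_1_0_3_4_c408 (FHolds.split2 68719476736 HP_1_0_3_4_c409 (FHolds.split2 103079215104 HP_1_0_3_4_c410 HP_1_0_3_4_c411))))) (FHolds.split3 412316860416 HP_1_0_3_4_c412 (FHolds.split2 68719476736 HP_1_0_3_4_c413 (FHolds.split4 989560464998 (FHolds.split1 240518168576 HP_1_0_3_4_c414 HP_1_0_3_4_c415) (FHolds.split3 435223352661 HP_1_0_3_4_c416 HP_1_0_3_4_c417)))))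

theorem HE_1_0_3 : HE 1 0 3 ⟨137438953472, 274877906944, 0, 137438953472, 366503875925, 458129844907, 0, 0⟩ :=
  HE_1_0_3_c418

theorem HP_1_1_3_0 : HP 1 1 3 0 ⟨137438953472, 274877906944, 137438953472, 274877906944, 366503875925, 458129844907, 329853488332, 439804651111⟩ :=
  (FHolds.split4 384829069721 HP_1_1_3_0_c419 (FHolds.split1 206158430208 HP_1_1_3_0_c420 HP_1_1_3_0_c421))

theorem HP_1_1_3_1 : HP 1 1 3 1 ⟨137438953472, 274877906944, 137438953472, 274877906944, 366503875925, 458129844907, 439804651110, 549755813888⟩ :=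
  (FHolds.split2 206158430208 (FHolds.split1 206158430208 HP_1_1_3_1_c422 (FHolds.split1 240518168576 HP_1_1_3_1_c423 HP_1_1_3_1_c424)) (FHolds.split1 206158430208 HP_1_1_3_1_c425 HP_1_1_3_1_c426))

theorem HP_1_1_3_2 : HP 1 1 3 2 ⟨137438953472, 274877906944, 137438953472, 274877906944, 366503875925, 458129844907, 549755813888, 659706976666⟩ :=
  (FHolds.split2 206158430208 (FHolds.split1 206158430208 HP_1_1_3_2_c427 (FHolds.split3 412316860416 HP_1_1_3_2_c428 HP_1_1_3_2_c429)) (FHolds.split1 206158430208 HP_1_1_3_2_c430 HP_1_1_3_2_c431))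

theorem HP_1_1_3_3 : HP 1 1 3 3 ⟨137438953472, 274877906944, 137438953472, 274877906944, 366503875925, 458129844907, 659706976665, 879609302221⟩ :=
  (FHolds.split1 206158430208 (FHolds.split3 412316860416 HP_1_1_3_3_c432 HP_1_1_3_3_c433) (FHolds.split2 206158430208 (FHolds.split3 412316860416 HP_1_1_3_3_c434 HP_1_1_3_3_c435) HP_1_1_3_3_c436))

theorem HP_1_1_3_4 : HP 1 1 3 4 ⟨137438953472, 274877906944, 137438953472, 274877906944, 366503875925, 458129844907, 879609302220, 1099511627776⟩ :=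
  (FHolds.split1 206158430208 (FHolds.split3 412316860416 HP_1_1_3_4_c437 (FHolds.split3 435223352661 HP_1_1_3_4_c438 HP_1_1_3_4_c439)) (FHolds.split3 412316860416 HP_1_1_3_4_c440 (FHolds.split2 206158430208 (FHolds.split2 171798691840 HP_1_1_3_4_c441 HP_1_1_3_4_c442) (FHolds.split4 989560464998 HP_1_1_3_4_c443 HP_1_1_3_4_c444))))

theorem HE_1_1_3 : HE 1 1 3 ⟨137438953472, 274877906944, 137438953472, 274877906944, 366503875925, 458129844907, 0, 0⟩ :=
  HE_1_1_3_c445

theorem HP_1_2_3_0 : HP 1 2 3 0 ⟨137438953472, 274877906944, 274877906944, 366503875926, 366503875925, 458129844907, 329853488332, 439804651111⟩ :=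
  (FHolds.split4 384829069721 HP_1_2_3_0_c446 (FHolds.split3 412316860416 (FHolds.split3 389410368170 HP_1_2_3_0_c447 HP_1_2_3_0_c448) HP_1_2_3_0_c449))

theorem HP_1_2_3_1 : HP 1 2 3 1 ⟨137438953472, 274877906944, 274877906944, 366503875926, 366503875925, 458129844907, 439804651110, 549755813888⟩ :=
  (FHolds.split2 320690891435 (FHolds.split3 412316860416 (FHolds.split1 206158430208 HP_1_2_3_1_c450 HP_1_2_3_1_c451) HP_1_2_3_1_c452) (FHolds.split3 412316860416 (FHolds.split1 206158430208 HP_1_2_3_1_c453 (FHolds.split3 389410368170 HP_1_2_3_1_c454 HP_1_2_3_1_c455)) (FHolds.split1 206158430208 HP_1_2_3_1_c456 (FHolds.split4 494780232499 HP_1_2_3_1_c457 HP_1_2_3_1_c458))))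

theorem HP_1_2_3_2 : HP 1 2 3 2 ⟨137438953472, 274877906944, 274877906944, 366503875926, 366503875925, 458129844907, 549755813888, 659706976666⟩ :=
  (FHolds.split1 206158430208 (FHolds.split3 412316860416 (FHolds.split2 320690891435 HP_1_2_3_2_c459 HP_1_2_3_2_c460) HP_1_2_3_2_c461) (FHolds.split2 320690891435 (FHolds.split3 412316860416 (FHolds.split3 389410368170 HP_1_2_3_2_c462 HP_1_2_3_2_c463) HP_1_2_3_2_c464) (FHolds.split3 412316860416 (FHolds.split3 389410368170 HP_1_2_3_2_c465 HP_1_2_3_2_c466) (FHolds.split4 604731395277 HP_1_2_3_2_c467 HP_1_2_3_2_c468))))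

theorem HP_1_2_3_3 : HP 1 2 3 3 ⟨137438953472, 274877906944, 274877906944, 366503875926, 366503875925, 458129844907, 659706976665, 879609302221⟩ :=
  (FHolds.split1 206158430208 (FHolds.split2 320690891435 HP_1_2_3_3_c469 (FHolds.split3 412316860416 HP_1_2_3_3_c470 HP_1_2_3_3_c471)) (FHolds.split4 769658139443 (FHolds.split2 320690891435 (FHolds.split3 412316860416 HP_1_2_3_3_c472 HP_1_2_3_3_c473) (FHolds.split3 412316860416 HP_1_2_3_3_c474 HP_1_2_3_3_c475)) (FHolds.split2 320690891435 HP_1_2_3_3_c476 HP_1_2_3_3_c477)))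

theorem HP_1_2_3_4 : HP 1 2 3 4 ⟨137438953472, 274877906944, 274877906944, 366503875926, 366503875925, 458129844907, 879609302220, 1099511627776⟩ :=
  (FHolds.split1 206158430208 (FHolds.split3 412316860416 HP_1_2_3_4_c478 (FHolds.split3 435223352661 HP_1_2_3_4_c479 (FHolds.split1 171798691840 HP_1_2_3_4_c480 (FHolds.split4 989560464998 HP_1_2_3_4_c481 HP_1_2_3_4_c482)))) (FHolds.split2 320690891435 (FHolds.split4 989560464998 HP_1_2_3_4_c483 HP_1_2_3_4_c484) (FHolds.split4 989560464998 HP_1_2_3_4_c485 HP_1_2_3_4_c486)))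

theorem HE_1_2_3 : HE 1 2 3 ⟨137438953472, 274877906944, 274877906944, 366503875926, 366503875925, 458129844907, 0, 0⟩ :=
  HE_1_2_3_c487

theorem HP_1_3_3_0 : HP 1 3 3 0 ⟨137438953472, 274877906944, 366503875925, 458129844907, 366502827349, 458129844907, 329853488332, 439804651111⟩ :=
  (FHolds.split4 384829069721 HP_1_3_3_0_c488 (FHolds.split3 412316336128 HP_1_3_3_0_c489 (FHolds.split4 412316860416 HP_1_3_3_0_c490 (FHolds.split2 412316860416 HP_1_3_3_0_c491 HP_1_3_3_0_c492))))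

theorem HP_1_3_3_1 : HP 1 3 3 1 ⟨137438953472, 274877906944, 366503875925, 458129844907, 366502827349, 458129844907, 439804651110, 549755813888⟩ :=
  (FHolds.split3 412316336128 HP_1_3_3_1_c493 (FHolds.split2 412316860416 (FHolds.split1 206158430208 HP_1_3_3_1_c494 HP_1_3_3_1_c495) (FHolds.split1 206158430208 HP_1_3_3_1_c496 (FHolds.split3 435223090517 (FHolds.split2 435223352661 (FHolds.split1 240518168576 HP_1_3_3_1_c497 (FHolds.split4 494780232499 HP_1_3_3_1_c498 HP_1_3_3_1_c499)) HP_1_3_3_1_c500) HP_1_3_3_1_c501))))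

theorem HP_1_3_3_2 : HP 1 3 3 2 ⟨137438953472, 274877906944, 366503875925, 458129844907, 366502827349, 458129844907, 549755813888, 659706976666⟩ :=
  (FHolds.split3 412316336128 HP_1_3_3_2_c502 (FHolds.split2 412316860416 (FHolds.split1 206158430208 HP_1_3_3_2_c503 (FHolds.split2 389410368170 HP_1_3_3_2_c504 HP_1_3_3_2_c505)) (FHolds.split1 206158430208 HP_1_3_3_2_c506 (FHolds.split1 240518168576 (FHolds.split3 435223090517 HP_1_3_3_2_c507 HP_1_3_3_2_c508) (FHolds.split3 435223090517 (FHolds.split2 435223352661 (FHolds.split1 257698037760 HP_1_3_3_2_c509 HP_1_3_3_2_c510) HP_1_3_3_2_c511) HP_1_3_3_2_c512)))))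

theorem HP_1_3_3_3 : HP 1 3 3 3 ⟨137438953472, 274877906944, 366503875925, 458129844907, 366502827349, 458129844907, 659706976665, 879609302221⟩ :=
  (FHolds.split1 206158430208 (FHolds.split1 171798691840 HP_1_3_3_3_c513 (FHolds.split3 412316336128 HP_1_3_3_3_c514 (FHolds.split2 412316860416 HP_1_3_3_3_c515 HP_1_3_3_3_c516))) (FHolds.split3 412316336128 HP_1_3_3_3_c517 (FHolds.split2 412316860416 (FHolds.split1 240518168576 HP_1_3_3_3_c518 HP_1_3_3_3_c519) (FHolds.split4 769658139443 (FHolds.split1 240518168576 (FHolds.split3 435223090517 HP_1_3_3_3_c520 HP_1_3_3_3_c521) HP_1_3_3_3_c522) HP_1_3_3_3_c523))))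

theorem HP_1_3_3_4 : HP 1 3 3 4 ⟨137438953472, 274877906944, 366503875925, 458129844907, 366502827349, 458129844907, 879609302220, 1099511627776⟩ :=
  (FHolds.split3 412316336128 HP_1_3_3_4_c524 (FHolds.split1 206158430208 (FHolds.split1 171798691840 HP_1_3_3_4_c525 (FHolds.split2 412316860416 HP_1_3_3_4_c526 (FHolds.split3 435223090517 HP_1_3_3_4_c527 (FHolds.split2 435223352661 HP_1_3_3_4_c528 (FHolds.split4 989560464998 (FHolds.split3 446676467712 HP_1_3_3_4_c529 HP_1_3_3_4_c530) HP_1_3_3_4_c531))))) (FHolds.split2 412316860416 (FHolds.split1 240518168576 HP_1_3_3_4_c532 (FHolds.split2 389410368170 HP_1_3_3_4_c533 (FHolds.split1 257698037760 HP_1_3_3_4_c534 (FHolds.split3 435223090517 HP_1_3_3_4_c535 HP_1_3_3_4_c536)))) (FHolds.split4 989560464998 (FHolds.split1 240518168576 (FHolds.split4 934584883609 HP_1_3_3_4_c537 HP_1_3_3_4_c538) HP_1_3_3_4_c539) (FHolds.split1 240518168576 HP_1_3_3_4_c540 HP_1_3_3_4_c541)))))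

theorem HE_1_3_3 : HE 1 3 3 ⟨137438953472, 274877906944, 366503875925, 458129844907, 366502827349, 458129844907, 0, 0⟩ :=
  HE_1_3_3_c542

theorem HP_1_0_4_0 : HP 1 0 4 0 ⟨137438953472, 274877906944, 0, 137438953472, 458129844906, 549755813888, 329853488332, 439804651111⟩ :=
  (FHolds.split1 206158430208 HP_1_0_4_0_c543 HP_1_0_4_0_c544)

theorem HP_1_0_4_1 : HP 1 0 4 1 ⟨137438953472, 274877906944, 0, 137438953472, 458129844906, 549755813888, 439804651110, 549755813888⟩ :=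
  (FHolds.split1 206158430208 (FHolds.split2 68719476736 HP_1_0_4_1_c545 (FHolds.split3 503942829397 (FHolds.split2 103079215104 (FHolds.split4 494780232499 HP_1_0_4_1_c546 HP_1_0_4_1_c547) HP_1_0_4_1_c548) HP_1_0_4_1_c549)) HP_1_0_4_1_c550)

theorem HP_1_0_4_2 : HP 1 0 4 2 ⟨137438953472, 274877906944, 0, 137438953472, 458129844906, 549755813888, 549755813888, 659706976666⟩ :=
  (FHolds.split1 206158430208 (FHolds.split2 68719476736 (FHolds.split3 503942829397 (FHolds.split4 604731395277 HP_1_0_4_2_c551 (FHolds.split2 34359738368 HP_1_0_4_2_c552 HP_1_0_4_2_c553)) HP_1_0_4_2_c554) (FHolds.split3 503942829397 (FHolds.split2 103079215104 (FHolds.split4 604731395277 HP_1_0_4_2_c555 (FHolds.split1 171798691840 (FHolds.split2 85899345920 HP_1_0_4_2_c556 HP_1_0_4_2_c557) HP_1_0_4_2_c558)) HP_1_0_4_2_c559) HP_1_0_4_2_c560)) (FHolds.split2 68719476736 HP_1_0_4_2_c561 HP_1_0_4_2_c562))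

theorem HP_1_0_4_3 : HP 1 0 4 3 ⟨137438953472, 274877906944, 0, 137438953472, 458129844906, 549755813888, 659706976665, 879609302221⟩ :=
  (FHolds.split1 206158430208 (FHolds.split3 503942829397 (FHolds.split2 68719476736 (FHolds.split4 769658139443 HP_1_0_4_3_c563 HP_1_0_4_3_c564) (FHolds.split4 769658139443 (FHolds.split2 103079215104 (FHolds.split3 481036337151 (FHolds.split1 171798691840 HP_1_0_4_3_c565 HP_1_0_4_3_c566) HP_1_0_4_3_c567) HP_1_0_4_3_c568) (FHolds.split2 103079215104 (FHolds.split3 481036337151 HP_1_0_4_3_c569 HP_1_0_4_3_c570) HP_1_0_4_3_c571))) (FHolds.split2 68719476736 HP_1_0_4_3_c572 HP_1_0_4_3_c573)) (FHolds.split4 769658139443 HP_1_0_4_3_c574 HP_1_0_4_3_c575))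

theorem HP_1_0_4_4 : HP 1 0 4 4 ⟨137438953472, 274877906944, 0, 137438953472, 458129844906, 549755813888, 879609302220, 1099511627776⟩ :=
  (FHolds.split1 206158430208 (FHolds.split3 503942829397 (FHolds.split3 481036337151 (FHolds.split2 68719476736 (FHolds.split4 989560464998 (FHolds.split2 34359738368 HP_1_0_4_4_c576 HP_1_0_4_4_c577) HP_1_0_4_4_c578) (FHolds.split4 989560464998 (FHolds.split2 103079215104 (FHolds.split1 171798691840 (FHolds.split4 934584883609 HP_1_0_4_4_c579 HP_1_0_4_4_c580) HP_1_0_4_4_c581) (FHolds.split1 171798691840 HP_1_0_4_4_c582 HP_1_0_4_4_c583)) (FHolds.split2 103079215104 (FHolds.split1 171798691840 HP_1_0_4_4_c584 HP_1_0_4_4_c585) HP_1_0_4_4_c586))) (FHolds.split2 68719476736 HP_1_0_4_4_c587 (FHolds.split2 103079215104 HP_1_0_4_4_c588 HP_1_0_4_4_c589))) (FHolds.split2 68719476736 HP_1_0_4_4_c590 (FHolds.split4 989560464998 (FHolds.split2 103079215104 HP_1_0_4_4_c591 HP_1_0_4_4_c592) (FHolds.split2 103079215104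 HP_1_0_4_4_c593 HP_1_0_4_4_c594)))) (FHolds.split3 503942829397 (FHolds.split4 989560464998 HP_1_0_4_4_c595 (FHolds.split2 68719476736 HP_1_0_4_4_c596 (FHolds.split3 481036337151 HP_1_0_4_4_c597 HP_1_0_4_4_c598))) (FHolds.split4 989560464998 HP_1_0_4_4_c599 HP_1_0_4_4_c600)))

theorem HE_1_0_4 : HE 1 0 4 ⟨137438953472, 274877906944, 0, 137438953472, 458129844906, 549755813888, 0, 0⟩ :=
  HE_1_0_4_c601

theorem HP_1_1_4_0 : HP 1 1 4 0 ⟨137438953472, 274877906944, 137438953472, 274877906944, 458129844906, 549755813888, 329853488332, 439804651111⟩ :=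
  HP_1_1_4_0_c602

theorem HP_1_1_4_1 : HP 1 1 4 1 ⟨137438953472, 274877906944, 137438953472, 274877906944, 458129844906, 549755813888, 439804651110, 549755813888⟩ :=
  (FHolds.split1 206158430208 HP_1_1_4_1_c603 (FHolds.split2 206158430208 HP_1_1_4_1_c604 HP_1_1_4_1_c605))

theorem HP_1_1_4_2 : HP 1 1 4 2 ⟨137438953472, 274877906944, 137438953472, 274877906944, 458129844906, 549755813888, 549755813888, 659706976666⟩ :=
  (FHolds.split2 206158430208 (FHolds.split1 206158430208 HP_1_1_4_2_c606 HP_1_1_4_2_c607) HP_1_1_4_2_c608)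

theorem HP_1_1_4_3 : HP 1 1 4 3 ⟨137438953472, 274877906944, 137438953472, 274877906944, 458129844906, 549755813888, 659706976665, 879609302221⟩ :=
  (FHolds.split1 206158430208 (FHolds.split3 503942829397 (FHolds.split4 769658139443 HP_1_1_4_3_c609 (FHolds.split3 481036337151 HP_1_1_4_3_c610 HP_1_1_4_3_c611)) HP_1_1_4_3_c612) (FHolds.split2 206158430208 HP_1_1_4_3_c613 HP_1_1_4_3_c614))

theorem HP_1_1_4_4 : HP 1 1 4 4 ⟨137438953472, 274877906944, 137438953472, 274877906944, 458129844906, 549755813888, 879609302220, 1099511627776⟩ :=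
  (FHolds.split3 503942829397 (FHolds.split1 206158430208 (FHolds.split4 989560464998 (FHolds.split3 481036337151 (FHolds.split2 206158430208 HP_1_1_4_4_c615 HP_1_1_4_4_c616) HP_1_1_4_4_c617) (FHolds.split3 481036337151 (FHolds.split1 171798691840 (FHolds.split2 206158430208 HP_1_1_4_4_c618 HP_1_1_4_4_c619) HP_1_1_4_4_c620) HP_1_1_4_4_c621)) (FHolds.split4 989560464998 HP_1_1_4_4_c622 HP_1_1_4_4_c623)) (FHolds.split4 989560464998 HP_1_1_4_4_c624 HP_1_1_4_4_c625))

theorem HE_1_1_4 : HE 1 1 4 ⟨137438953472, 274877906944, 137438953472, 274877906944, 458129844906, 549755813888, 0, 0⟩ :=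
  HE_1_1_4_c626

theorem HP_1_2_4_0 : HP 1 2 4 0 ⟨137438953472, 274877906944, 274877906944, 366503875926, 458129844906, 549755813888, 329853488332, 439804651111⟩ :=
  HP_1_2_4_0_c627

theorem HP_1_2_4_1 : HP 1 2 4 1 ⟨137438953472, 274877906944, 274877906944, 366503875926, 458129844906, 549755813888, 439804651110, 549755813888⟩ :=
  (FHolds.split1 206158430208 HP_1_2_4_1_c628 HP_1_2_4_1_c629)

theorem HP_1_2_4_2 : HP 1 2 4 2 ⟨137438953472, 274877906944, 274877906944, 366503875926, 458129844906, 549755813888, 549755813888, 659706976666⟩ :=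
  (FHolds.split1 206158430208 (FHolds.split3 503942829397 (FHolds.split2 320690891435 HP_1_2_4_2_c630 HP_1_2_4_2_c631) HP_1_2_4_2_c632) HP_1_2_4_2_c633)

theorem HP_1_2_4_3 : HP 1 2 4 3 ⟨137438953472, 274877906944, 274877906944, 366503875926, 458129844906, 549755813888, 659706976665, 879609302221⟩ :=
  (FHolds.split1 206158430208 (FHolds.split3 503942829397 (FHolds.split4 769658139443 HP_1_2_4_3_c634 (FHolds.split2 320690891435 HP_1_2_4_3_c635 HP_1_2_4_3_c636)) HP_1_2_4_3_c637) (FHolds.split4 769658139443 HP_1_2_4_3_c638 HP_1_2_4_3_c639))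

theorem HP_1_2_4_4 : HP 1 2 4 4 ⟨137438953472, 274877906944, 274877906944, 366503875926, 458129844906, 549755813888, 879609302220, 1099511627776⟩ :=
  (FHolds.split1 206158430208 (FHolds.split3 503942829397 (FHolds.split3 481036337151 (FHolds.split4 989560464998 (FHolds.split2 320690891435 HP_1_2_4_4_c640 (FHolds.split1 171798691840 HP_1_2_4_4_c641 HP_1_2_4_4_c642)) (FHolds.split1 171798691840 (FHolds.split2 320690891435 HP_1_2_4_4_c643 HP_1_2_4_4_c644) HP_1_2_4_4_c645)) HP_1_2_4_4_c646) HP_1_2_4_4_c647) (FHolds.split3 503942829397 HP_1_2_4_4_c648 HP_1_2_4_4_c649))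

theorem HE_1_2_4 : HE 1 2 4 ⟨137438953472, 274877906944, 274877906944, 366503875926, 458129844906, 549755813888, 0, 0⟩ :=
  HE_1_2_4_c650

theorem HP_1_3_4_0 : HP 1 3 4 0 ⟨137438953472, 274877906944, 366503875925, 458129844907, 458129844906, 549755813888, 329853488332, 439804651111⟩ :=
  (FHolds.split4 384829069721 HP_1_3_4_0_c651 (FHolds.split4 412316860416 HP_1_3_4_0_c652 HP_1_3_4_0_c653))

theorem HP_1_3_4_1 : HP 1 3 4 1 ⟨137438953472, 274877906944, 366503875925, 458129844907, 458129844906, 549755813888, 439804651110, 549755813888⟩ :=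
  (FHolds.split3 503942829397 (FHolds.split2 412316860416 HP_1_3_4_1_c654 (FHolds.split1 206158430208 HP_1_3_4_1_c655 HP_1_3_4_1_c656)) HP_1_3_4_1_c657)

theorem HP_1_3_4_2 : HP 1 3 4 2 ⟨137438953472, 274877906944, 366503875925, 458129844907, 458129844906, 549755813888, 549755813888, 659706976666⟩ :=
  (FHolds.split3 503942829397 (FHolds.split1 206158430208 (FHolds.split2 412316860416 HP_1_3_4_2_c658 HP_1_3_4_2_c659) HP_1_3_4_2_c660) HP_1_3_4_2_c661)

theorem HP_1_3_4_3 : HP 1 3 4 3 ⟨137438953472, 274877906944, 366503875925, 458129844907, 458129844906, 549755813888, 659706976665, 879609302221⟩ :=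
  (FHolds.split1 206158430208 (FHolds.split2 412316860416 HP_1_3_4_3_c662 (FHolds.split3 503942829397 (FHolds.split2 435223352661 HP_1_3_4_3_c663 (FHolds.split1 171798691840 HP_1_3_4_3_c664 (FHolds.split3 481036337151 HP_1_3_4_3_c665 HP_1_3_4_3_c666))) HP_1_3_4_3_c667)) (FHolds.split2 412316860416 HP_1_3_4_3_c668 (FHolds.split3 503942829397 (FHolds.split4 769658139443 HP_1_3_4_3_c669 HP_1_3_4_3_c670) HP_1_3_4_3_c671)))

theorem HP_1_3_4_4 : HP 1 3 4 4 ⟨137438953472, 274877906944, 366503875925, 458129844907, 458129844906, 549755813888, 879609302220, 1099511627776⟩ :=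
  (FHolds.split1 206158430208 (FHolds.split2 412316860416 (FHolds.split3 503942829397 (FHolds.split4 989560464998 HP_1_3_4_4_c672 (FHolds.split3 481036337151 HP_1_3_4_4_c673 HP_1_3_4_4_c674)) HP_1_3_4_4_c675) (FHolds.split2 435223352661 HP_1_3_4_4_c676 (FHolds.split1 171798691840 HP_1_3_4_4_c677 (FHolds.split3 503942829397 (FHolds.split4 989560464998 (FHolds.split3 481036337151 (FHolds.split1 188978561024 (FHolds.split2 446676598784 HP_1_3_4_4_c678 HP_1_3_4_4_c679) HP_1_3_4_4_c680) HP_1_3_4_4_c681) HP_1_3_4_4_c682) HP_1_3_4_4_c683)))) (FHolds.split2 412316860416 (FHolds.split1 240518168576 HP_1_3_4_4_c684 (FHolds.split2 389410368170 HP_1_3_4_4_c685 HP_1_3_4_4_c686)) (FHolds.split3 503942829397 (FHolds.split4 989560464998 (FHolds.split4 934584883609 HP_1_3_4_4_c687 HP_1_3_4_4_c688) HP_1_3_4_4_c689) HP_1_3_4_4_c690)))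

theorem HE_1_3_4 : HE 1 3 4 ⟨137438953472, 274877906944, 366503875925, 458129844907, 458129844906, 549755813888, 0, 0⟩ :=
  HE_1_3_4_c691

theorem HP_1_4_4_0 : HP 1 4 4 0 ⟨137438953472, 274877906944, 458129844906, 549755813888, 458128796330, 549755813888, 329853488332, 439804651111⟩ :=
  (FHolds.split4 384829069721 HP_1_4_4_0_c692 HP_1_4_4_0_c693)

theorem HP_1_4_4_1 : HP 1 4 4 1 ⟨137438953472, 274877906944, 458129844906, 549755813888, 458128796330, 549755813888, 439804651110, 549755813888⟩ :=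
  (FHolds.split1 206158430208 (FHolds.split4 494780232499 HP_1_4_4_1_c694 HP_1_4_4_1_c695) HP_1_4_4_1_c696)

theorem HP_1_4_4_2 : HP 1 4 4 2 ⟨137438953472, 274877906944, 458129844906, 549755813888, 458128796330, 549755813888, 549755813888, 659706976666⟩ :=
  (FHolds.split1 206158430208 (FHolds.split3 503942305109 (FHolds.split2 503942829397 (FHolds.split3 481035550719 (FHolds.split2 481036337151 (FHolds.split1 171798691840 HP_1_4_4_2_c697 HP_1_4_4_2_c698) HP_1_4_4_2_c699) HP_1_4_4_2_c700) HP_1_4_4_2_c701) HP_1_4_4_2_c702) HP_1_4_4_2_c703)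

theorem HP_1_4_4_3 : HP 1 4 4 3 ⟨137438953472, 274877906944, 458129844906, 549755813888, 458128796330, 549755813888, 659706976665, 879609302221⟩ :=
  (FHolds.split3 503942305109 (FHolds.split2 503942829397 (FHolds.split1 206158430208 (FHolds.split4 769658139443 (FHolds.split3 481035550719 (FHolds.split2 481036337151 (FHolds.split4 714682558054 HP_1_4_4_3_c704 HP_1_4_4_3_c705) HP_1_4_4_3_c706) HP_1_4_4_3_c707) (FHolds.split3 481035550719 (FHolds.split2 481036337151 (FHolds.split3 469582173524 HP_1_4_4_3_c708 (FHolds.split1 171798691840 (FHolds.split2 469583091028 HP_1_4_4_3_c709 HP_1_4_4_3_c710) HP_1_4_4_3_c711)) HP_1_4_4_3_c712) (FHolds.split1 171798691840 HP_1_4_4_3_c713 HP_1_4_4_3_c714))) HP_1_4_4_3_c715) HP_1_4_4_3_c716) (FHolds.split2 503942829397 (FHolds.split4 769658139443 HP_1_4_4_3_c717 HP_1_4_4_3_c718) HP_1_4_4_3_c719))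

theorem HP_1_4_4_4 : HP 1 4 4 4 ⟨137438953472, 274877906944, 458129844906, 549755813888, 458128796330, 549755813888, 879609302220, 1099511627776⟩ :=
  (FHolds.split3 503942305109 (FHolds.split2 503942829397 (FHolds.split1 206158430208 (FHolds.split1 171798691840 (FHolds.split3 481035550719 (FHolds.split2 481036337151 (FHolds.split1 154618822656 (FHolds.split3 469582173524 HP_1_4_4_4_c720 (FHolds.split2 469583091028 HP_1_4_4_4_c721 (FHolds.split4 989560464998 HP_1_4_4_4_c722 HP_1_4_4_4_c723))) (FHolds.split4 989560464998 (FHolds.split3 469582173524 (FHolds.split3 463855484927 HP_1_4_4_4_c724 (FHolds.split4 934584883609 (FHolds.split2 469583091028 HP_1_4_4_4_c725 HP_1_4_4_4_c726) HP_1_4_4_4_c727)) HP_1_4_4_4_c728) (FHolds.split3 469582173524 HP_1_4_4_4_c729 (FHolds.split4 1044536046387 HP_1_4_4_4_c730 (FHolds.split4 1072023837081 HP_1_4_4_4_c731 HP_1_4_4_4_c732))))) HP_1_4_4_4_c733) (FHolds.split2 481036337151 (FHolds.split4 989560464998 (FHolds.split4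 934584883609 HP_1_4_4_4_c734 HP_1_4_4_4_c735) HP_1_4_4_4_c736) HP_1_4_4_4_c737)) (FHolds.split4 989560464998 (FHolds.split3 481035550719 (FHolds.split3 469582173524 HP_1_4_4_4_c738 HP_1_4_4_4_c739) HP_1_4_4_4_c740) (FHolds.split3 481035550719 (FHolds.split4 1044536046387 HP_1_4_4_4_c741 HP_1_4_4_4_c742) HP_1_4_4_4_c743))) (FHolds.split4 989560464998 HP_1_4_4_4_c744 HP_1_4_4_4_c745)) HP_1_4_4_4_c746) (FHolds.split4 989560464998 (FHolds.split2 503942829397 (FHolds.split1 206158430208 HP_1_4_4_4_c747 HP_1_4_4_4_c748) HP_1_4_4_4_c749) (FHolds.split1 206158430208 HP_1_4_4_4_c750 HP_1_4_4_4_c751)))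

theorem HE_1_4_4 : HE 1 4 4 ⟨137438953472, 274877906944, 458129844906, 549755813888, 458128796330, 549755813888, 0, 0⟩ :=
  HE_1_4_4_c752

theorem HP_1_0_5_0 : HP 1 0 5 0 ⟨137438953472, 274877906944, 0, 137438953472, 549755813888, 641381782870, 329853488332, 439804651111⟩ :=
  (FHolds.split1 206158430208 HP_1_0_5_0_c753 HP_1_0_5_0_c754)

theorem HP_1_0_5_1 : HP 1 0 5 1 ⟨137438953472, 274877906944, 0, 137438953472, 549755813888, 641381782870, 439804651110, 549755813888⟩ :=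
  HP_1_0_5_1_c755

theorem HP_1_0_5_2 : HP 1 0 5 2 ⟨137438953472, 274877906944, 0, 137438953472, 549755813888, 641381782870, 549755813888, 659706976666⟩ :=
  (FHolds.split1 206158430208 HP_1_0_5_2_c756 HP_1_0_5_2_c757)

theorem HP_1_0_5_3 : HP 1 0 5 3 ⟨137438953472, 274877906944, 0, 137438953472, 549755813888, 641381782870, 659706976665, 879609302221⟩ :=
  (FHolds.split1 206158430208 (FHolds.split2 68719476736 HP_1_0_5_3_c758 (FHolds.split3 595568798379 HP_1_0_5_3_c759 HP_1_0_5_3_c760)) HP_1_0_5_3_c761)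

theorem HP_1_0_5_4 : HP 1 0 5 4 ⟨137438953472, 274877906944, 0, 137438953472, 549755813888, 641381782870, 879609302220, 1099511627776⟩ :=
  (FHolds.split1 206158430208 (FHolds.split2 68719476736 HP_1_0_5_4_c762 (FHolds.split2 103079215104 HP_1_0_5_4_c763 HP_1_0_5_4_c764)) HP_1_0_5_4_c765)

theorem HE_1_0_5 : HE 1 0 5 ⟨137438953472, 274877906944, 0, 137438953472, 549755813888, 641381782870, 0, 0⟩ :=
  HE_1_0_5_c766

theorem HP_1_1_5_0 : HP 1 1 5 0 ⟨137438953472, 274877906944, 137438953472, 274877906944, 549755813888, 641381782870, 329853488332, 439804651111⟩ :=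
  HP_1_1_5_0_c767

theorem HP_1_1_5_1 : HP 1 1 5 1 ⟨137438953472, 274877906944, 137438953472, 274877906944, 549755813888, 641381782870, 439804651110, 549755813888⟩ :=
  HP_1_1_5_1_c768

theorem HP_1_1_5_2 : HP 1 1 5 2 ⟨137438953472, 274877906944, 137438953472, 274877906944, 549755813888, 641381782870, 549755813888, 659706976666⟩ :=
  (FHolds.split2 206158430208 HP_1_1_5_2_c769 HP_1_1_5_2_c770)

theorem HP_1_1_5_3 : HP 1 1 5 3 ⟨137438953472, 274877906944, 137438953472, 274877906944, 549755813888, 641381782870, 659706976665, 879609302221⟩ :=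
  HP_1_1_5_3_c771

theorem HP_1_1_5_4 : HP 1 1 5 4 ⟨137438953472, 274877906944, 137438953472, 274877906944, 549755813888, 641381782870, 879609302220, 1099511627776⟩ :=
  HP_1_1_5_4_c772

theorem HE_1_1_5 : HE 1 1 5 ⟨137438953472, 274877906944, 137438953472, 274877906944, 549755813888, 641381782870, 0, 0⟩ :=
  HE_1_1_5_c773

theorem HP_1_2_5_0 : HP 1 2 5 0 ⟨137438953472, 274877906944, 274877906944, 366503875926, 549755813888, 641381782870, 329853488332, 439804651111⟩ :=
  HP_1_2_5_0_c774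

theorem HP_1_2_5_1 : HP 1 2 5 1 ⟨137438953472, 274877906944, 274877906944, 366503875926, 549755813888, 641381782870, 439804651110, 549755813888⟩ :=
  HP_1_2_5_1_c775

theorem HP_1_2_5_2 : HP 1 2 5 2 ⟨137438953472, 274877906944, 274877906944, 366503875926, 549755813888, 641381782870, 549755813888, 659706976666⟩ :=
  HP_1_2_5_2_c776

theorem HP_1_2_5_3 : HP 1 2 5 3 ⟨137438953472, 274877906944, 274877906944, 366503875926, 549755813888, 641381782870, 659706976665, 879609302221⟩ :=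
  HP_1_2_5_3_c777

theorem HP_1_2_5_4 : HP 1 2 5 4 ⟨137438953472, 274877906944, 274877906944, 366503875926, 549755813888, 641381782870, 879609302220, 1099511627776⟩ :=
  HP_1_2_5_4_c778

theorem HE_1_2_5 : HE 1 2 5 ⟨137438953472, 274877906944, 274877906944, 366503875926, 549755813888, 641381782870, 0, 0⟩ :=
  HE_1_2_5_c779

theorem HP_1_3_5_0 : HP 1 3 5 0 ⟨137438953472, 274877906944, 366503875925, 458129844907, 549755813888, 641381782870, 329853488332, 439804651111⟩ :=
  (FHolds.split4 384829069721 (FHolds.split1 206158430208 HP_1_3_5_0_c780 HP_1_3_5_0_c781) HP_1_3_5_0_c782)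

theorem HP_1_3_5_1 : HP 1 3 5 1 ⟨137438953472, 274877906944, 366503875925, 458129844907, 549755813888, 641381782870, 439804651110, 549755813888⟩ :=
  HP_1_3_5_1_c783

theorem HP_1_3_5_2 : HP 1 3 5 2 ⟨137438953472, 274877906944, 366503875925, 458129844907, 549755813888, 641381782870, 549755813888, 659706976666⟩ :=
  (FHolds.split1 206158430208 HP_1_3_5_2_c784 HP_1_3_5_2_c785)

theorem HP_1_3_5_3 : HP 1 3 5 3 ⟨137438953472, 274877906944, 366503875925, 458129844907, 549755813888, 641381782870, 659706976665, 879609302221⟩ :=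
  (FHolds.split1 206158430208 HP_1_3_5_3_c786 HP_1_3_5_3_c787)

theorem HP_1_3_5_4 : HP 1 3 5 4 ⟨137438953472, 274877906944, 366503875925, 458129844907, 549755813888, 641381782870, 879609302220, 1099511627776⟩ :=
  (FHolds.split1 206158430208 (FHolds.split2 412316860416 HP_1_3_5_4_c788 (FHolds.split2 435223352661 HP_1_3_5_4_c789 (FHolds.split1 171798691840 HP_1_3_5_4_c790 (FHolds.split3 595568798379 HP_1_3_5_4_c791 HP_1_3_5_4_c792)))) (FHolds.split2 412316860416 HP_1_3_5_4_c793 (FHolds.split1 240518168576 HP_1_3_5_4_c794 HP_1_3_5_4_c795)))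

theorem HE_1_3_5 : HE 1 3 5 ⟨137438953472, 274877906944, 366503875925, 458129844907, 549755813888, 641381782870, 0, 0⟩ :=
  HE_1_3_5_c796

theorem HP_1_4_5_0 : HP 1 4 5 0 ⟨137438953472, 274877906944, 458129844906, 549755813888, 549755813888, 641381782870, 329853488332, 439804651111⟩ :=
  (FHolds.split4 384829069721 HP_1_4_5_0_c797 HP_1_4_5_0_c798)

theorem HP_1_4_5_1 : HP 1 4 5 1 ⟨137438953472, 274877906944, 458129844906, 549755813888, 549755813888, 641381782870, 439804651110, 549755813888⟩ :=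
  HP_1_4_5_1_c799

theorem HP_1_4_5_2 : HP 1 4 5 2 ⟨137438953472, 274877906944, 458129844906, 549755813888, 549755813888, 641381782870, 549755813888, 659706976666⟩ :=
  HP_1_4_5_2_c800

theorem HP_1_4_5_3 : HP 1 4 5 3 ⟨137438953472, 274877906944, 458129844906, 549755813888, 549755813888, 641381782870, 659706976665, 879609302221⟩ :=
  (FHolds.split2 503942829397 (FHolds.split3 595568798379 (FHolds.split1 206158430208 (FHolds.split4 769658139443 HP_1_4_5_3_c801 HP_1_4_5_3_c802) HP_1_4_5_3_c803) (FHolds.split1 206158430208 (FHolds.split4 769658139443 HP_1_4_5_3_c804 (FHolds.split2 481036337151 HP_1_4_5_3_c805 HP_1_4_5_3_c806)) HP_1_4_5_3_c807)) HP_1_4_5_3_c808)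

theorem HP_1_4_5_4 : HP 1 4 5 4 ⟨137438953472, 274877906944, 458129844906, 549755813888, 549755813888, 641381782870, 879609302220, 1099511627776⟩ :=
  (FHolds.split2 503942829397 (FHolds.split1 206158430208 (FHolds.split3 595568798379 (FHolds.split2 481036337151 HP_1_4_5_4_c809 HP_1_4_5_4_c810) (FHolds.split2 481036337151 (FHolds.split1 171798691840 (FHolds.split2 469583091028 HP_1_4_5_4_c811 HP_1_4_5_4_c812) HP_1_4_5_4_c813) HP_1_4_5_4_c814)) HP_1_4_5_4_c815) HP_1_4_5_4_c816)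

theorem HE_1_4_5 : HE 1 4 5 ⟨137438953472, 274877906944, 458129844906, 549755813888, 549755813888, 641381782870, 0, 0⟩ :=
  HE_1_4_5_c817

theorem HP_1_5_5_0 : HP 1 5 5 0 ⟨137438953472, 274877906944, 549755813888, 641381782870, 549754765312, 641381782870, 329853488332, 439804651111⟩ :=
  HP_1_5_5_0_c818

theorem HP_1_5_5_1 : HP 1 5 5 1 ⟨137438953472, 274877906944, 549755813888, 641381782870, 549754765312, 641381782870, 439804651110, 549755813888⟩ :=
  HP_1_5_5_1_c819

theorem HP_1_5_5_2 : HP 1 5 5 2 ⟨137438953472, 274877906944, 549755813888, 641381782870, 549754765312, 641381782870, 549755813888, 659706976666⟩ :=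
  (FHolds.split1 206158430208 HP_1_5_5_2_c820 HP_1_5_5_2_c821)

theorem HP_1_5_5_3 : HP 1 5 5 3 ⟨137438953472, 274877906944, 549755813888, 641381782870, 549754765312, 641381782870, 659706976665, 879609302221⟩ :=
  (FHolds.split3 595568274091 HP_1_5_5_3_c822 HP_1_5_5_3_c823)

theorem HP_1_5_5_4 : HP 1 5 5 4 ⟨137438953472, 274877906944, 549755813888, 641381782870, 549754765312, 641381782870, 879609302220, 1099511627776⟩ :=
  HP_1_5_5_4_c824

theorem HE_1_5_5 : HE 1 5 5 ⟨137438953472, 274877906944, 549755813888, 641381782870, 549754765312, 641381782870, 0, 0⟩ :=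
  HE_1_5_5_c825

theorem HP_2_0_0_0 : HP 2 0 0 0 ⟨274877906944, 366503875926, 0, 137438953472, (-1048576), 137438953472, 329853488332, 439804651111⟩ :=
  HP_2_0_0_0_c826

theorem HP_2_0_0_1 : HP 2 0 0 1 ⟨274877906944, 366503875926, 0, 137438953472, (-1048576), 137438953472, 439804651110, 549755813888⟩ :=
  HP_2_0_0_1_c827

theorem HP_2_0_0_2 : HP 2 0 0 2 ⟨274877906944, 366503875926, 0, 137438953472, (-1048576), 137438953472, 549755813888, 659706976666⟩ :=
  HP_2_0_0_2_c828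

theorem HP_2_0_0_3 : HP 2 0 0 3 ⟨274877906944, 366503875926, 0, 137438953472, (-1048576), 137438953472, 659706976665, 879609302221⟩ :=
  HP_2_0_0_3_c829

theorem HP_2_0_0_4 : HP 2 0 0 4 ⟨274877906944, 366503875926, 0, 137438953472, (-1048576), 137438953472, 879609302220, 1099511627776⟩ :=
  HP_2_0_0_4_c830

theorem HE_2_0_0 : HE 2 0 0 ⟨274877906944, 366503875926, 0, 137438953472, (-1048576), 137438953472, 0, 0⟩ :=
  HE_2_0_0_c831

theorem HP_2_0_1_0 : HP 2 0 1 0 ⟨274877906944, 366503875926, 0, 137438953472, 137438953472, 274877906944, 329853488332, 439804651111⟩ :=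
  HP_2_0_1_0_c832

theorem HP_2_0_1_1 : HP 2 0 1 1 ⟨274877906944, 366503875926, 0, 137438953472, 137438953472, 274877906944, 439804651110, 549755813888⟩ :=
  HP_2_0_1_1_c833

theorem HP_2_0_1_2 : HP 2 0 1 2 ⟨274877906944, 366503875926, 0, 137438953472, 137438953472, 274877906944, 549755813888, 659706976666⟩ :=
  HP_2_0_1_2_c834

theorem HP_2_0_1_3 : HP 2 0 1 3 ⟨274877906944, 366503875926, 0, 137438953472, 137438953472, 274877906944, 659706976665, 879609302221⟩ :=
  HP_2_0_1_3_c835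

theorem HP_2_0_1_4 : HP 2 0 1 4 ⟨274877906944, 366503875926, 0, 137438953472, 137438953472, 274877906944, 879609302220, 1099511627776⟩ :=
  HP_2_0_1_4_c836

theorem HE_2_0_1 : HE 2 0 1 ⟨274877906944, 366503875926, 0, 137438953472, 137438953472, 274877906944, 0, 0⟩ :=
  HE_2_0_1_c837

theorem HP_2_1_1_0 : HP 2 1 1 0 ⟨274877906944, 366503875926, 137438953472, 274877906944, 137437904896, 274877906944, 329853488332, 439804651111⟩ :=
  (FHolds.split4 384829069721 HP_2_1_1_0_c838 HP_2_1_1_0_c839)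

theorem HP_2_1_1_1 : HP 2 1 1 1 ⟨274877906944, 366503875926, 137438953472, 274877906944, 137437904896, 274877906944, 439804651110, 549755813888⟩ :=
  (FHolds.split3 206157905920 HP_2_1_1_1_c840 HP_2_1_1_1_c841)

theorem HP_2_1_1_2 : HP 2 1 1 2 ⟨274877906944, 366503875926, 137438953472, 274877906944, 137437904896, 274877906944, 549755813888, 659706976666⟩ :=
  (FHolds.split1 320690891435 HP_2_1_1_2_c842 HP_2_1_1_2_c843)

theorem HP_2_1_1_3 : HP 2 1 1 3 ⟨274877906944, 366503875926, 137438953472, 274877906944, 137437904896, 274877906944, 659706976665, 879609302221⟩ :=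
  (FHolds.split1 320690891435 HP_2_1_1_3_c844 HP_2_1_1_3_c845)

theorem HP_2_1_1_4 : HP 2 1 1 4 ⟨274877906944, 366503875926, 137438953472, 274877906944, 137437904896, 274877906944, 879609302220, 1099511627776⟩ :=
  HP_2_1_1_4_c846

theorem HE_2_1_1 : HE 2 1 1 ⟨274877906944, 366503875926, 137438953472, 274877906944, 137437904896, 274877906944, 0, 0⟩ :=
  HE_2_1_1_c847

theorem HP_2_0_2_0 : HP 2 0 2 0 ⟨274877906944, 366503875926, 0, 137438953472, 274877906944, 366503875926, 329853488332, 439804651111⟩ :=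
  HP_2_0_2_0_c848

theorem HP_2_0_2_1 : HP 2 0 2 1 ⟨274877906944, 366503875926, 0, 137438953472, 274877906944, 366503875926, 439804651110, 549755813888⟩ :=
  HP_2_0_2_1_c849

theorem HP_2_0_2_2 : HP 2 0 2 2 ⟨274877906944, 366503875926, 0, 137438953472, 274877906944, 366503875926, 549755813888, 659706976666⟩ :=
  HP_2_0_2_2_c850

theorem HP_2_0_2_3 : HP 2 0 2 3 ⟨274877906944, 366503875926, 0, 137438953472, 274877906944, 366503875926, 659706976665, 879609302221⟩ :=
  HP_2_0_2_3_c851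

theorem HP_2_0_2_4 : HP 2 0 2 4 ⟨274877906944, 366503875926, 0, 137438953472, 274877906944, 366503875926, 879609302220, 1099511627776⟩ :=
  HP_2_0_2_4_c852

theorem HE_2_0_2 : HE 2 0 2 ⟨274877906944, 366503875926, 0, 137438953472, 274877906944, 366503875926, 0, 0⟩ :=
  HE_2_0_2_c853

theorem HP_2_1_2_0 : HP 2 1 2 0 ⟨274877906944, 366503875926, 137438953472, 274877906944, 274877906944, 366503875926, 329853488332, 439804651111⟩ :=
  (FHolds.split4 384829069721 HP_2_1_2_0_c854 (FHolds.split2 206158430208 (FHolds.split3 320690891435 HP_2_1_2_0_c855 HP_2_1_2_0_c856) (FHolds.split3 320690891435 HP_2_1_2_0_c857 HP_2_1_2_0_c858)))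

theorem HP_2_1_2_1 : HP 2 1 2 1 ⟨274877906944, 366503875926, 137438953472, 274877906944, 274877906944, 366503875926, 439804651110, 549755813888⟩ :=
  (FHolds.split2 206158430208 (FHolds.split4 494780232499 (FHolds.split3 320690891435 HP_2_1_2_1_c859 HP_2_1_2_1_c860) HP_2_1_2_1_c861) (FHolds.split1 320690891435 HP_2_1_2_1_c862 HP_2_1_2_1_c863))

theorem HP_2_1_2_2 : HP 2 1 2 2 ⟨274877906944, 366503875926, 137438953472, 274877906944, 274877906944, 366503875926, 549755813888, 659706976666⟩ :=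
  (FHolds.split2 206158430208 HP_2_1_2_2_c864 HP_2_1_2_2_c865)

theorem HP_2_1_2_3 : HP 2 1 2 3 ⟨274877906944, 366503875926, 137438953472, 274877906944, 274877906944, 366503875926, 659706976665, 879609302221⟩ :=
  (FHolds.split2 206158430208 HP_2_1_2_3_c866 HP_2_1_2_3_c867)

theorem HP_2_1_2_4 : HP 2 1 2 4 ⟨274877906944, 366503875926, 137438953472, 274877906944, 274877906944, 366503875926, 879609302220, 1099511627776⟩ :=
  HP_2_1_2_4_c868

theorem HE_2_1_2 : HE 2 1 2 ⟨274877906944, 366503875926, 137438953472, 274877906944, 274877906944, 366503875926, 0, 0⟩ :=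
  HE_2_1_2_c869

theorem HP_2_2_2_0 : HP 2 2 2 0 ⟨274877906944, 366503875926, 274877906944, 366503875926, 274876858368, 366503875926, 329853488332, 439804651111⟩ :=
  (FHolds.split4 384829069721 HP_2_2_2_0_c870 (FHolds.split1 320690891435 (FHolds.split3 320690367147 HP_2_2_2_0_c871 (FHolds.split2 320690891435 HP_2_2_2_0_c872 HP_2_2_2_0_c873)) HP_2_2_2_0_c874))

theorem HP_2_2_2_1 : HP 2 2 2 1 ⟨274877906944, 366503875926, 274877906944, 366503875926, 274876858368, 366503875926, 439804651110, 549755813888⟩ :=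
  (FHolds.split3 320690367147 HP_2_2_2_1_c875 (FHolds.split2 320690891435 (FHolds.split4 494780232499 HP_2_2_2_1_c876 HP_2_2_2_1_c877) (FHolds.split1 320690891435 (FHolds.split4 494780232499 (FHolds.split3 343597121536 HP_2_2_2_1_c878 HP_2_2_2_1_c879) HP_2_2_2_1_c880) HP_2_2_2_1_c881)))

theorem HP_2_2_2_2 : HP 2 2 2 2 ⟨274877906944, 366503875926, 274877906944, 366503875926, 274876858368, 366503875926, 549755813888, 659706976666⟩ :=
  HP_2_2_2_2_c882

theorem HP_2_2_2_3 : HP 2 2 2 3 ⟨274877906944, 366503875926, 274877906944, 366503875926, 274876858368, 366503875926, 659706976665, 879609302221⟩ :=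
  HP_2_2_2_3_c883

theorem HP_2_2_2_4 : HP 2 2 2 4 ⟨274877906944, 366503875926, 274877906944, 366503875926, 274876858368, 366503875926, 879609302220, 1099511627776⟩ :=
  HP_2_2_2_4_c884

theorem HE_2_2_2 : HE 2 2 2 ⟨274877906944, 366503875926, 274877906944, 366503875926, 274876858368, 366503875926, 0, 0⟩ :=
  HE_2_2_2_c885

theorem HP_2_0_3_0 : HP 2 0 3 0 ⟨274877906944, 366503875926, 0, 137438953472, 366503875925, 458129844907, 329853488332, 439804651111⟩ :=
  (FHolds.split4 384829069721 HP_2_0_3_0_c886 (FHolds.split3 412316860416 HP_2_0_3_0_c887 HP_2_0_3_0_c888))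

theorem HP_2_0_3_1 : HP 2 0 3 1 ⟨274877906944, 366503875926, 0, 137438953472, 366503875925, 458129844907, 439804651110, 549755813888⟩ :=
  (FHolds.split4 494780232499 (FHolds.split1 320690891435 HP_2_0_3_1_c889 HP_2_0_3_1_c890) HP_2_0_3_1_c891)

theorem HP_2_0_3_2 : HP 2 0 3 2 ⟨274877906944, 366503875926, 0, 137438953472, 366503875925, 458129844907, 549755813888, 659706976666⟩ :=
  (FHolds.split2 68719476736 HP_2_0_3_2_c892 (FHolds.split1 320690891435 (FHolds.split4 604731395277 HP_2_0_3_2_c893 HP_2_0_3_2_c894) HP_2_0_3_2_c895))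

theorem HP_2_0_3_3 : HP 2 0 3 3 ⟨274877906944, 366503875926, 0, 137438953472, 366503875925, 458129844907, 659706976665, 879609302221⟩ :=
  (FHolds.split2 68719476736 HP_2_0_3_3_c896 HP_2_0_3_3_c897)

theorem HP_2_0_3_4 : HP 2 0 3 4 ⟨274877906944, 366503875926, 0, 137438953472, 366503875925, 458129844907, 879609302220, 1099511627776⟩ :=
  (FHolds.split3 412316860416 (FHolds.split1 320690891435 HP_2_0_3_4_c898 HP_2_0_3_4_c899) HP_2_0_3_4_c900)

theorem HE_2_0_3 : HE 2 0 3 ⟨274877906944, 366503875926, 0, 137438953472, 366503875925, 458129844907, 0, 0⟩ :=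
  HE_2_0_3_c901

theorem HP_2_1_3_0 : HP 2 1 3 0 ⟨274877906944, 366503875926, 137438953472, 274877906944, 366503875925, 458129844907, 329853488332, 439804651111⟩ :=
  (FHolds.split4 384829069721 HP_2_1_3_0_c902 (FHolds.split3 412316860416 (FHolds.split2 206158430208 (FHolds.split1 320690891435 HP_2_1_3_0_c903 HP_2_1_3_0_c904) HP_2_1_3_0_c905) HP_2_1_3_0_c906))

theorem HP_2_1_3_1 : HP 2 1 3 1 ⟨274877906944, 366503875926, 137438953472, 274877906944, 366503875925, 458129844907, 439804651110, 549755813888⟩ :=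
  (FHolds.split2 206158430208 (FHolds.split4 494780232499 (FHolds.split3 412316860416 HP_2_1_3_1_c907 HP_2_1_3_1_c908) (FHolds.split2 171798691840 HP_2_1_3_1_c909 HP_2_1_3_1_c910)) (FHolds.split4 494780232499 HP_2_1_3_1_c911 HP_2_1_3_1_c912))

theorem HP_2_1_3_2 : HP 2 1 3 2 ⟨274877906944, 366503875926, 137438953472, 274877906944, 366503875925, 458129844907, 549755813888, 659706976666⟩ :=
  (FHolds.split2 206158430208 (FHolds.split1 320690891435 (FHolds.split3 412316860416 HP_2_1_3_2_c913 HP_2_1_3_2_c914) (FHolds.split3 412316860416 HP_2_1_3_2_c915 HP_2_1_3_2_c916)) (FHolds.split2 240518168576 HP_2_1_3_2_c917 HP_2_1_3_2_c918))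

theorem HP_2_1_3_3 : HP 2 1 3 3 ⟨274877906944, 366503875926, 137438953472, 274877906944, 366503875925, 458129844907, 659706976665, 879609302221⟩ :=
  (FHolds.split2 206158430208 (FHolds.split4 769658139443 (FHolds.split1 320690891435 HP_2_1_3_3_c919 HP_2_1_3_3_c920) HP_2_1_3_3_c921) (FHolds.split4 769658139443 (FHolds.split3 412316860416 HP_2_1_3_3_c922 HP_2_1_3_3_c923) HP_2_1_3_3_c924))

theorem HP_2_1_3_4 : HP 2 1 3 4 ⟨274877906944, 366503875926, 137438953472, 274877906944, 366503875925, 458129844907, 879609302220, 1099511627776⟩ :=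
  (FHolds.split2 206158430208 (FHolds.split3 412316860416 (FHolds.split4 989560464998 HP_2_1_3_4_c925 (FHolds.split1 320690891435 HP_2_1_3_4_c926 HP_2_1_3_4_c927)) (FHolds.split1 320690891435 HP_2_1_3_4_c928 HP_2_1_3_4_c929)) (FHolds.split3 412316860416 HP_2_1_3_4_c930 HP_2_1_3_4_c931))

theorem HE_2_1_3 : HE 2 1 3 ⟨274877906944, 366503875926, 137438953472, 274877906944, 366503875925, 458129844907, 0, 0⟩ :=
  HE_2_1_3_c932

theorem HP_2_2_3_0 : HP 2 2 3 0 ⟨274877906944, 366503875926, 274877906944, 366503875926, 366503875925, 458129844907, 329853488332, 439804651111⟩ :=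
  (FHolds.split4 384829069721 HP_2_2_3_0_c933 (FHolds.split2 320690891435 (FHolds.split3 412316860416 (FHolds.split4 412316860416 HP_2_2_3_0_c934 HP_2_2_3_0_c935) HP_2_2_3_0_c936) (FHolds.split3 412316860416 (FHolds.split1 320690891435 (FHolds.split4 412316860416 HP_2_2_3_0_c937 (FHolds.split3 389410368170 HP_2_2_3_0_c938 HP_2_2_3_0_c939)) HP_2_2_3_0_c940) (FHolds.split4 412316860416 HP_2_2_3_0_c941 HP_2_2_3_0_c942))))

theorem HP_2_2_3_1 : HP 2 2 3 1 ⟨274877906944, 366503875926, 274877906944, 366503875926, 366503875925, 458129844907, 439804651110, 549755813888⟩ :=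
  (FHolds.split4 494780232499 (FHolds.split3 412316860416 (FHolds.split2 320690891435 (FHolds.split1 320690891435 HP_2_2_3_1_c943 HP_2_2_3_1_c944) (FHolds.split1 320690891435 (FHolds.split3 389410368170 HP_2_2_3_1_c945 (FHolds.split2 343597383680 HP_2_2_3_1_c946 HP_2_2_3_1_c947)) HP_2_2_3_1_c948)) HP_2_2_3_1_c949) (FHolds.split2 320690891435 (FHolds.split3 412316860416 (FHolds.split1 320690891435 (FHolds.split3 389410368170 HP_2_2_3_1_c950 (FHolds.split2 297784399189 HP_2_2_3_1_c951 HP_2_2_3_1_c952)) HP_2_2_3_1_c953) HP_2_2_3_1_c954) (FHolds.split3 412316860416 (FHolds.split1 320690891435 (FHolds.split3 389410368170 HP_2_2_3_1_c955 (FHolds.split2 343597383680 (FHolds.split3 400863614293 (FHolds.split1 297784399189 HP_2_2_3_1_c956 HP_2_2_3_1_c957) HP_2_2_3_1_c958) HP_2_2_3_1_c959)) HP_2_2_3_1_c960) HP_2_2_3_1_c961)))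

theorem HP_2_2_3_2 : HP 2 2 3 2 ⟨274877906944, 366503875926, 274877906944, 366503875926, 366503875925, 458129844907, 549755813888, 659706976666⟩ :=
  (FHolds.split2 320690891435 (FHolds.split3 412316860416 (FHolds.split1 320690891435 (FHolds.split2 297784399189 HP_2_2_3_2_c962 (FHolds.split3 389410368170 HP_2_2_3_2_c963 (FHolds.split4 604731395277 HP_2_2_3_2_c964 (FHolds.split1 297784399189 HP_2_2_3_2_c965 HP_2_2_3_2_c966)))) (FHolds.split2 297784399189 HP_2_2_3_2_c967 HP_2_2_3_2_c968)) HP_2_2_3_2_c969) (FHolds.split3 412316860416 (FHolds.split1 320690891435 (FHolds.split3 389410368170 (FHolds.split3 377957122047 HP_2_2_3_2_c970 (FHolds.split1 297784399189 HP_2_2_3_2_c971 HP_2_2_3_2_c972)) (FHolds.split2 343597383680 (FHolds.split4 604731395277 (FHolds.split3 400863614293 (FHolds.split1 297784399189 HP_2_2_3_2_c973 HP_2_2_3_2_c974) HP_2_2_3_2_c975) (FHolds.split1 297784399189 HP_2_2_3_2_c976 (FHolds.split3 400863614293 HP_2_2_3_2_c977 HP_2_2_3_2_c978)))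 (FHolds.split4 604731395277 HP_2_2_3_2_c979 HP_2_2_3_2_c980))) HP_2_2_3_2_c981) HP_2_2_3_2_c982))

theorem HP_2_2_3_3 : HP 2 2 3 3 ⟨274877906944, 366503875926, 274877906944, 366503875926, 366503875925, 458129844907, 659706976665, 879609302221⟩ :=
  (FHolds.split2 320690891435 (FHolds.split4 769658139443 (FHolds.split3 412316860416 (FHolds.split4 714682558054 (FHolds.split2 297784399189 HP_2_2_3_3_c983 (FHolds.split1 320690891435 HP_2_2_3_3_c984 HP_2_2_3_3_c985)) HP_2_2_3_3_c986) HP_2_2_3_3_c987) (FHolds.split3 412316860416 HP_2_2_3_3_c988 HP_2_2_3_3_c989)) (FHolds.split3 412316860416 (FHolds.split1 320690891435 (FHolds.split4 769658139443 (FHolds.split2 343597383680 (FHolds.split4 714682558054 (FHolds.split3 389410368170 HP_2_2_3_3_c990 (FHolds.split4 687194767359 HP_2_2_3_3_c991 HP_2_2_3_3_c992)) HP_2_2_3_3_c993) (FHolds.split3 389410368170 HP_2_2_3_3_c994 HP_2_2_3_3_c995)) HP_2_2_3_3_c996) HP_2_2_3_3_c997) (FHolds.split1 320690891435 HP_2_2_3_3_c998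 HP_2_2_3_3_c999)))

theorem HP_2_2_3_4 : HP 2 2 3 4 ⟨274877906944, 366503875926, 274877906944, 366503875926, 366503875925, 458129844907, 879609302220, 1099511627776⟩ :=
  (FHolds.split4 989560464998 (FHolds.split2 320690891435 (FHolds.split3 412316860416 HP_2_2_3_4_c1000 HP_2_2_3_4_c1001) (FHolds.split3 412316860416 HP_2_2_3_4_c1002 (FHolds.split1 320690891435 HP_2_2_3_4_c1003 HP_2_2_3_4_c1004))) (FHolds.split1 320690891435 (FHolds.split3 412316860416 HP_2_2_3_4_c1005 HP_2_2_3_4_c1006) HP_2_2_3_4_c1007))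

theorem HE_2_2_3 : HE 2 2 3 ⟨274877906944, 366503875926, 274877906944, 366503875926, 366503875925, 458129844907, 0, 0⟩ :=
  HE_2_2_3_c1008

theorem HP_2_3_3_0 : HP 2 3 3 0 ⟨274877906944, 366503875926, 366503875925, 458129844907, 366502827349, 458129844907, 329853488332, 439804651111⟩ :=
  (FHolds.split4 384829069721 (FHolds.split1 320690891435 (FHolds.split4 357341279026 HP_2_3_3_0_c1009 HP_2_3_3_0_c1010) HP_2_3_3_0_c1011) (FHolds.split4 412316860416 (FHolds.split1 320690891435 HP_2_3_3_0_c1012 HP_2_3_3_0_c1013) (FHolds.split1 320690891435 (FHolds.split4 426060755763 HP_2_3_3_0_c1014 (FHolds.split4 432932703437 (FHolds.split3 412316336128 HP_2_3_3_0_c1015 HP_2_3_3_0_c1016) (FHolds.split3 412316336128 (FHolds.split2 412316860416 (FHolds.split3 389409581738 HP_2_3_3_0_c1017 (FHolds.split2 389410368170 HP_2_3_3_0_c1018 (FHolds.split1 297784399189 HP_2_3_3_0_c1019 HP_2_3_3_0_c1020))) HP_2_3_3_0_c1021) HP_2_3_3_0_c1022))) (FHolds.split3 412316336128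 HP_2_3_3_0_c1023 (FHolds.split4 426060755763 HP_2_3_3_0_c1024 (FHolds.split2 412316860416 (FHolds.split1 343597383680 HP_2_3_3_0_c1025 (FHolds.split4 432932703437 HP_2_3_3_0_c1026 HP_2_3_3_0_c1027)) HP_2_3_3_0_c1028))))))

theorem HP_2_3_3_1 : HP 2 3 3 1 ⟨274877906944, 366503875926, 366503875925, 458129844907, 366502827349, 458129844907, 439804651110, 549755813888⟩ :=
  (FHolds.split4 494780232499 (FHolds.split4 467292441804 (FHolds.split1 320690891435 (FHolds.split3 412316336128 (FHolds.split2 412316860416 (FHolds.split3 389409581738 HP_2_3_3_1_c1029 (FHolds.split2 389410368170 HP_2_3_3_1_c1030 (FHolds.split1 297784399189 HP_2_3_3_1_c1031 HP_2_3_3_1_c1032))) HP_2_3_3_1_c1033) HP_2_3_3_1_c1034) (FHolds.split3 412316336128 HP_2_3_3_1_c1035 (FHolds.split2 412316860416 (FHolds.split1 343597383680 HP_2_3_3_1_c1036 HP_2_3_3_1_c1037) HP_2_3_3_1_c1038))) (FHolds.split3 412316336128 (FHolds.split2 412316860416 (FHolds.split1 320690891435 (FHolds.split3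 389409581738 HP_2_3_3_1_c1039 (FHolds.split2 389410368170 HP_2_3_3_1_c1040 (FHolds.split1 297784399189 HP_2_3_3_1_c1041 HP_2_3_3_1_c1042))) HP_2_3_3_1_c1043) HP_2_3_3_1_c1044) (FHolds.split2 412316860416 (FHolds.split1 320690891435 HP_2_3_3_1_c1045 HP_2_3_3_1_c1046) HP_2_3_3_1_c1047))) (FHolds.split3 412316336128 (FHolds.split2 412316860416 (FHolds.split1 320690891435 (FHolds.split3 389409581738 HP_2_3_3_1_c1048 (FHolds.split2 389410368170 HP_2_3_3_1_c1049 (FHolds.split1 297784399189 HP_2_3_3_1_c1050 HP_2_3_3_1_c1051))) HP_2_3_3_1_c1052) HP_2_3_3_1_c1053) (FHolds.split2 412316860416 (FHolds.split1 320690891435 HP_2_3_3_1_c1054 (FHolds.split2 389410368170 HP_2_3_3_1_c1055 HP_2_3_3_1_c1056)) HP_2_3_3_1_c1057)))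

theorem HP_2_3_3_2 : HP 2 3 3 2 ⟨274877906944, 366503875926, 366503875925, 458129844907, 366502827349, 458129844907, 549755813888, 659706976666⟩ :=
  (FHolds.split3 412316336128 (FHolds.split2 412316860416 (FHolds.split1 320690891435 (FHolds.split3 389409581738 HP_2_3_3_2_c1058 (FHolds.split2 389410368170 HP_2_3_3_2_c1059 (FHolds.split1 297784399189 HP_2_3_3_2_c1060 (FHolds.split3 400862958933 (FHolds.split2 400863614293 (FHolds.split1 309237645312 HP_2_3_3_2_c1061 HP_2_3_3_2_c1062) HP_2_3_3_2_c1063) HP_2_3_3_2_c1064)))) HP_2_3_3_2_c1065) HP_2_3_3_2_c1066) (FHolds.split2 412316860416 (FHolds.split1 320690891435 (FHolds.split2 389410368170 HP_2_3_3_2_c1067 (FHolds.split3 435223090517 HP_2_3_3_2_c1068 HP_2_3_3_2_c1069)) (FHolds.split2 389410368170 (FHolds.split3 435223090517 (FHolds.split2 377957122047 HP_2_3_3_2_c1070 HP_2_3_3_2_c1071) HP_2_3_3_2_c1072) HP_2_3_3_2_c1073)) HP_2_3_3_2_c1074))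

theorem HP_2_3_3_3 : HP 2 3 3 3 ⟨274877906944, 366503875926, 366503875925, 458129844907, 366502827349, 458129844907, 659706976665, 879609302221⟩ :=
  (FHolds.split4 769658139443 (FHolds.split3 412316336128 (FHolds.split2 412316860416 (FHolds.split1 320690891435 (FHolds.split3 389409581738 HP_2_3_3_3_c1075 (FHolds.split2 389410368170 HP_2_3_3_3_c1076 (FHolds.split1 297784399189 HP_2_3_3_3_c1077 HP_2_3_3_3_c1078))) HP_2_3_3_3_c1079) HP_2_3_3_3_c1080) (FHolds.split3 435223090517 (FHolds.split2 412316860416 (FHolds.split1 320690891435 HP_2_3_3_3_c1081 HP_2_3_3_3_c1082) HP_2_3_3_3_c1083) HP_2_3_3_3_c1084)) (FHolds.split3 412316336128 (FHolds.split2 412316860416 (FHolds.split1 320690891435 (FHolds.split3 389409581738 HP_2_3_3_3_c1085 (FHolds.split2 389410368170 HP_2_3_3_3_c1086 (FHolds.split1 297784399189 HP_2_3_3_3_c1087 (FHolds.split4 824633720832 (FHolds.split3 400862958933 HP_2_3_3_3_c1088 HP_2_3_3_3_c1089) (FHolds.split3 400862958933 (FHolds.split2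 400863614293 (FHolds.split1 309237645312 HP_2_3_3_3_c1090 HP_2_3_3_3_c1091) HP_2_3_3_3_c1092) HP_2_3_3_3_c1093))))) HP_2_3_3_3_c1094) HP_2_3_3_3_c1095) (FHolds.split1 320690891435 (FHolds.split3 435223090517 HP_2_3_3_3_c1096 HP_2_3_3_3_c1097) (FHolds.split2 412316860416 (FHolds.split3 435223090517 (FHolds.split2 389410368170 (FHolds.split2 377957122047 HP_2_3_3_3_c1098 HP_2_3_3_3_c1099) HP_2_3_3_3_c1100) HP_2_3_3_3_c1101) HP_2_3_3_3_c1102))))

theorem HP_2_3_3_4 : HP 2 3 3 4 ⟨274877906944, 366503875926, 366503875925, 458129844907, 366502827349, 458129844907, 879609302220, 1099511627776⟩ :=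
  (FHolds.split4 989560464998 (FHolds.split3 412316336128 (FHolds.split2 412316860416 (FHolds.split1 320690891435 (FHolds.split3 389409581738 HP_2_3_3_4_c1103 (FHolds.split4 934584883609 (FHolds.split2 389410368170 HP_2_3_3_4_c1104 (FHolds.split4 907097092914 (FHolds.split1 297784399189 HP_2_3_3_4_c1105 (FHolds.split3 400862958933 (FHolds.split2 400863614293 (FHolds.split1 309237645312 HP_2_3_3_4_c1106 (FHolds.split4 893353197567 HP_2_3_3_4_c1107 HP_2_3_3_4_c1108)) HP_2_3_3_4_c1109) HP_2_3_3_4_c1110)) HP_2_3_3_4_c1111)) (FHolds.split4 962072674303 HP_2_3_3_4_c1112 HP_2_3_3_4_c1113))) HP_2_3_3_4_c1114) HP_2_3_3_4_c1115) (FHolds.split1 320690891435 (FHolds.split2 412316860416 (FHolds.split3 435223090517 (FHolds.split4 934584883609 (FHolds.split1 297784399189 HP_2_3_3_4_c1116 HP_2_3_3_4_c1117) HP_2_3_3_4_c1118) HP_2_3_3_4_c1119) HP_2_3_3_4_c1120) (FHolds.split2 412316860416 (FHolds.split4 934584883609 (FHolds.split2 389410368170 (FHolds.split4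 907097092914 (FHolds.split3 435223090517 HP_2_3_3_4_c1121 HP_2_3_3_4_c1122) (FHolds.split3 435223090517 HP_2_3_3_4_c1123 HP_2_3_3_4_c1124)) HP_2_3_3_4_c1125) HP_2_3_3_4_c1126) HP_2_3_3_4_c1127))) (FHolds.split1 320690891435 (FHolds.split3 412316336128 (FHolds.split2 412316860416 (FHolds.split3 389409581738 HP_2_3_3_4_c1128 (FHolds.split4 1044536046387 (FHolds.split1 297784399189 HP_2_3_3_4_c1129 (FHolds.split4 1017048255692 HP_2_3_3_4_c1130 HP_2_3_3_4_c1131)) (FHolds.split1 297784399189 HP_2_3_3_4_c1132 (FHolds.split2 389410368170 HP_2_3_3_4_c1133 HP_2_3_3_4_c1134)))) HP_2_3_3_4_c1135) (FHolds.split1 297784399189 (FHolds.split3 435223090517 HP_2_3_3_4_c1136 HP_2_3_3_4_c1137) HP_2_3_3_4_c1138)) (FHolds.split3 412316336128 HP_2_3_3_4_c1139 (FHolds.split2 412316860416 (FHolds.split1 343597383680 (FHolds.split4 1044536046387 HP_2_3_3_4_c1140 HP_2_3_3_4_c1141) (FHolds.split2 389410368170 (FHolds.split4 1044536046387 HP_2_3_3_4_c1142 (FHolds.split1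 355050629803 HP_2_3_3_4_c1143 (FHolds.split2 377957122047 (FHolds.split4 1072023837081 HP_2_3_3_4_c1144 (FHolds.split1 360777252864 HP_2_3_3_4_c1145 (FHolds.split2 372230498986 (FHolds.split4 1085767732428 HP_2_3_3_4_c1146 HP_2_3_3_4_c1147) HP_2_3_3_4_c1148))) HP_2_3_3_4_c1149))) HP_2_3_3_4_c1150)) HP_2_3_3_4_c1151))))

theorem HE_2_3_3 : HE 2 3 3 ⟨274877906944, 366503875926, 366503875925, 458129844907, 366502827349, 458129844907, 0, 0⟩ :=
  HE_2_3_3_c1152

theorem HP_2_0_4_0 : HP 2 0 4 0 ⟨274877906944, 366503875926, 0, 137438953472, 458129844906, 549755813888, 329853488332, 439804651111⟩ :=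
  HP_2_0_4_0_c1153

theorem HP_2_0_4_1 : HP 2 0 4 1 ⟨274877906944, 366503875926, 0, 137438953472, 458129844906, 549755813888, 439804651110, 549755813888⟩ :=
  HP_2_0_4_1_c1154

theorem HP_2_0_4_2 : HP 2 0 4 2 ⟨274877906944, 366503875926, 0, 137438953472, 458129844906, 549755813888, 549755813888, 659706976666⟩ :=
  HP_2_0_4_2_c1155

theorem HP_2_0_4_3 : HP 2 0 4 3 ⟨274877906944, 366503875926, 0, 137438953472, 458129844906, 549755813888, 659706976665, 879609302221⟩ :=
  HP_2_0_4_3_c1156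

theorem HP_2_0_4_4 : HP 2 0 4 4 ⟨274877906944, 366503875926, 0, 137438953472, 458129844906, 549755813888, 879609302220, 1099511627776⟩ :=
  HP_2_0_4_4_c1157

theorem HE_2_0_4 : HE 2 0 4 ⟨274877906944, 366503875926, 0, 137438953472, 458129844906, 549755813888, 0, 0⟩ :=
  HE_2_0_4_c1158

theorem HP_2_1_4_0 : HP 2 1 4 0 ⟨274877906944, 366503875926, 137438953472, 274877906944, 458129844906, 549755813888, 329853488332, 439804651111⟩ :=
  HP_2_1_4_0_c1159

theorem HP_2_1_4_1 : HP 2 1 4 1 ⟨274877906944, 366503875926, 137438953472, 274877906944, 458129844906, 549755813888, 439804651110, 549755813888⟩ :=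
  (FHolds.split2 206158430208 (FHolds.split4 494780232499 HP_2_1_4_1_c1160 HP_2_1_4_1_c1161) HP_2_1_4_1_c1162)

theorem HP_2_1_4_2 : HP 2 1 4 2 ⟨274877906944, 366503875926, 137438953472, 274877906944, 458129844906, 549755813888, 549755813888, 659706976666⟩ :=
  (FHolds.split2 206158430208 HP_2_1_4_2_c1163 HP_2_1_4_2_c1164)

theorem HP_2_1_4_3 : HP 2 1 4 3 ⟨274877906944, 366503875926, 137438953472, 274877906944, 458129844906, 549755813888, 659706976665, 879609302221⟩ :=
  (FHolds.split2 206158430208 (FHolds.split4 769658139443 HP_2_1_4_3_c1165 HP_2_1_4_3_c1166) HP_2_1_4_3_c1167)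

theorem HP_2_1_4_4 : HP 2 1 4 4 ⟨274877906944, 366503875926, 137438953472, 274877906944, 458129844906, 549755813888, 879609302220, 1099511627776⟩ :=
  (FHolds.split2 206158430208 (FHolds.split3 503942829397 (FHolds.split4 989560464998 HP_2_1_4_4_c1168 (FHolds.split2 171798691840 (FHolds.split3 481036337151 HP_2_1_4_4_c1169 HP_2_1_4_4_c1170) HP_2_1_4_4_c1171)) HP_2_1_4_4_c1172) (FHolds.split4 989560464998 HP_2_1_4_4_c1173 HP_2_1_4_4_c1174))

theorem HE_2_1_4 : HE 2 1 4 ⟨274877906944, 366503875926, 137438953472, 274877906944, 458129844906, 549755813888, 0, 0⟩ :=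
  HE_2_1_4_c1175

theorem HP_2_2_4_0 : HP 2 2 4 0 ⟨274877906944, 366503875926, 274877906944, 366503875926, 458129844906, 549755813888, 329853488332, 439804651111⟩ :=
  HP_2_2_4_0_c1176

theorem HP_2_2_4_1 : HP 2 2 4 1 ⟨274877906944, 366503875926, 274877906944, 366503875926, 458129844906, 549755813888, 439804651110, 549755813888⟩ :=
  HP_2_2_4_1_c1177

theorem HP_2_2_4_2 : HP 2 2 4 2 ⟨274877906944, 366503875926, 274877906944, 366503875926, 458129844906, 549755813888, 549755813888, 659706976666⟩ :=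
  HP_2_2_4_2_c1178

theorem HP_2_2_4_3 : HP 2 2 4 3 ⟨274877906944, 366503875926, 274877906944, 366503875926, 458129844906, 549755813888, 659706976665, 879609302221⟩ :=
  (FHolds.split4 769658139443 HP_2_2_4_3_c1179 HP_2_2_4_3_c1180)

theorem HP_2_2_4_4 : HP 2 2 4 4 ⟨274877906944, 366503875926, 274877906944, 366503875926, 458129844906, 549755813888, 879609302220, 1099511627776⟩ :=
  (FHolds.split4 989560464998 (FHolds.split2 320690891435 HP_2_2_4_4_c1181 HP_2_2_4_4_c1182) (FHolds.split2 320690891435 HP_2_2_4_4_c1183 HP_2_2_4_4_c1184))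

theorem HE_2_2_4 : HE 2 2 4 ⟨274877906944, 366503875926, 274877906944, 366503875926, 458129844906, 549755813888, 0, 0⟩ :=
  HE_2_2_4_c1185

theorem HP_2_3_4_0 : HP 2 3 4 0 ⟨274877906944, 366503875926, 366503875925, 458129844907, 458129844906, 549755813888, 329853488332, 439804651111⟩ :=
  (FHolds.split4 384829069721 HP_2_3_4_0_c1186 (FHolds.split1 320690891435 (FHolds.split4 412316860416 HP_2_3_4_0_c1187 (FHolds.split3 503942829397 HP_2_3_4_0_c1188 HP_2_3_4_0_c1189)) HP_2_3_4_0_c1190))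

theorem HP_2_3_4_1 : HP 2 3 4 1 ⟨274877906944, 366503875926, 366503875925, 458129844907, 458129844906, 549755813888, 439804651110, 549755813888⟩ :=
  (FHolds.split4 494780232499 (FHolds.split1 320690891435 (FHolds.split3 503942829397 (FHolds.split2 412316860416 HP_2_3_4_1_c1191 HP_2_3_4_1_c1192) HP_2_3_4_1_c1193) (FHolds.split2 412316860416 HP_2_3_4_1_c1194 HP_2_3_4_1_c1195)) (FHolds.split3 503942829397 (FHolds.split1 320690891435 HP_2_3_4_1_c1196 HP_2_3_4_1_c1197) HP_2_3_4_1_c1198))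

theorem HP_2_3_4_2 : HP 2 3 4 2 ⟨274877906944, 366503875926, 366503875925, 458129844907, 458129844906, 549755813888, 549755813888, 659706976666⟩ :=
  (FHolds.split3 503942829397 (FHolds.split2 412316860416 HP_2_3_4_2_c1199 HP_2_3_4_2_c1200) HP_2_3_4_2_c1201)

theorem HP_2_3_4_3 : HP 2 3 4 3 ⟨274877906944, 366503875926, 366503875925, 458129844907, 458129844906, 549755813888, 659706976665, 879609302221⟩ :=
  (FHolds.split3 503942829397 (FHolds.split2 412316860416 (FHolds.split4 769658139443 HP_2_3_4_3_c1202 (FHolds.split2 389410368170 HP_2_3_4_3_c1203 HP_2_3_4_3_c1204)) HP_2_3_4_3_c1205) (FHolds.split4 769658139443 HP_2_3_4_3_c1206 HP_2_3_4_3_c1207))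

theorem HP_2_3_4_4 : HP 2 3 4 4 ⟨274877906944, 366503875926, 366503875925, 458129844907, 458129844906, 549755813888, 879609302220, 1099511627776⟩ :=
  (FHolds.split3 503942829397 (FHolds.split2 412316860416 (FHolds.split4 989560464998 (FHolds.split4 934584883609 (FHolds.split3 481036337151 (FHolds.split1 320690891435 HP_2_3_4_4_c1208 HP_2_3_4_4_c1209) HP_2_3_4_4_c1210) HP_2_3_4_4_c1211) (FHolds.split1 320690891435 (FHolds.split2 389410368170 HP_2_3_4_4_c1212 HP_2_3_4_4_c1213) (FHolds.split3 481036337151 (FHolds.split2 389410368170 (FHolds.split4 1044536046387 HP_2_3_4_4_c1214 (FHolds.split4 1072023837081 HP_2_3_4_4_c1215 (FHolds.split3 469583091028 HP_2_3_4_4_c1216 (FHolds.split4 1085767732428 HP_2_3_4_4_c1217 HP_2_3_4_4_c1218)))) HP_2_3_4_4_c1219) (FHolds.split4 1044536046387 HP_2_3_4_4_c1220 HP_2_3_4_4_c1221)))) (FHolds.split1 320690891435 (FHolds.split4 989560464998 HP_2_3_4_4_c1222 HP_2_3_4_4_c1223) HP_2_3_4_4_c1224)) (FHolds.split4 989560464998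 HP_2_3_4_4_c1225 (FHolds.split2 412316860416 HP_2_3_4_4_c1226 HP_2_3_4_4_c1227)))

theorem HE_2_3_4 : HE 2 3 4 ⟨274877906944, 366503875926, 366503875925, 458129844907, 458129844906, 549755813888, 0, 0⟩ :=
  HE_2_3_4_c1228

theorem HP_2_4_4_0 : HP 2 4 4 0 ⟨274877906944, 366503875926, 458129844906, 549755813888, 458128796330, 549755813888, 329853488332, 439804651111⟩ :=
  HP_2_4_4_0_c1229

theorem HP_2_4_4_1 : HP 2 4 4 1 ⟨274877906944, 366503875926, 458129844906, 549755813888, 458128796330, 549755813888, 439804651110, 549755813888⟩ :=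
  (FHolds.split4 494780232499 (FHolds.split1 320690891435 (FHolds.split4 467292441804 HP_2_4_4_1_c1230 HP_2_4_4_1_c1231) (FHolds.split4 467292441804 HP_2_4_4_1_c1232 (FHolds.split3 503942305109 HP_2_4_4_1_c1233 HP_2_4_4_1_c1234))) (FHolds.split4 522268023193 (FHolds.split1 320690891435 HP_2_4_4_1_c1235 HP_2_4_4_1_c1236) HP_2_4_4_1_c1237))

theorem HP_2_4_4_2 : HP 2 4 4 2 ⟨274877906944, 366503875926, 458129844906, 549755813888, 458128796330, 549755813888, 549755813888, 659706976666⟩ :=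
  HP_2_4_4_2_c1238

theorem HP_2_4_4_3 : HP 2 4 4 3 ⟨274877906944, 366503875926, 458129844906, 549755813888, 458128796330, 549755813888, 659706976665, 879609302221⟩ :=
  (FHolds.split4 769658139443 HP_2_4_4_3_c1239 HP_2_4_4_3_c1240)

theorem HP_2_4_4_4 : HP 2 4 4 4 ⟨274877906944, 366503875926, 458129844906, 549755813888, 458128796330, 549755813888, 879609302220, 1099511627776⟩ :=
  (FHolds.split4 989560464998 (FHolds.split3 503942305109 HP_2_4_4_4_c1241 HP_2_4_4_4_c1242) HP_2_4_4_4_c1243)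

theorem HE_2_4_4 : HE 2 4 4 ⟨274877906944, 366503875926, 458129844906, 549755813888, 458128796330, 549755813888, 0, 0⟩ :=
  HE_2_4_4_c1244

theorem HP_2_0_5_0 : HP 2 0 5 0 ⟨274877906944, 366503875926, 0, 137438953472, 549755813888, 641381782870, 329853488332, 439804651111⟩ :=
  HP_2_0_5_0_c1245

theorem HP_2_0_5_1 : HP 2 0 5 1 ⟨274877906944, 366503875926, 0, 137438953472, 549755813888, 641381782870, 439804651110, 549755813888⟩ :=
  HP_2_0_5_1_c1246

theorem HP_2_0_5_2 : HP 2 0 5 2 ⟨274877906944, 366503875926, 0, 137438953472, 549755813888, 641381782870, 549755813888, 659706976666⟩ :=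
  HP_2_0_5_2_c1247

theorem HP_2_0_5_3 : HP 2 0 5 3 ⟨274877906944, 366503875926, 0, 137438953472, 549755813888, 641381782870, 659706976665, 879609302221⟩ :=
  HP_2_0_5_3_c1248

theorem HP_2_0_5_4 : HP 2 0 5 4 ⟨274877906944, 366503875926, 0, 137438953472, 549755813888, 641381782870, 879609302220, 1099511627776⟩ :=
  HP_2_0_5_4_c1249

theorem HE_2_0_5 : HE 2 0 5 ⟨274877906944, 366503875926, 0, 137438953472, 549755813888, 641381782870, 0, 0⟩ :=
  HE_2_0_5_c1250

theorem HP_2_1_5_0 : HP 2 1 5 0 ⟨274877906944, 366503875926, 137438953472, 274877906944, 549755813888, 641381782870, 329853488332, 439804651111⟩ :=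
  HP_2_1_5_0_c1251

theorem HP_2_1_5_1 : HP 2 1 5 1 ⟨274877906944, 366503875926, 137438953472, 274877906944, 549755813888, 641381782870, 439804651110, 549755813888⟩ :=
  HP_2_1_5_1_c1252

theorem HP_2_1_5_2 : HP 2 1 5 2 ⟨274877906944, 366503875926, 137438953472, 274877906944, 549755813888, 641381782870, 549755813888, 659706976666⟩ :=
  (FHolds.split2 206158430208 (FHolds.split1 320690891435 HP_2_1_5_2_c1253 HP_2_1_5_2_c1254) HP_2_1_5_2_c1255)

theorem HP_2_1_5_3 : HP 2 1 5 3 ⟨274877906944, 366503875926, 137438953472, 274877906944, 549755813888, 641381782870, 659706976665, 879609302221⟩ :=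
  (FHolds.split2 206158430208 HP_2_1_5_3_c1256 HP_2_1_5_3_c1257)

theorem HP_2_1_5_4 : HP 2 1 5 4 ⟨274877906944, 366503875926, 137438953472, 274877906944, 549755813888, 641381782870, 879609302220, 1099511627776⟩ :=
  HP_2_1_5_4_c1258

theorem HE_2_1_5 : HE 2 1 5 ⟨274877906944, 366503875926, 137438953472, 274877906944, 549755813888, 641381782870, 0, 0⟩ :=
  HE_2_1_5_c1259

theorem HP_2_2_5_0 : HP 2 2 5 0 ⟨274877906944, 366503875926, 274877906944, 366503875926, 549755813888, 641381782870, 329853488332, 439804651111⟩ :=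
  (FHolds.split4 384829069721 HP_2_2_5_0_c1260 HP_2_2_5_0_c1261)

theorem HP_2_2_5_1 : HP 2 2 5 1 ⟨274877906944, 366503875926, 274877906944, 366503875926, 549755813888, 641381782870, 439804651110, 549755813888⟩ :=
  HP_2_2_5_1_c1262

theorem HP_2_2_5_2 : HP 2 2 5 2 ⟨274877906944, 366503875926, 274877906944, 366503875926, 549755813888, 641381782870, 549755813888, 659706976666⟩ :=
  HP_2_2_5_2_c1263

theorem HP_2_2_5_3 : HP 2 2 5 3 ⟨274877906944, 366503875926, 274877906944, 366503875926, 549755813888, 641381782870, 659706976665, 879609302221⟩ :=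
  HP_2_2_5_3_c1264

theorem HP_2_2_5_4 : HP 2 2 5 4 ⟨274877906944, 366503875926, 274877906944, 366503875926, 549755813888, 641381782870, 879609302220, 1099511627776⟩ :=
  HP_2_2_5_4_c1265

theorem HE_2_2_5 : HE 2 2 5 ⟨274877906944, 366503875926, 274877906944, 366503875926, 549755813888, 641381782870, 0, 0⟩ :=
  HE_2_2_5_c1266

theorem HP_2_3_5_0 : HP 2 3 5 0 ⟨274877906944, 366503875926, 366503875925, 458129844907, 549755813888, 641381782870, 329853488332, 439804651111⟩ :=
  (FHolds.split4 384829069721 (FHolds.split2 412316860416 (FHolds.split1 320690891435 HP_2_3_5_0_c1267 HP_2_3_5_0_c1268) HP_2_3_5_0_c1269) (FHolds.split2 412316860416 (FHolds.split4 412316860416 (FHolds.split1 320690891435 HP_2_3_5_0_c1270 (FHolds.split3 595568798379 (FHolds.split3 572662306133 (FHolds.split2 389410368170 (FHolds.split1 343597383680 HP_2_3_5_0_c1271 (FHolds.split4 398572965068 HP_2_3_5_0_c1272 (FHolds.split2 377957122047 HP_2_3_5_0_c1273 HP_2_3_5_0_c1274)))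 HP_2_3_5_0_c1275) HP_2_3_5_0_c1276) HP_2_3_5_0_c1277)) (FHolds.split1 320690891435 HP_2_3_5_0_c1278 (FHolds.split4 426060755763 (FHolds.split2 389410368170 HP_2_3_5_0_c1279 HP_2_3_5_0_c1280) HP_2_3_5_0_c1281))) (FHolds.split4 412316860416 HP_2_3_5_0_c1282 (FHolds.split1 320690891435 HP_2_3_5_0_c1283 (FHolds.split4 426060755763 HP_2_3_5_0_c1284 (FHolds.split2 435223352661 (FHolds.split1 343597383680 HP_2_3_5_0_c1285 (FHolds.split4 432932703437 HP_2_3_5_0_c1286 HP_2_3_5_0_c1287)) HP_2_3_5_0_c1288))))))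

theorem HP_2_3_5_1 : HP 2 3 5 1 ⟨274877906944, 366503875926, 366503875925, 458129844907, 549755813888, 641381782870, 439804651110, 549755813888⟩ :=
  (FHolds.split2 412316860416 HP_2_3_5_1_c1289 HP_2_3_5_1_c1290)

theorem HP_2_3_5_2 : HP 2 3 5 2 ⟨274877906944, 366503875926, 366503875925, 458129844907, 549755813888, 641381782870, 549755813888, 659706976666⟩ :=
  (FHolds.split2 412316860416 HP_2_3_5_2_c1291 HP_2_3_5_2_c1292)

theorem HP_2_3_5_3 : HP 2 3 5 3 ⟨274877906944, 366503875926, 366503875925, 458129844907, 549755813888, 641381782870, 659706976665, 879609302221⟩ :=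
  (FHolds.split2 412316860416 HP_2_3_5_3_c1293 HP_2_3_5_3_c1294)

theorem HP_2_3_5_4 : HP 2 3 5 4 ⟨274877906944, 366503875926, 366503875925, 458129844907, 549755813888, 641381782870, 879609302220, 1099511627776⟩ :=
  (FHolds.split2 412316860416 (FHolds.split1 320690891435 HP_2_3_5_4_c1295 HP_2_3_5_4_c1296) HP_2_3_5_4_c1297)

theorem HE_2_3_5 : HE 2 3 5 ⟨274877906944, 366503875926, 366503875925, 458129844907, 549755813888, 641381782870, 0, 0⟩ :=
  HE_2_3_5_c1298

theorem HP_2_4_5_0 : HP 2 4 5 0 ⟨274877906944, 366503875926, 458129844906, 549755813888, 549755813888, 641381782870, 329853488332, 439804651111⟩ :=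
  HP_2_4_5_0_c1299

theorem HP_2_4_5_1 : HP 2 4 5 1 ⟨274877906944, 366503875926, 458129844906, 549755813888, 549755813888, 641381782870, 439804651110, 549755813888⟩ :=
  (FHolds.split1 320690891435 HP_2_4_5_1_c1300 HP_2_4_5_1_c1301)

theorem HP_2_4_5_2 : HP 2 4 5 2 ⟨274877906944, 366503875926, 458129844906, 549755813888, 549755813888, 641381782870, 549755813888, 659706976666⟩ :=
  HP_2_4_5_2_c1302

theorem HP_2_4_5_3 : HP 2 4 5 3 ⟨274877906944, 366503875926, 458129844906, 549755813888, 549755813888, 641381782870, 659706976665, 879609302221⟩ :=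
  (FHolds.split4 769658139443 HP_2_4_5_3_c1303 HP_2_4_5_3_c1304)

theorem HP_2_4_5_4 : HP 2 4 5 4 ⟨274877906944, 366503875926, 458129844906, 549755813888, 549755813888, 641381782870, 879609302220, 1099511627776⟩ :=
  HP_2_4_5_4_c1305

theorem HE_2_4_5 : HE 2 4 5 ⟨274877906944, 366503875926, 458129844906, 549755813888, 549755813888, 641381782870, 0, 0⟩ :=
  HE_2_4_5_c1306

theorem HP_2_5_5_0 : HP 2 5 5 0 ⟨274877906944, 366503875926, 549755813888, 641381782870, 549754765312, 641381782870, 329853488332, 439804651111⟩ :=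
  HP_2_5_5_0_c1307

theorem HP_2_5_5_1 : HP 2 5 5 1 ⟨274877906944, 366503875926, 549755813888, 641381782870, 549754765312, 641381782870, 439804651110, 549755813888⟩ :=
  HP_2_5_5_1_c1308

theorem HP_2_5_5_2 : HP 2 5 5 2 ⟨274877906944, 366503875926, 549755813888, 641381782870, 549754765312, 641381782870, 549755813888, 659706976666⟩ :=
  (FHolds.split3 595568274091 HP_2_5_5_2_c1309 HP_2_5_5_2_c1310)

theorem HP_2_5_5_3 : HP 2 5 5 3 ⟨274877906944, 366503875926, 549755813888, 641381782870, 549754765312, 641381782870, 659706976665, 879609302221⟩ :=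
  HP_2_5_5_3_c1311

theorem HP_2_5_5_4 : HP 2 5 5 4 ⟨274877906944, 366503875926, 549755813888, 641381782870, 549754765312, 641381782870, 879609302220, 1099511627776⟩ :=
  HP_2_5_5_4_c1312

theorem HE_2_5_5 : HE 2 5 5 ⟨274877906944, 366503875926, 549755813888, 641381782870, 549754765312, 641381782870, 0, 0⟩ :=
  HE_2_5_5_c1313

theorem HP_3_0_0_0 : HP 3 0 0 0 ⟨366503875925, 458129844907, 0, 137438953472, (-1048576), 137438953472, 329853488332, 439804651111⟩ :=
  HP_3_0_0_0_c1314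

theorem HP_3_0_0_1 : HP 3 0 0 1 ⟨366503875925, 458129844907, 0, 137438953472, (-1048576), 137438953472, 439804651110, 549755813888⟩ :=
  HP_3_0_0_1_c1315

theorem HP_3_0_0_2 : HP 3 0 0 2 ⟨366503875925, 458129844907, 0, 137438953472, (-1048576), 137438953472, 549755813888, 659706976666⟩ :=
  HP_3_0_0_2_c1316

theorem HP_3_0_0_3 : HP 3 0 0 3 ⟨366503875925, 458129844907, 0, 137438953472, (-1048576), 137438953472, 659706976665, 879609302221⟩ :=
  HP_3_0_0_3_c1317

theorem HP_3_0_0_4 : HP 3 0 0 4 ⟨366503875925, 458129844907, 0, 137438953472, (-1048576), 137438953472, 879609302220, 1099511627776⟩ :=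
  HP_3_0_0_4_c1318

theorem HE_3_0_0 : HE 3 0 0 ⟨366503875925, 458129844907, 0, 137438953472, (-1048576), 137438953472, 0, 0⟩ :=
  HE_3_0_0_c1319

theorem HP_3_0_1_0 : HP 3 0 1 0 ⟨366503875925, 458129844907, 0, 137438953472, 137438953472, 274877906944, 329853488332, 439804651111⟩ :=
  (FHolds.split4 384829069721 (FHolds.split1 412316860416 HP_3_0_1_0_c1320 HP_3_0_1_0_c1321) (FHolds.split1 412316860416 HP_3_0_1_0_c1322 HP_3_0_1_0_c1323))

theorem HP_3_0_1_1 : HP 3 0 1 1 ⟨366503875925, 458129844907, 0, 137438953472, 137438953472, 274877906944, 439804651110, 549755813888⟩ :=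
  (FHolds.split3 206158430208 HP_3_0_1_1_c1324 HP_3_0_1_1_c1325)

theorem HP_3_0_1_2 : HP 3 0 1 2 ⟨366503875925, 458129844907, 0, 137438953472, 137438953472, 274877906944, 549755813888, 659706976666⟩ :=
  (FHolds.split3 206158430208 HP_3_0_1_2_c1326 HP_3_0_1_2_c1327)

theorem HP_3_0_1_3 : HP 3 0 1 3 ⟨366503875925, 458129844907, 0, 137438953472, 137438953472, 274877906944, 659706976665, 879609302221⟩ :=
  (FHolds.split1 412316860416 HP_3_0_1_3_c1328 (FHolds.split4 769658139443 HP_3_0_1_3_c1329 HP_3_0_1_3_c1330))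

theorem HP_3_0_1_4 : HP 3 0 1 4 ⟨366503875925, 458129844907, 0, 137438953472, 137438953472, 274877906944, 879609302220, 1099511627776⟩ :=
  HP_3_0_1_4_c1331

theorem HE_3_0_1 : HE 3 0 1 ⟨366503875925, 458129844907, 0, 137438953472, 137438953472, 274877906944, 0, 0⟩ :=
  HE_3_0_1_c1332

theorem HP_3_1_1_0 : HP 3 1 1 0 ⟨366503875925, 458129844907, 137438953472, 274877906944, 137437904896, 274877906944, 329853488332, 439804651111⟩ :=
  (FHolds.split4 384829069721 HP_3_1_1_0_c1333 (FHolds.split1 412316860416 HP_3_1_1_0_c1334 HP_3_1_1_0_c1335))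

theorem HP_3_1_1_1 : HP 3 1 1 1 ⟨366503875925, 458129844907, 137438953472, 274877906944, 137437904896, 274877906944, 439804651110, 549755813888⟩ :=
  (FHolds.split1 412316860416 (FHolds.split3 206157905920 HP_3_1_1_1_c1336 (FHolds.split2 206158430208 HP_3_1_1_1_c1337 (FHolds.split4 494780232499 HP_3_1_1_1_c1338 HP_3_1_1_1_c1339))) (FHolds.split3 206157905920 HP_3_1_1_1_c1340 (FHolds.split2 206158430208 HP_3_1_1_1_c1341 (FHolds.split3 240517906432 HP_3_1_1_1_c1342 HP_3_1_1_1_c1343))))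

theorem HP_3_1_1_2 : HP 3 1 1 2 ⟨366503875925, 458129844907, 137438953472, 274877906944, 137437904896, 274877906944, 549755813888, 659706976666⟩ :=
  (FHolds.split3 206157905920 HP_3_1_1_2_c1344 (FHolds.split2 206158430208 HP_3_1_1_2_c1345 HP_3_1_1_2_c1346))

theorem HP_3_1_1_3 : HP 3 1 1 3 ⟨366503875925, 458129844907, 137438953472, 274877906944, 137437904896, 274877906944, 659706976665, 879609302221⟩ :=
  (FHolds.split4 769658139443 (FHolds.split1 412316860416 HP_3_1_1_3_c1347 HP_3_1_1_3_c1348) (FHolds.split1 412316860416 HP_3_1_1_3_c1349 HP_3_1_1_3_c1350))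

theorem HP_3_1_1_4 : HP 3 1 1 4 ⟨366503875925, 458129844907, 137438953472, 274877906944, 137437904896, 274877906944, 879609302220, 1099511627776⟩ :=
  (FHolds.split1 412316860416 HP_3_1_1_4_c1351 (FHolds.split3 206157905920 HP_3_1_1_4_c1352 HP_3_1_1_4_c1353))

theorem HE_3_1_1 : HE 3 1 1 ⟨366503875925, 458129844907, 137438953472, 274877906944, 137437904896, 274877906944, 0, 0⟩ :=
  HE_3_1_1_c1354

theorem HP_3_0_2_0 : HP 3 0 2 0 ⟨366503875925, 458129844907, 0, 137438953472, 274877906944, 366503875926, 329853488332, 439804651111⟩ :=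
  (FHolds.split4 384829069721 HP_3_0_2_0_c1355 (FHolds.split1 412316860416 HP_3_0_2_0_c1356 HP_3_0_2_0_c1357))

theorem HP_3_0_2_1 : HP 3 0 2 1 ⟨366503875925, 458129844907, 0, 137438953472, 274877906944, 366503875926, 439804651110, 549755813888⟩ :=
  (FHolds.split4 494780232499 (FHolds.split3 320690891435 HP_3_0_2_1_c1358 HP_3_0_2_1_c1359) HP_3_0_2_1_c1360)

theorem HP_3_0_2_2 : HP 3 0 2 2 ⟨366503875925, 458129844907, 0, 137438953472, 274877906944, 366503875926, 549755813888, 659706976666⟩ :=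
  (FHolds.split2 68719476736 HP_3_0_2_2_c1361 HP_3_0_2_2_c1362)

theorem HP_3_0_2_3 : HP 3 0 2 3 ⟨366503875925, 458129844907, 0, 137438953472, 274877906944, 366503875926, 659706976665, 879609302221⟩ :=
  (FHolds.split2 68719476736 HP_3_0_2_3_c1363 HP_3_0_2_3_c1364)

theorem HP_3_0_2_4 : HP 3 0 2 4 ⟨366503875925, 458129844907, 0, 137438953472, 274877906944, 366503875926, 879609302220, 1099511627776⟩ :=
  HP_3_0_2_4_c1365

theorem HE_3_0_2 : HE 3 0 2 ⟨366503875925, 458129844907, 0, 137438953472, 274877906944, 366503875926, 0, 0⟩ :=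
  HE_3_0_2_c1366

theorem HP_3_1_2_0 : HP 3 1 2 0 ⟨366503875925, 458129844907, 137438953472, 274877906944, 274877906944, 366503875926, 329853488332, 439804651111⟩ :=
  (FHolds.split4 384829069721 HP_3_1_2_0_c1367 (FHolds.split1 412316860416 (FHolds.split3 320690891435 HP_3_1_2_0_c1368 (FHolds.split2 206158430208 HP_3_1_2_0_c1369 (FHolds.split4 412316860416 HP_3_1_2_0_c1370 HP_3_1_2_0_c1371))) (FHolds.split3 320690891435 HP_3_1_2_0_c1372 (FHolds.split4 412316860416 HP_3_1_2_0_c1373 (FHolds.split2 206158430208 HP_3_1_2_0_c1374 HP_3_1_2_0_c1375)))))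

theorem HP_3_1_2_1 : HP 3 1 2 1 ⟨366503875925, 458129844907, 137438953472, 274877906944, 274877906944, 366503875926, 439804651110, 549755813888⟩ :=
  (FHolds.split4 494780232499 (FHolds.split2 206158430208 (FHolds.split3 320690891435 HP_3_1_2_1_c1376 HP_3_1_2_1_c1377) (FHolds.split3 320690891435 HP_3_1_2_1_c1378 (FHolds.split1 412316860416 (FHolds.split2 240518168576 HP_3_1_2_1_c1379 HP_3_1_2_1_c1380) (FHolds.split2 240518168576 HP_3_1_2_1_c1381 (FHolds.split4 467292441804 HP_3_1_2_1_c1382 HP_3_1_2_1_c1383))))) (FHolds.split2 206158430208 (FHolds.split1 412316860416 HP_3_1_2_1_c1384 (FHolds.split3 320690891435 HP_3_1_2_1_c1385 (FHolds.split2 171798691840 HP_3_1_2_1_c1386 (FHolds.split2 188978561024 HP_3_1_2_1_c1387 HP_3_1_2_1_c1388)))) (FHolds.split1 412316860416 (FHolds.split3 320690891435 HP_3_1_2_1_c1389 (FHolds.split2 240518168576 (FHolds.split1 389410368170 HP_3_1_2_1_c1390 HP_3_1_2_1_c1391) HP_3_1_2_1_c1392)) (FHolds.split3 320690891435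 HP_3_1_2_1_c1393 (FHolds.split2 240518168576 (FHolds.split4 522268023193 HP_3_1_2_1_c1394 HP_3_1_2_1_c1395) HP_3_1_2_1_c1396)))))

theorem HP_3_1_2_2 : HP 3 1 2 2 ⟨366503875925, 458129844907, 137438953472, 274877906944, 274877906944, 366503875926, 549755813888, 659706976666⟩ :=
  (FHolds.split2 206158430208 (FHolds.split3 320690891435 HP_3_1_2_2_c1397 (FHolds.split2 171798691840 HP_3_1_2_2_c1398 (FHolds.split1 412316860416 (FHolds.split4 604731395277 HP_3_1_2_2_c1399 HP_3_1_2_2_c1400) (FHolds.split4 604731395277 HP_3_1_2_2_c1401 HP_3_1_2_2_c1402)))) (FHolds.split3 320690891435 HP_3_1_2_2_c1403 (FHolds.split2 240518168576 (FHolds.split1 412316860416 (FHolds.split4 604731395277 HP_3_1_2_2_c1404 HP_3_1_2_2_c1405) (FHolds.split4 604731395277 HP_3_1_2_2_c1406 HP_3_1_2_2_c1407)) (FHolds.split1 412316860416 HP_3_1_2_2_c1408 (FHolds.split4 604731395277 (FHolds.split2 257698037760 HP_3_1_2_2_c1409 HP_3_1_2_2_c1410) (FHolds.split3 343597383680 HP_3_1_2_2_c1411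 HP_3_1_2_2_c1412))))))

theorem HP_3_1_2_3 : HP 3 1 2 3 ⟨366503875925, 458129844907, 137438953472, 274877906944, 274877906944, 366503875926, 659706976665, 879609302221⟩ :=
  (FHolds.split2 206158430208 (FHolds.split4 769658139443 (FHolds.split1 412316860416 (FHolds.split3 320690891435 HP_3_1_2_3_c1413 (FHolds.split2 171798691840 HP_3_1_2_3_c1414 HP_3_1_2_3_c1415)) HP_3_1_2_3_c1416) (FHolds.split1 412316860416 HP_3_1_2_3_c1417 HP_3_1_2_3_c1418)) (FHolds.split4 769658139443 (FHolds.split1 412316860416 HP_3_1_2_3_c1419 (FHolds.split2 240518168576 HP_3_1_2_3_c1420 (FHolds.split3 320690891435 HP_3_1_2_3_c1421 (FHolds.split3 343597383680 HP_3_1_2_3_c1422 HP_3_1_2_3_c1423)))) (FHolds.split1 412316860416 HP_3_1_2_3_c1424 HP_3_1_2_3_c1425)))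

theorem HP_3_1_2_4 : HP 3 1 2 4 ⟨366503875925, 458129844907, 137438953472, 274877906944, 274877906944, 366503875926, 879609302220, 1099511627776⟩ :=
  (FHolds.split1 412316860416 (FHolds.split2 206158430208 HP_3_1_2_4_c1426 HP_3_1_2_4_c1427) (FHolds.split2 206158430208 (FHolds.split3 320690891435 HP_3_1_2_4_c1428 (FHolds.split2 171798691840 HP_3_1_2_4_c1429 HP_3_1_2_4_c1430)) (FHolds.split4 989560464998 HP_3_1_2_4_c1431 HP_3_1_2_4_c1432)))

theorem HE_3_1_2 : HE 3 1 2 ⟨366503875925, 458129844907, 137438953472, 274877906944, 274877906944, 366503875926, 0, 0⟩ :=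
  HE_3_1_2_c1433

theorem HP_3_2_2_0 : HP 3 2 2 0 ⟨366503875925, 458129844907, 274877906944, 366503875926, 274876858368, 366503875926, 329853488332, 439804651111⟩ :=
  (FHolds.split4 384829069721 HP_3_2_2_0_c1434 (FHolds.split1 412316860416 HP_3_2_2_0_c1435 (FHolds.split3 320690367147 HP_3_2_2_0_c1436 (FHolds.split2 320690891435 HP_3_2_2_0_c1437 (FHolds.split4 412316860416 HP_3_2_2_0_c1438 (FHolds.split1 435223352661 (FHolds.split4 426060755763 HP_3_2_2_0_c1439 HP_3_2_2_0_c1440) HP_3_2_2_0_c1441))))))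

theorem HP_3_2_2_1 : HP 3 2 2 1 ⟨366503875925, 458129844907, 274877906944, 366503875926, 274876858368, 366503875926, 439804651110, 549755813888⟩ :=
  (FHolds.split3 320690367147 HP_3_2_2_1_c1442 (FHolds.split4 494780232499 (FHolds.split1 412316860416 HP_3_2_2_1_c1443 (FHolds.split2 320690891435 HP_3_2_2_1_c1444 (FHolds.split4 467292441804 (FHolds.split1 435223352661 (FHolds.split4 453548546457 HP_3_2_2_1_c1445 HP_3_2_2_1_c1446) HP_3_2_2_1_c1447) (FHolds.split1 435223352661 HP_3_2_2_1_c1448 HP_3_2_2_1_c1449)))) (FHolds.split2 320690891435 HP_3_2_2_1_c1450 (FHolds.split1 412316860416 HP_3_2_2_1_c1451 (FHolds.split3 343597121536 HP_3_2_2_1_c1452 (FHolds.split2 343597383680 HP_3_2_2_1_c1453 HP_3_2_2_1_c1454))))))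

theorem HP_3_2_2_2 : HP 3 2 2 2 ⟨366503875925, 458129844907, 274877906944, 366503875926, 274876858368, 366503875926, 549755813888, 659706976666⟩ :=
  (FHolds.split3 320690367147 HP_3_2_2_2_c1455 (FHolds.split2 320690891435 HP_3_2_2_2_c1456 (FHolds.split1 412316860416 HP_3_2_2_2_c1457 (FHolds.split4 604731395277 (FHolds.split1 435223352661 (FHolds.split3 343597121536 HP_3_2_2_2_c1458 HP_3_2_2_2_c1459) HP_3_2_2_2_c1460) (FHolds.split3 343597121536 HP_3_2_2_2_c1461 HP_3_2_2_2_c1462)))))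

theorem HP_3_2_2_3 : HP 3 2 2 3 ⟨366503875925, 458129844907, 274877906944, 366503875926, 274876858368, 366503875926, 659706976665, 879609302221⟩ :=
  (FHolds.split3 320690367147 HP_3_2_2_3_c1463 (FHolds.split2 320690891435 (FHolds.split1 412316860416 HP_3_2_2_3_c1464 HP_3_2_2_3_c1465) (FHolds.split1 412316860416 HP_3_2_2_3_c1466 (FHolds.split4 769658139443 (FHolds.split4 714682558054 (FHolds.split3 343597121536 HP_3_2_2_3_c1467 HP_3_2_2_3_c1468) (FHolds.split3 343597121536 HP_3_2_2_3_c1469 HP_3_2_2_3_c1470)) (FHolds.split2 343597383680 (FHolds.split3 343597121536 (FHolds.split1 435223352661 HP_3_2_2_3_c1471 HP_3_2_2_3_c1472) HP_3_2_2_3_c1473) HP_3_2_2_3_c1474)))))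

theorem HP_3_2_2_4 : HP 3 2 2 4 ⟨366503875925, 458129844907, 274877906944, 366503875926, 274876858368, 366503875926, 879609302220, 1099511627776⟩ :=
  (FHolds.split3 320690367147 HP_3_2_2_4_c1475 (FHolds.split4 989560464998 (FHolds.split2 320690891435 HP_3_2_2_4_c1476 (FHolds.split1 412316860416 HP_3_2_2_4_c1477 (FHolds.split3 343597121536 (FHolds.split2 343597383680 (FHolds.split4 934584883609 (FHolds.split1 435223352661 HP_3_2_2_4_c1478 HP_3_2_2_4_c1479) (FHolds.split4 962072674303 HP_3_2_2_4_c1480 HP_3_2_2_4_c1481)) HP_3_2_2_4_c1482) (FHolds.split1 435223352661 (FHolds.split3 355050498731 HP_3_2_2_4_c1483 HP_3_2_2_4_c1484) HP_3_2_2_4_c1485)))) (FHolds.split2 320690891435 HP_3_2_2_4_c1486 (FHolds.split1 412316860416 HP_3_2_2_4_c1487 (FHolds.split3 343597121536 (FHolds.split2 343597383680 (FHolds.split1 435223352661 (FHolds.split3 332143744341 HP_3_2_2_4_c1488 (FHolds.split4 1044536046387 HP_3_2_2_4_c1489 HP_3_2_2_4_c1490)) (FHolds.split3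 332143744341 HP_3_2_2_4_c1491 HP_3_2_2_4_c1492)) HP_3_2_2_4_c1493) (FHolds.split1 435223352661 (FHolds.split3 355050498731 (FHolds.split1 423770106538 HP_3_2_2_4_c1494 HP_3_2_2_4_c1495) (FHolds.split2 343597383680 (FHolds.split4 1044536046387 HP_3_2_2_4_c1496 HP_3_2_2_4_c1497) HP_3_2_2_4_c1498)) HP_3_2_2_4_c1499))))))

theorem HE_3_2_2 : HE 3 2 2 ⟨366503875925, 458129844907, 274877906944, 366503875926, 274876858368, 366503875926, 0, 0⟩ :=
  HE_3_2_2_c1500

theorem HP_3_0_3_0 : HP 3 0 3 0 ⟨366503875925, 458129844907, 0, 137438953472, 366503875925, 458129844907, 329853488332, 439804651111⟩ :=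
  HP_3_0_3_0_c1501

theorem HP_3_0_3_1 : HP 3 0 3 1 ⟨366503875925, 458129844907, 0, 137438953472, 366503875925, 458129844907, 439804651110, 549755813888⟩ :=
  (FHolds.split4 494780232499 HP_3_0_3_1_c1502 HP_3_0_3_1_c1503)

theorem HP_3_0_3_2 : HP 3 0 3 2 ⟨366503875925, 458129844907, 0, 137438953472, 366503875925, 458129844907, 549755813888, 659706976666⟩ :=
  HP_3_0_3_2_c1504

theorem HP_3_0_3_3 : HP 3 0 3 3 ⟨366503875925, 458129844907, 0, 137438953472, 366503875925, 458129844907, 659706976665, 879609302221⟩ :=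
  HP_3_0_3_3_c1505

theorem HP_3_0_3_4 : HP 3 0 3 4 ⟨366503875925, 458129844907, 0, 137438953472, 366503875925, 458129844907, 879609302220, 1099511627776⟩ :=
  HP_3_0_3_4_c1506

theorem HE_3_0_3 : HE 3 0 3 ⟨366503875925, 458129844907, 0, 137438953472, 366503875925, 458129844907, 0, 0⟩ :=
  HE_3_0_3_c1507

theorem HP_3_1_3_0 : HP 3 1 3 0 ⟨366503875925, 458129844907, 137438953472, 274877906944, 366503875925, 458129844907, 329853488332, 439804651111⟩ :=
  (FHolds.split4 384829069721 HP_3_1_3_0_c1508 (FHolds.split1 412316860416 HP_3_1_3_0_c1509 HP_3_1_3_0_c1510))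

theorem HP_3_1_3_1 : HP 3 1 3 1 ⟨366503875925, 458129844907, 137438953472, 274877906944, 366503875925, 458129844907, 439804651110, 549755813888⟩ :=
  (FHolds.split2 206158430208 (FHolds.split4 494780232499 HP_3_1_3_1_c1511 (FHolds.split1 412316860416 HP_3_1_3_1_c1512 HP_3_1_3_1_c1513)) (FHolds.split4 494780232499 (FHolds.split3 412316860416 (FHolds.split1 412316860416 HP_3_1_3_1_c1514 (FHolds.split2 240518168576 HP_3_1_3_1_c1515 HP_3_1_3_1_c1516)) HP_3_1_3_1_c1517) (FHolds.split1 412316860416 HP_3_1_3_1_c1518 (FHolds.split3 412316860416 (FHolds.split2 240518168576 HP_3_1_3_1_c1519 HP_3_1_3_1_c1520) HP_3_1_3_1_c1521))))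

theorem HP_3_1_3_2 : HP 3 1 3 2 ⟨366503875925, 458129844907, 137438953472, 274877906944, 366503875925, 458129844907, 549755813888, 659706976666⟩ :=
  (FHolds.split2 206158430208 (FHolds.split2 171798691840 HP_3_1_3_2_c1522 (FHolds.split1 412316860416 (FHolds.split3 412316860416 HP_3_1_3_2_c1523 HP_3_1_3_2_c1524) (FHolds.split3 412316860416 HP_3_1_3_2_c1525 HP_3_1_3_2_c1526))) (FHolds.split1 412316860416 (FHolds.split2 240518168576 (FHolds.split3 412316860416 HP_3_1_3_2_c1527 HP_3_1_3_2_c1528) HP_3_1_3_2_c1529) (FHolds.split2 240518168576 (FHolds.split3 412316860416 (FHolds.split4 604731395277 HP_3_1_3_2_c1530 HP_3_1_3_2_c1531) HP_3_1_3_2_c1532) (FHolds.split3 412316860416 (FHolds.split2 257698037760 (FHolds.split1 435223352661 HP_3_1_3_2_c1533 HP_3_1_3_2_c1534) HP_3_1_3_2_c1535) HP_3_1_3_2_c1536))))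

theorem HP_3_1_3_3 : HP 3 1 3 3 ⟨366503875925, 458129844907, 137438953472, 274877906944, 366503875925, 458129844907, 659706976665, 879609302221⟩ :=
  (FHolds.split2 206158430208 (FHolds.split2 171798691840 HP_3_1_3_3_c1537 (FHolds.split4 769658139443 (FHolds.split1 412316860416 HP_3_1_3_3_c1538 HP_3_1_3_3_c1539) HP_3_1_3_3_c1540)) (FHolds.split1 412316860416 HP_3_1_3_3_c1541 (FHolds.split2 240518168576 (FHolds.split4 769658139443 (FHolds.split3 412316860416 HP_3_1_3_3_c1542 HP_3_1_3_3_c1543) HP_3_1_3_3_c1544) (FHolds.split4 769658139443 (FHolds.split3 412316860416 HP_3_1_3_3_c1545 HP_3_1_3_3_c1546) HP_3_1_3_3_c1547))))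

theorem HP_3_1_3_4 : HP 3 1 3 4 ⟨366503875925, 458129844907, 137438953472, 274877906944, 366503875925, 458129844907, 879609302220, 1099511627776⟩ :=
  (FHolds.split2 206158430208 HP_3_1_3_4_c1548 (FHolds.split1 412316860416 HP_3_1_3_4_c1549 (FHolds.split4 989560464998 HP_3_1_3_4_c1550 HP_3_1_3_4_c1551)))

theorem HE_3_1_3 : HE 3 1 3 ⟨366503875925, 458129844907, 137438953472, 274877906944, 366503875925, 458129844907, 0, 0⟩ :=
  HE_3_1_3_c1552

theorem HP_3_2_3_0 : HP 3 2 3 0 ⟨366503875925, 458129844907, 274877906944, 366503875926, 366503875925, 458129844907, 329853488332, 439804651111⟩ :=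
  (FHolds.split4 384829069721 HP_3_2_3_0_c1553 (FHolds.split2 320690891435 HP_3_2_3_0_c1554 (FHolds.split1 412316860416 HP_3_2_3_0_c1555 (FHolds.split4 412316860416 HP_3_2_3_0_c1556 HP_3_2_3_0_c1557))))

theorem HP_3_2_3_1 : HP 3 2 3 1 ⟨366503875925, 458129844907, 274877906944, 366503875926, 366503875925, 458129844907, 439804651110, 549755813888⟩ :=
  (FHolds.split4 494780232499 (FHolds.split2 320690891435 HP_3_2_3_1_c1558 (FHolds.split1 412316860416 (FHolds.split3 412316860416 HP_3_2_3_1_c1559 (FHolds.split2 343597383680 HP_3_2_3_1_c1560 (FHolds.split1 389410368170 (FHolds.split3 435223352661 HP_3_2_3_1_c1561 HP_3_2_3_1_c1562) HP_3_2_3_1_c1563))) (FHolds.split3 412316860416 (FHolds.split4 467292441804 (FHolds.split1 435223352661 (FHolds.split4 453548546457 (FHolds.split3 389410368170 (FHolds.split1 423770106538 HP_3_2_3_1_c1564 HP_3_2_3_1_c1565) HP_3_2_3_1_c1566) (FHolds.split3 389410368170 (FHolds.split3 377957122047 HP_3_2_3_1_c1567 HP_3_2_3_1_c1568)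 HP_3_2_3_1_c1569)) HP_3_2_3_1_c1570) (FHolds.split1 435223352661 (FHolds.split3 389410368170 HP_3_2_3_1_c1571 HP_3_2_3_1_c1572) (FHolds.split2 343597383680 HP_3_2_3_1_c1573 (FHolds.split4 481036337151 HP_3_2_3_1_c1574 HP_3_2_3_1_c1575)))) HP_3_2_3_1_c1576))) (FHolds.split2 320690891435 HP_3_2_3_1_c1577 (FHolds.split1 412316860416 HP_3_2_3_1_c1578 (FHolds.split3 412316860416 (FHolds.split4 522268023193 (FHolds.split3 389410368170 HP_3_2_3_1_c1579 HP_3_2_3_1_c1580) (FHolds.split2 343597383680 HP_3_2_3_1_c1581 HP_3_2_3_1_c1582)) (FHolds.split4 522268023193 (FHolds.split3 435223352661 HP_3_2_3_1_c1583 HP_3_2_3_1_c1584) HP_3_2_3_1_c1585)))))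

theorem HP_3_2_3_2 : HP 3 2 3 2 ⟨366503875925, 458129844907, 274877906944, 366503875926, 366503875925, 458129844907, 549755813888, 659706976666⟩ :=
  (FHolds.split2 320690891435 HP_3_2_3_2_c1586 (FHolds.split3 412316860416 (FHolds.split1 412316860416 HP_3_2_3_2_c1587 (FHolds.split2 343597383680 (FHolds.split1 435223352661 (FHolds.split2 332144137557 HP_3_2_3_2_c1588 HP_3_2_3_2_c1589) HP_3_2_3_2_c1590) HP_3_2_3_2_c1591)) (FHolds.split1 412316860416 (FHolds.split2 343597383680 HP_3_2_3_2_c1592 (FHolds.split3 435223352661 HP_3_2_3_2_c1593 HP_3_2_3_2_c1594)) (FHolds.split2 343597383680 HP_3_2_3_2_c1595 HP_3_2_3_2_c1596))))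

theorem HP_3_2_3_3 : HP 3 2 3 3 ⟨366503875925, 458129844907, 274877906944, 366503875926, 366503875925, 458129844907, 659706976665, 879609302221⟩ :=
  (FHolds.split2 320690891435 (FHolds.split1 412316860416 HP_3_2_3_3_c1597 HP_3_2_3_3_c1598) (FHolds.split3 412316860416 (FHolds.split1 412316860416 HP_3_2_3_3_c1599 (FHolds.split2 343597383680 (FHolds.split1 435223352661 (FHolds.split2 332144137557 HP_3_2_3_3_c1600 (FHolds.split4 769658139443 (FHolds.split3 389410368170 HP_3_2_3_3_c1601 HP_3_2_3_3_c1602) HP_3_2_3_3_c1603)) (FHolds.split4 769658139443 HP_3_2_3_3_c1604 HP_3_2_3_3_c1605)) HP_3_2_3_3_c1606)) (FHolds.split1 412316860416 (FHolds.split2 343597383680 HP_3_2_3_3_c1607 (FHolds.split3 435223352661 (FHolds.split2 355050629803 (FHolds.split1 389410368170 HP_3_2_3_3_c1608 HP_3_2_3_3_c1609) (FHolds.split1 389410368170 (FHolds.split4 769658139443 HP_3_2_3_3_c1610 HP_3_2_3_3_c1611) HP_3_2_3_3_c1612)) HP_3_2_3_3_c1613)) (FHolds.split2 343597383680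 (FHolds.split4 769658139443 HP_3_2_3_3_c1614 HP_3_2_3_3_c1615) HP_3_2_3_3_c1616))))

theorem HP_3_2_3_4 : HP 3 2 3 4 ⟨366503875925, 458129844907, 274877906944, 366503875926, 366503875925, 458129844907, 879609302220, 1099511627776⟩ :=
  (FHolds.split2 320690891435 (FHolds.split1 412316860416 HP_3_2_3_4_c1617 (FHolds.split2 297784399189 HP_3_2_3_4_c1618 HP_3_2_3_4_c1619)) (FHolds.split1 412316860416 (FHolds.split3 412316860416 HP_3_2_3_4_c1620 (FHolds.split2 343597383680 HP_3_2_3_4_c1621 (FHolds.split4 989560464998 (FHolds.split4 934584883609 (FHolds.split1 389410368170 HP_3_2_3_4_c1622 HP_3_2_3_4_c1623) (FHolds.split1 389410368170 HP_3_2_3_4_c1624 HP_3_2_3_4_c1625)) (FHolds.split1 389410368170 (FHolds.split2 355050629803 HP_3_2_3_4_c1626 (FHolds.split4 1044536046387 HP_3_2_3_4_c1627 (FHolds.split1 377957122047 (FHolds.split4 1072023837081 HP_3_2_3_4_c1628 (FHolds.split2 360777252864 HP_3_2_3_4_c1629 (FHolds.split1 372230498986 HP_3_2_3_4_c1630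 HP_3_2_3_4_c1631))) HP_3_2_3_4_c1632))) HP_3_2_3_4_c1633)))) (FHolds.split3 412316860416 (FHolds.split4 989560464998 (FHolds.split4 934584883609 (FHolds.split2 343597383680 (FHolds.split1 435223352661 HP_3_2_3_4_c1634 HP_3_2_3_4_c1635) HP_3_2_3_4_c1636) (FHolds.split2 343597383680 HP_3_2_3_4_c1637 HP_3_2_3_4_c1638)) (FHolds.split2 343597383680 (FHolds.split3 389410368170 (FHolds.split4 1044536046387 (FHolds.split4 1017048255692 HP_3_2_3_4_c1639 HP_3_2_3_4_c1640) (FHolds.split1 435223352661 HP_3_2_3_4_c1641 HP_3_2_3_4_c1642)) (FHolds.split4 1044536046387 HP_3_2_3_4_c1643 HP_3_2_3_4_c1644)) HP_3_2_3_4_c1645)) (FHolds.split4 989560464998 (FHolds.split4 934584883609 (FHolds.split2 343597383680 (FHolds.split1 435223352661 HP_3_2_3_4_c1646 HP_3_2_3_4_c1647) HP_3_2_3_4_c1648) (FHolds.split3 435223352661 HP_3_2_3_4_c1649 HP_3_2_3_4_c1650)) (FHolds.split2 343597383680 HP_3_2_3_4_c1651 HP_3_2_3_4_c1652)))))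

theorem HE_3_2_3 : HE 3 2 3 ⟨366503875925, 458129844907, 274877906944, 366503875926, 366503875925, 458129844907, 0, 0⟩ :=
  HE_3_2_3_c1653

theorem HP_3_3_3_0 : HP 3 3 3 0 ⟨366503875925, 458129844907, 366503875925, 458129844907, 366502827349, 458129844907, 329853488332, 439804651111⟩ :=
  HP_3_3_3_0_c1654

theorem HP_3_3_3_1 : HP 3 3 3 1 ⟨366503875925, 458129844907, 366503875925, 458129844907, 366502827349, 458129844907, 439804651110, 549755813888⟩ :=
  (FHolds.split4 494780232499 (FHolds.split1 412316860416 (FHolds.split3 412316336128 HP_3_3_3_1_c1655 (FHolds.split4 467292441804 (FHolds.split2 412316860416 HP_3_3_3_1_c1656 HP_3_3_3_1_c1657) (FHolds.split2 412316860416 HP_3_3_3_1_c1658 HP_3_3_3_1_c1659))) (FHolds.split3 412316336128 (FHolds.split2 412316860416 (FHolds.split4 467292441804 (FHolds.split1 435223352661 (FHolds.split4 453548546457 (FHolds.split3 389409581738 (FHolds.split2 389410368170 (FHolds.split1 423770106538 (FHolds.split4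 446676598783 HP_3_3_3_1_c1660 HP_3_3_3_1_c1661) HP_3_3_3_1_c1662) HP_3_3_3_1_c1663) HP_3_3_3_1_c1664) (FHolds.split3 389409581738 (FHolds.split2 389410368170 (FHolds.split1 423770106538 HP_3_3_3_1_c1665 (FHolds.split3 377956204543 HP_3_3_3_1_c1666 HP_3_3_3_1_c1667)) HP_3_3_3_1_c1668) HP_3_3_3_1_c1669)) HP_3_3_3_1_c1670) (FHolds.split1 435223352661 (FHolds.split4 481036337151 (FHolds.split3 389409581738 HP_3_3_3_1_c1671 HP_3_3_3_1_c1672) HP_3_3_3_1_c1673) (FHolds.split4 481036337151 (FHolds.split3 389409581738 (FHolds.split2 389410368170 (FHolds.split1 446676598784 HP_3_3_3_1_c1674 HP_3_3_3_1_c1675) HP_3_3_3_1_c1676) HP_3_3_3_1_c1677) (FHolds.split3 389409581738 HP_3_3_3_1_c1678 HP_3_3_3_1_c1679)))) HP_3_3_3_1_c1680) HP_3_3_3_1_c1681)) (FHolds.split1 412316860416 HP_3_3_3_1_c1682 (FHolds.split4 522268023193 (FHolds.split3 412316336128 (FHolds.split2 412316860416 (FHolds.split1 435223352661 HP_3_3_3_1_c1683 HP_3_3_3_1_c1684) HP_3_3_3_1_c1685)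 (FHolds.split2 412316860416 HP_3_3_3_1_c1686 (FHolds.split1 435223352661 HP_3_3_3_1_c1687 HP_3_3_3_1_c1688))) (FHolds.split1 435223352661 HP_3_3_3_1_c1689 HP_3_3_3_1_c1690))))

theorem HP_3_3_3_2 : HP 3 3 3 2 ⟨366503875925, 458129844907, 366503875925, 458129844907, 366502827349, 458129844907, 549755813888, 659706976666⟩ :=
  (FHolds.split3 412316336128 HP_3_3_3_2_c1691 HP_3_3_3_2_c1692)

theorem HP_3_3_3_3 : HP 3 3 3 3 ⟨366503875925, 458129844907, 366503875925, 458129844907, 366502827349, 458129844907, 659706976665, 879609302221⟩ :=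
  HP_3_3_3_3_c1693

theorem HP_3_3_3_4 : HP 3 3 3 4 ⟨366503875925, 458129844907, 366503875925, 458129844907, 366502827349, 458129844907, 879609302220, 1099511627776⟩ :=
  (FHolds.split4 989560464998 HP_3_3_3_4_c1694 HP_3_3_3_4_c1695)

theorem HE_3_3_3 : HE 3 3 3 ⟨366503875925, 458129844907, 366503875925, 458129844907, 366502827349, 458129844907, 0, 0⟩ :=
  HE_3_3_3_c1696

theorem HP_3_0_4_0 : HP 3 0 4 0 ⟨366503875925, 458129844907, 0, 137438953472, 458129844906, 549755813888, 329853488332, 439804651111⟩ :=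
  HP_3_0_4_0_c1697

theorem HP_3_0_4_1 : HP 3 0 4 1 ⟨366503875925, 458129844907, 0, 137438953472, 458129844906, 549755813888, 439804651110, 549755813888⟩ :=
  HP_3_0_4_1_c1698

theorem HP_3_0_4_2 : HP 3 0 4 2 ⟨366503875925, 458129844907, 0, 137438953472, 458129844906, 549755813888, 549755813888, 659706976666⟩ :=
  HP_3_0_4_2_c1699

theorem HP_3_0_4_3 : HP 3 0 4 3 ⟨366503875925, 458129844907, 0, 137438953472, 458129844906, 549755813888, 659706976665, 879609302221⟩ :=
  HP_3_0_4_3_c1700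

theorem HP_3_0_4_4 : HP 3 0 4 4 ⟨366503875925, 458129844907, 0, 137438953472, 458129844906, 549755813888, 879609302220, 1099511627776⟩ :=
  HP_3_0_4_4_c1701

theorem HE_3_0_4 : HE 3 0 4 ⟨366503875925, 458129844907, 0, 137438953472, 458129844906, 549755813888, 0, 0⟩ :=
  HE_3_0_4_c1702

theorem HP_3_1_4_0 : HP 3 1 4 0 ⟨366503875925, 458129844907, 137438953472, 274877906944, 458129844906, 549755813888, 329853488332, 439804651111⟩ :=
  HP_3_1_4_0_c1703

theorem HP_3_1_4_1 : HP 3 1 4 1 ⟨366503875925, 458129844907, 137438953472, 274877906944, 458129844906, 549755813888, 439804651110, 549755813888⟩ :=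
  (FHolds.split2 206158430208 HP_3_1_4_1_c1704 HP_3_1_4_1_c1705)

theorem HP_3_1_4_2 : HP 3 1 4 2 ⟨366503875925, 458129844907, 137438953472, 274877906944, 458129844906, 549755813888, 549755813888, 659706976666⟩ :=
  (FHolds.split2 206158430208 (FHolds.split4 604731395277 HP_3_1_4_2_c1706 HP_3_1_4_2_c1707) (FHolds.split1 412316860416 HP_3_1_4_2_c1708 HP_3_1_4_2_c1709))

theorem HP_3_1_4_3 : HP 3 1 4 3 ⟨366503875925, 458129844907, 137438953472, 274877906944, 458129844906, 549755813888, 659706976665, 879609302221⟩ :=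
  (FHolds.split2 206158430208 (FHolds.split4 769658139443 HP_3_1_4_3_c1710 (FHolds.split2 171798691840 HP_3_1_4_3_c1711 HP_3_1_4_3_c1712)) (FHolds.split4 769658139443 HP_3_1_4_3_c1713 (FHolds.split1 412316860416 HP_3_1_4_3_c1714 HP_3_1_4_3_c1715)))

theorem HP_3_1_4_4 : HP 3 1 4 4 ⟨366503875925, 458129844907, 137438953472, 274877906944, 458129844906, 549755813888, 879609302220, 1099511627776⟩ :=
  (FHolds.split2 206158430208 (FHolds.split4 989560464998 HP_3_1_4_4_c1716 HP_3_1_4_4_c1717) (FHolds.split4 989560464998 (FHolds.split1 412316860416 HP_3_1_4_4_c1718 (FHolds.split2 240518168576 HP_3_1_4_4_c1719 HP_3_1_4_4_c1720)) HP_3_1_4_4_c1721))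

theorem HE_3_1_4 : HE 3 1 4 ⟨366503875925, 458129844907, 137438953472, 274877906944, 458129844906, 549755813888, 0, 0⟩ :=
  HE_3_1_4_c1722

theorem HP_3_2_4_0 : HP 3 2 4 0 ⟨366503875925, 458129844907, 274877906944, 366503875926, 458129844906, 549755813888, 329853488332, 439804651111⟩ :=
  (FHolds.split2 320690891435 HP_3_2_4_0_c1723 (FHolds.split4 384829069721 HP_3_2_4_0_c1724 (FHolds.split3 503942829397 HP_3_2_4_0_c1725 (FHolds.split2 343597383680 HP_3_2_4_0_c1726 HP_3_2_4_0_c1727))))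

theorem HP_3_2_4_1 : HP 3 2 4 1 ⟨366503875925, 458129844907, 274877906944, 366503875926, 458129844906, 549755813888, 439804651110, 549755813888⟩ :=
  (FHolds.split2 320690891435 HP_3_2_4_1_c1728 (FHolds.split4 494780232499 (FHolds.split4 467292441804 HP_3_2_4_1_c1729 HP_3_2_4_1_c1730) (FHolds.split1 412316860416 HP_3_2_4_1_c1731 HP_3_2_4_1_c1732)))

theorem HP_3_2_4_2 : HP 3 2 4 2 ⟨366503875925, 458129844907, 274877906944, 366503875926, 458129844906, 549755813888, 549755813888, 659706976666⟩ :=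
  (FHolds.split4 604731395277 (FHolds.split2 320690891435 HP_3_2_4_2_c1733 (FHolds.split3 503942829397 (FHolds.split1 412316860416 HP_3_2_4_2_c1734 (FHolds.split3 481036337151 HP_3_2_4_2_c1735 HP_3_2_4_2_c1736)) HP_3_2_4_2_c1737)) (FHolds.split3 503942829397 HP_3_2_4_2_c1738 HP_3_2_4_2_c1739))

theorem HP_3_2_4_3 : HP 3 2 4 3 ⟨366503875925, 458129844907, 274877906944, 366503875926, 458129844906, 549755813888, 659706976665, 879609302221⟩ :=
  (FHolds.split2 320690891435 HP_3_2_4_3_c1740 (FHolds.split3 503942829397 (FHolds.split1 412316860416 (FHolds.split2 343597383680 HP_3_2_4_3_c1741 HP_3_2_4_3_c1742) (FHolds.split3 481036337151 (FHolds.split2 343597383680 (FHolds.split4 769658139443 HP_3_2_4_3_c1743 HP_3_2_4_3_c1744) HP_3_2_4_3_c1745) HP_3_2_4_3_c1746)) (FHolds.split1 412316860416 HP_3_2_4_3_c1747 HP_3_2_4_3_c1748)))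

theorem HP_3_2_4_4 : HP 3 2 4 4 ⟨366503875925, 458129844907, 274877906944, 366503875926, 458129844906, 549755813888, 879609302220, 1099511627776⟩ :=
  (FHolds.split2 320690891435 (FHolds.split1 412316860416 HP_3_2_4_4_c1749 HP_3_2_4_4_c1750) (FHolds.split3 503942829397 (FHolds.split1 412316860416 (FHolds.split2 343597383680 HP_3_2_4_4_c1751 (FHolds.split4 989560464998 HP_3_2_4_4_c1752 (FHolds.split1 389410368170 (FHolds.split2 355050629803 HP_3_2_4_4_c1753 (FHolds.split4 1044536046387 HP_3_2_4_4_c1754 (FHolds.split1 377957122047 HP_3_2_4_4_c1755 HP_3_2_4_4_c1756))) HP_3_2_4_4_c1757))) (FHolds.split4 989560464998 (FHolds.split3 481036337151 (FHolds.split2 343597383680 (FHolds.split4 934584883609 (FHolds.split1 435223352661 HP_3_2_4_4_c1758 (FHolds.split4 907097092914 HP_3_2_4_4_c1759 HP_3_2_4_4_c1760)) HP_3_2_4_4_c1761) HP_3_2_4_4_c1762) HP_3_2_4_4_c1763) (FHolds.split2 343597383680 HP_3_2_4_4_c1764 HP_3_2_4_4_c1765))) (FHolds.split1 412316860416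 HP_3_2_4_4_c1766 HP_3_2_4_4_c1767)))

theorem HE_3_2_4 : HE 3 2 4 ⟨366503875925, 458129844907, 274877906944, 366503875926, 458129844906, 549755813888, 0, 0⟩ :=
  HE_3_2_4_c1768

theorem HP_3_3_4_0 : HP 3 3 4 0 ⟨366503875925, 458129844907, 366503875925, 458129844907, 458129844906, 549755813888, 329853488332, 439804651111⟩ :=
  HP_3_3_4_0_c1769

theorem HP_3_3_4_1 : HP 3 3 4 1 ⟨366503875925, 458129844907, 366503875925, 458129844907, 458129844906, 549755813888, 439804651110, 549755813888⟩ :=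
  (FHolds.split4 494780232499 HP_3_3_4_1_c1770 (FHolds.split1 412316860416 HP_3_3_4_1_c1771 (FHolds.split3 503942829397 HP_3_3_4_1_c1772 HP_3_3_4_1_c1773)))

theorem HP_3_3_4_2 : HP 3 3 4 2 ⟨366503875925, 458129844907, 366503875925, 458129844907, 458129844906, 549755813888, 549755813888, 659706976666⟩ :=
  (FHolds.split4 604731395277 (FHolds.split3 503942829397 (FHolds.split1 412316860416 HP_3_3_4_2_c1774 (FHolds.split3 481036337151 HP_3_3_4_2_c1775 HP_3_3_4_2_c1776)) HP_3_3_4_2_c1777) HP_3_3_4_2_c1778)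

theorem HP_3_3_4_3 : HP 3 3 4 3 ⟨366503875925, 458129844907, 366503875925, 458129844907, 458129844906, 549755813888, 659706976665, 879609302221⟩ :=
  (FHolds.split3 503942829397 HP_3_3_4_3_c1779 HP_3_3_4_3_c1780)

theorem HP_3_3_4_4 : HP 3 3 4 4 ⟨366503875925, 458129844907, 366503875925, 458129844907, 458129844906, 549755813888, 879609302220, 1099511627776⟩ :=
  (FHolds.split3 503942829397 (FHolds.split4 989560464998 HP_3_3_4_4_c1781 HP_3_3_4_4_c1782) HP_3_3_4_4_c1783)

theorem HE_3_3_4 : HE 3 3 4 ⟨366503875925, 458129844907, 366503875925, 458129844907, 458129844906, 549755813888, 0, 0⟩ :=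
  HE_3_3_4_c1784

theorem HP_3_4_4_0 : HP 3 4 4 0 ⟨366503875925, 458129844907, 458129844906, 549755813888, 458128796330, 549755813888, 329853488332, 439804651111⟩ :=
  HP_3_4_4_0_c1785

theorem HP_3_4_4_1 : HP 3 4 4 1 ⟨366503875925, 458129844907, 458129844906, 549755813888, 458128796330, 549755813888, 439804651110, 549755813888⟩ :=
  (FHolds.split4 494780232499 HP_3_4_4_1_c1786 (FHolds.split1 412316860416 (FHolds.split3 503942305109 (FHolds.split2 503942829397 (FHolds.split4 522268023193 HP_3_4_4_1_c1787 HP_3_4_4_1_c1788) HP_3_4_4_1_c1789) HP_3_4_4_1_c1790) (FHolds.split4 522268023193 HP_3_4_4_1_c1791 (FHolds.split3 503942305109 (FHolds.split2 503942829397 (FHolds.split1 435223352661 HP_3_4_4_1_c1792 HP_3_4_4_1_c1793) HP_3_4_4_1_c1794) HP_3_4_4_1_c1795))))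

theorem HP_3_4_4_2 : HP 3 4 4 2 ⟨366503875925, 458129844907, 458129844906, 549755813888, 458128796330, 549755813888, 549755813888, 659706976666⟩ :=
  (FHolds.split4 604731395277 (FHolds.split4 577243604582 (FHolds.split1 412316860416 HP_3_4_4_2_c1796 (FHolds.split3 503942305109 (FHolds.split2 503942829397 (FHolds.split1 435223352661 HP_3_4_4_2_c1797 HP_3_4_4_2_c1798) HP_3_4_4_2_c1799) HP_3_4_4_2_c1800)) HP_3_4_4_2_c1801) HP_3_4_4_2_c1802)

theorem HP_3_4_4_3 : HP 3 4 4 3 ⟨366503875925, 458129844907, 458129844906, 549755813888, 458128796330, 549755813888, 659706976665, 879609302221⟩ :=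
  (FHolds.split4 769658139443 HP_3_4_4_3_c1803 HP_3_4_4_3_c1804)

theorem HP_3_4_4_4 : HP 3 4 4 4 ⟨366503875925, 458129844907, 458129844906, 549755813888, 458128796330, 549755813888, 879609302220, 1099511627776⟩ :=
  (FHolds.split4 989560464998 (FHolds.split3 503942305109 HP_3_4_4_4_c1805 HP_3_4_4_4_c1806) HP_3_4_4_4_c1807)

theorem HE_3_4_4 : HE 3 4 4 ⟨366503875925, 458129844907, 458129844906, 549755813888, 458128796330, 549755813888, 0, 0⟩ :=
  HE_3_4_4_c1808

theorem HP_3_0_5_0 : HP 3 0 5 0 ⟨366503875925, 458129844907, 0, 137438953472, 549755813888, 641381782870, 329853488332, 439804651111⟩ :=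
  HP_3_0_5_0_c1809

theorem HP_3_0_5_1 : HP 3 0 5 1 ⟨366503875925, 458129844907, 0, 137438953472, 549755813888, 641381782870, 439804651110, 549755813888⟩ :=
  HP_3_0_5_1_c1810

theorem HP_3_0_5_2 : HP 3 0 5 2 ⟨366503875925, 458129844907, 0, 137438953472, 549755813888, 641381782870, 549755813888, 659706976666⟩ :=
  HP_3_0_5_2_c1811

theorem HP_3_0_5_3 : HP 3 0 5 3 ⟨366503875925, 458129844907, 0, 137438953472, 549755813888, 641381782870, 659706976665, 879609302221⟩ :=
  HP_3_0_5_3_c1812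

theorem HP_3_0_5_4 : HP 3 0 5 4 ⟨366503875925, 458129844907, 0, 137438953472, 549755813888, 641381782870, 879609302220, 1099511627776⟩ :=
  HP_3_0_5_4_c1813

theorem HE_3_0_5 : HE 3 0 5 ⟨366503875925, 458129844907, 0, 137438953472, 549755813888, 641381782870, 0, 0⟩ :=
  HE_3_0_5_c1814

theorem HP_3_1_5_0 : HP 3 1 5 0 ⟨366503875925, 458129844907, 137438953472, 274877906944, 549755813888, 641381782870, 329853488332, 439804651111⟩ :=
  (FHolds.split4 384829069721 HP_3_1_5_0_c1815 HP_3_1_5_0_c1816)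

theorem HP_3_1_5_1 : HP 3 1 5 1 ⟨366503875925, 458129844907, 137438953472, 274877906944, 549755813888, 641381782870, 439804651110, 549755813888⟩ :=
  HP_3_1_5_1_c1817

theorem HP_3_1_5_2 : HP 3 1 5 2 ⟨366503875925, 458129844907, 137438953472, 274877906944, 549755813888, 641381782870, 549755813888, 659706976666⟩ :=
  HP_3_1_5_2_c1818

theorem HP_3_1_5_3 : HP 3 1 5 3 ⟨366503875925, 458129844907, 137438953472, 274877906944, 549755813888, 641381782870, 659706976665, 879609302221⟩ :=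
  HP_3_1_5_3_c1819

theorem HP_3_1_5_4 : HP 3 1 5 4 ⟨366503875925, 458129844907, 137438953472, 274877906944, 549755813888, 641381782870, 879609302220, 1099511627776⟩ :=
  HP_3_1_5_4_c1820

theorem HE_3_1_5 : HE 3 1 5 ⟨366503875925, 458129844907, 137438953472, 274877906944, 549755813888, 641381782870, 0, 0⟩ :=
  HE_3_1_5_c1821

theorem HP_3_2_5_0 : HP 3 2 5 0 ⟨366503875925, 458129844907, 274877906944, 366503875926, 549755813888, 641381782870, 329853488332, 439804651111⟩ :=
  (FHolds.split4 384829069721 HP_3_2_5_0_c1822 (FHolds.split2 320690891435 (FHolds.split2 297784399189 HP_3_2_5_0_c1823 (FHolds.split4 412316860416 HP_3_2_5_0_c1824 HP_3_2_5_0_c1825)) (FHolds.split4 412316860416 (FHolds.split1 412316860416 (FHolds.split3 595568798379 (FHolds.split3 572662306133 (FHolds.split2 343597383680 HP_3_2_5_0_c1826 (FHolds.split1 389410368170 (FHolds.split4 398572965068 HP_3_2_5_0_c1827 (FHolds.split3 561209060010 (FHolds.split2 355050629803 HP_3_2_5_0_c1828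 (FHolds.split1 377957122047 HP_3_2_5_0_c1829 HP_3_2_5_0_c1830)) HP_3_2_5_0_c1831)) HP_3_2_5_0_c1832)) HP_3_2_5_0_c1833) HP_3_2_5_0_c1834) (FHolds.split3 595568798379 HP_3_2_5_0_c1835 HP_3_2_5_0_c1836)) (FHolds.split1 412316860416 (FHolds.split4 426060755763 (FHolds.split2 343597383680 HP_3_2_5_0_c1837 (FHolds.split1 389410368170 (FHolds.split3 595568798379 HP_3_2_5_0_c1838 HP_3_2_5_0_c1839) (FHolds.split3 595568798379 (FHolds.split3 572662306133 (FHolds.split2 355050629803 (FHolds.split1 400863614293 HP_3_2_5_0_c1840 (FHolds.split4 419188808089 HP_3_2_5_0_c1841 HP_3_2_5_0_c1842)) (FHolds.split1 400863614293 HP_3_2_5_0_c1843 HP_3_2_5_0_c1844)) HP_3_2_5_0_c1845) HP_3_2_5_0_c1846))) (FHolds.split4 432932703437 (FHolds.split2 343597383680 HP_3_2_5_0_c1847 (FHolds.split1 389410368170 HP_3_2_5_0_c1848 (FHolds.split3 595568798379 (FHolds.split3 572662306133 (FHolds.split2 355050629803 HP_3_2_5_0_c1849 HP_3_2_5_0_c1850) HP_3_2_5_0_c1851) HP_3_2_5_0_c1852)))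 HP_3_2_5_0_c1853)) (FHolds.split4 426060755763 (FHolds.split2 343597383680 (FHolds.split1 435223352661 (FHolds.split3 595568798379 (FHolds.split3 572662306133 (FHolds.split2 332144137557 HP_3_2_5_0_c1854 HP_3_2_5_0_c1855) HP_3_2_5_0_c1856) HP_3_2_5_0_c1857) HP_3_2_5_0_c1858) HP_3_2_5_0_c1859) (FHolds.split2 343597383680 (FHolds.split1 435223352661 (FHolds.split4 432932703437 (FHolds.split3 595568798379 (FHolds.split2 332144137557 HP_3_2_5_0_c1860 HP_3_2_5_0_c1861) HP_3_2_5_0_c1862) HP_3_2_5_0_c1863) (FHolds.split4 432932703437 HP_3_2_5_0_c1864 (FHolds.split3 595568798379 (FHolds.split2 332144137557 (FHolds.split1 446676598784 HP_3_2_5_0_c1865 HP_3_2_5_0_c1866) HP_3_2_5_0_c1867) HP_3_2_5_0_c1868))) (FHolds.split1 435223352661 (FHolds.split4 432932703437 HP_3_2_5_0_c1869 (FHolds.split3 595568798379 (FHolds.split3 572662306133 (FHolds.split2 355050629803 HP_3_2_5_0_c1870 HP_3_2_5_0_c1871) HP_3_2_5_0_c1872) HP_3_2_5_0_c1873)) HP_3_2_5_0_c1874)))))))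

theorem HP_3_2_5_1 : HP 3 2 5 1 ⟨366503875925, 458129844907, 274877906944, 366503875926, 549755813888, 641381782870, 439804651110, 549755813888⟩ :=
  (FHolds.split2 320690891435 HP_3_2_5_1_c1875 (FHolds.split1 412316860416 HP_3_2_5_1_c1876 HP_3_2_5_1_c1877))

theorem HP_3_2_5_2 : HP 3 2 5 2 ⟨366503875925, 458129844907, 274877906944, 366503875926, 549755813888, 641381782870, 549755813888, 659706976666⟩ :=
  (FHolds.split2 320690891435 HP_3_2_5_2_c1878 (FHolds.split3 595568798379 HP_3_2_5_2_c1879 HP_3_2_5_2_c1880))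

theorem HP_3_2_5_3 : HP 3 2 5 3 ⟨366503875925, 458129844907, 274877906944, 366503875926, 549755813888, 641381782870, 659706976665, 879609302221⟩ :=
  (FHolds.split2 320690891435 HP_3_2_5_3_c1881 HP_3_2_5_3_c1882)

theorem HP_3_2_5_4 : HP 3 2 5 4 ⟨366503875925, 458129844907, 274877906944, 366503875926, 549755813888, 641381782870, 879609302220, 1099511627776⟩ :=
  (FHolds.split2 320690891435 HP_3_2_5_4_c1883 (FHolds.split1 412316860416 HP_3_2_5_4_c1884 HP_3_2_5_4_c1885))

theorem HE_3_2_5 : HE 3 2 5 ⟨366503875925, 458129844907, 274877906944, 366503875926, 549755813888, 641381782870, 0, 0⟩ :=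
  HE_3_2_5_c1886

theorem HP_3_3_5_0 : HP 3 3 5 0 ⟨366503875925, 458129844907, 366503875925, 458129844907, 549755813888, 641381782870, 329853488332, 439804651111⟩ :=
  (FHolds.split4 384829069721 HP_3_3_5_0_c1887 (FHolds.split2 412316860416 (FHolds.split4 412316860416 (FHolds.split3 595568798379 HP_3_3_5_0_c1888 HP_3_3_5_0_c1889) (FHolds.split1 412316860416 (FHolds.split4 426060755763 (FHolds.split2 389410368170 (FHolds.split1 389410368170 (FHolds.split3 595568798379 (FHolds.split3 572662306133 (FHolds.split2 377957122047 (FHolds.split1 377957122047 HP_3_3_5_0_c1890 HP_3_3_5_0_c1891) HP_3_3_5_0_c1892) HP_3_3_5_0_c1893) HP_3_3_5_0_c1894) HP_3_3_5_0_c1895) HP_3_3_5_0_c1896) (FHolds.split2 389410368170 (FHolds.split1 389410368170 HP_3_3_5_0_c1897 (FHolds.split4 432932703437 HP_3_3_5_0_c1898 (FHolds.split2 377957122047 HP_3_3_5_0_c1899 HP_3_3_5_0_c1900))) (FHolds.split1 389410368170 (FHolds.split4 432932703437 HP_3_3_5_0_c1901 HP_3_3_5_0_c1902)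 HP_3_3_5_0_c1903))) HP_3_3_5_0_c1904)) HP_3_3_5_0_c1905))

theorem HP_3_3_5_1 : HP 3 3 5 1 ⟨366503875925, 458129844907, 366503875925, 458129844907, 549755813888, 641381782870, 439804651110, 549755813888⟩ :=
  HP_3_3_5_1_c1906

theorem HP_3_3_5_2 : HP 3 3 5 2 ⟨366503875925, 458129844907, 366503875925, 458129844907, 549755813888, 641381782870, 549755813888, 659706976666⟩ :=
  HP_3_3_5_2_c1907

theorem HP_3_3_5_3 : HP 3 3 5 3 ⟨366503875925, 458129844907, 366503875925, 458129844907, 549755813888, 641381782870, 659706976665, 879609302221⟩ :=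
  HP_3_3_5_3_c1908

theorem HP_3_3_5_4 : HP 3 3 5 4 ⟨366503875925, 458129844907, 366503875925, 458129844907, 549755813888, 641381782870, 879609302220, 1099511627776⟩ :=
  HP_3_3_5_4_c1909

theorem HE_3_3_5 : HE 3 3 5 ⟨366503875925, 458129844907, 366503875925, 458129844907, 549755813888, 641381782870, 0, 0⟩ :=
  HE_3_3_5_c1910

theorem HP_3_4_5_0 : HP 3 4 5 0 ⟨366503875925, 458129844907, 458129844906, 549755813888, 549755813888, 641381782870, 329853488332, 439804651111⟩ :=
  HP_3_4_5_0_c1911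

theorem HP_3_4_5_1 : HP 3 4 5 1 ⟨366503875925, 458129844907, 458129844906, 549755813888, 549755813888, 641381782870, 439804651110, 549755813888⟩ :=
  HP_3_4_5_1_c1912

theorem HP_3_4_5_2 : HP 3 4 5 2 ⟨366503875925, 458129844907, 458129844906, 549755813888, 549755813888, 641381782870, 549755813888, 659706976666⟩ :=
  (FHolds.split4 604731395277 HP_3_4_5_2_c1913 HP_3_4_5_2_c1914)

theorem HP_3_4_5_3 : HP 3 4 5 3 ⟨366503875925, 458129844907, 458129844906, 549755813888, 549755813888, 641381782870, 659706976665, 879609302221⟩ :=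
  HP_3_4_5_3_c1915

theorem HP_3_4_5_4 : HP 3 4 5 4 ⟨366503875925, 458129844907, 458129844906, 549755813888, 549755813888, 641381782870, 879609302220, 1099511627776⟩ :=
  HP_3_4_5_4_c1916

theorem HE_3_4_5 : HE 3 4 5 ⟨366503875925, 458129844907, 458129844906, 549755813888, 549755813888, 641381782870, 0, 0⟩ :=
  HE_3_4_5_c1917

theorem HP_3_5_5_0 : HP 3 5 5 0 ⟨366503875925, 458129844907, 549755813888, 641381782870, 549754765312, 641381782870, 329853488332, 439804651111⟩ :=
  HP_3_5_5_0_c1918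

theorem HP_3_5_5_1 : HP 3 5 5 1 ⟨366503875925, 458129844907, 549755813888, 641381782870, 549754765312, 641381782870, 439804651110, 549755813888⟩ :=
  HP_3_5_5_1_c1919

theorem HP_3_5_5_2 : HP 3 5 5 2 ⟨366503875925, 458129844907, 549755813888, 641381782870, 549754765312, 641381782870, 549755813888, 659706976666⟩ :=
  (FHolds.split4 604731395277 HP_3_5_5_2_c1920 (FHolds.split3 595568274091 HP_3_5_5_2_c1921 HP_3_5_5_2_c1922))

theorem HP_3_5_5_3 : HP 3 5 5 3 ⟨366503875925, 458129844907, 549755813888, 641381782870, 549754765312, 641381782870, 659706976665, 879609302221⟩ :=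
  HP_3_5_5_3_c1923

theorem HP_3_5_5_4 : HP 3 5 5 4 ⟨366503875925, 458129844907, 549755813888, 641381782870, 549754765312, 641381782870, 879609302220, 1099511627776⟩ :=
  HP_3_5_5_4_c1924

theorem HE_3_5_5 : HE 3 5 5 ⟨366503875925, 458129844907, 549755813888, 641381782870, 549754765312, 641381782870, 0, 0⟩ :=
  HE_3_5_5_c1925

theorem HP_4_0_0_0 : HP 4 0 0 0 ⟨458129844906, 549755813888, 0, 137438953472, (-1048576), 137438953472, 329853488332, 439804651111⟩ :=
  HP_4_0_0_0_c1926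

theorem HP_4_0_0_1 : HP 4 0 0 1 ⟨458129844906, 549755813888, 0, 137438953472, (-1048576), 137438953472, 439804651110, 549755813888⟩ :=
  HP_4_0_0_1_c1927

theorem HP_4_0_0_2 : HP 4 0 0 2 ⟨458129844906, 549755813888, 0, 137438953472, (-1048576), 137438953472, 549755813888, 659706976666⟩ :=
  (FHolds.split3 68718952448 HP_4_0_0_2_c1928 HP_4_0_0_2_c1929)

theorem HP_4_0_0_3 : HP 4 0 0 3 ⟨458129844906, 549755813888, 0, 137438953472, (-1048576), 137438953472, 659706976665, 879609302221⟩ :=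
  HP_4_0_0_3_c1930

theorem HP_4_0_0_4 : HP 4 0 0 4 ⟨458129844906, 549755813888, 0, 137438953472, (-1048576), 137438953472, 879609302220, 1099511627776⟩ :=
  HP_4_0_0_4_c1931

theorem HE_4_0_0 : HE 4 0 0 ⟨458129844906, 549755813888, 0, 137438953472, (-1048576), 137438953472, 0, 0⟩ :=
  HE_4_0_0_c1932

theorem HP_4_0_1_0 : HP 4 0 1 0 ⟨458129844906, 549755813888, 0, 137438953472, 137438953472, 274877906944, 329853488332, 439804651111⟩ :=
  HP_4_0_1_0_c1933

theorem HP_4_0_1_1 : HP 4 0 1 1 ⟨458129844906, 549755813888, 0, 137438953472, 137438953472, 274877906944, 439804651110, 549755813888⟩ :=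
  HP_4_0_1_1_c1934

theorem HP_4_0_1_2 : HP 4 0 1 2 ⟨458129844906, 549755813888, 0, 137438953472, 137438953472, 274877906944, 549755813888, 659706976666⟩ :=
  (FHolds.split3 206158430208 HP_4_0_1_2_c1935 HP_4_0_1_2_c1936)

theorem HP_4_0_1_3 : HP 4 0 1 3 ⟨458129844906, 549755813888, 0, 137438953472, 137438953472, 274877906944, 659706976665, 879609302221⟩ :=
  (FHolds.split3 206158430208 HP_4_0_1_3_c1937 (FHolds.split4 769658139443 HP_4_0_1_3_c1938 HP_4_0_1_3_c1939))

theorem HP_4_0_1_4 : HP 4 0 1 4 ⟨458129844906, 549755813888, 0, 137438953472, 137438953472, 274877906944, 879609302220, 1099511627776⟩ :=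
  HP_4_0_1_4_c1940

theorem HE_4_0_1 : HE 4 0 1 ⟨458129844906, 549755813888, 0, 137438953472, 137438953472, 274877906944, 0, 0⟩ :=
  HE_4_0_1_c1941

theorem HP_4_1_1_0 : HP 4 1 1 0 ⟨458129844906, 549755813888, 137438953472, 274877906944, 137437904896, 274877906944, 329853488332, 439804651111⟩ :=
  HP_4_1_1_0_c1942

theorem HP_4_1_1_1 : HP 4 1 1 1 ⟨458129844906, 549755813888, 137438953472, 274877906944, 137437904896, 274877906944, 439804651110, 549755813888⟩ :=
  HP_4_1_1_1_c1943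

theorem HP_4_1_1_2 : HP 4 1 1 2 ⟨458129844906, 549755813888, 137438953472, 274877906944, 137437904896, 274877906944, 549755813888, 659706976666⟩ :=
  HP_4_1_1_2_c1944

theorem HP_4_1_1_3 : HP 4 1 1 3 ⟨458129844906, 549755813888, 137438953472, 274877906944, 137437904896, 274877906944, 659706976665, 879609302221⟩ :=
  (FHolds.split1 503942829397 (FHolds.split3 206157905920 HP_4_1_1_3_c1945 (FHolds.split2 206158430208 HP_4_1_1_3_c1946 (FHolds.split4 769658139443 HP_4_1_1_3_c1947 HP_4_1_1_3_c1948))) HP_4_1_1_3_c1949)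

theorem HP_4_1_1_4 : HP 4 1 1 4 ⟨458129844906, 549755813888, 137438953472, 274877906944, 137437904896, 274877906944, 879609302220, 1099511627776⟩ :=
  (FHolds.split3 206157905920 HP_4_1_1_4_c1950 (FHolds.split2 206158430208 HP_4_1_1_4_c1951 HP_4_1_1_4_c1952))

theorem HE_4_1_1 : HE 4 1 1 ⟨458129844906, 549755813888, 137438953472, 274877906944, 137437904896, 274877906944, 0, 0⟩ :=
  HE_4_1_1_c1953

theorem HP_4_0_2_0 : HP 4 0 2 0 ⟨458129844906, 549755813888, 0, 137438953472, 274877906944, 366503875926, 329853488332, 439804651111⟩ :=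
  HP_4_0_2_0_c1954

theorem HP_4_0_2_1 : HP 4 0 2 1 ⟨458129844906, 549755813888, 0, 137438953472, 274877906944, 366503875926, 439804651110, 549755813888⟩ :=
  (FHolds.split4 494780232499 (FHolds.split3 320690891435 (FHolds.split1 503942829397 (FHolds.split4 467292441804 HP_4_0_2_1_c1955 HP_4_0_2_1_c1956) (FHolds.split2 68719476736 (FHolds.split4 467292441804 HP_4_0_2_1_c1957 HP_4_0_2_1_c1958) HP_4_0_2_1_c1959)) HP_4_0_2_1_c1960) (FHolds.split3 320690891435 HP_4_0_2_1_c1961 HP_4_0_2_1_c1962))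

theorem HP_4_0_2_2 : HP 4 0 2 2 ⟨458129844906, 549755813888, 0, 137438953472, 274877906944, 366503875926, 549755813888, 659706976666⟩ :=
  (FHolds.split2 68719476736 (FHolds.split4 604731395277 HP_4_0_2_2_c1963 (FHolds.split1 503942829397 HP_4_0_2_2_c1964 HP_4_0_2_2_c1965)) HP_4_0_2_2_c1966)

theorem HP_4_0_2_3 : HP 4 0 2 3 ⟨458129844906, 549755813888, 0, 137438953472, 274877906944, 366503875926, 659706976665, 879609302221⟩ :=
  (FHolds.split2 68719476736 (FHolds.split4 769658139443 (FHolds.split1 503942829397 HP_4_0_2_3_c1967 (FHolds.split3 320690891435 HP_4_0_2_3_c1968 HP_4_0_2_3_c1969)) HP_4_0_2_3_c1970) HP_4_0_2_3_c1971)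

theorem HP_4_0_2_4 : HP 4 0 2 4 ⟨458129844906, 549755813888, 0, 137438953472, 274877906944, 366503875926, 879609302220, 1099511627776⟩ :=
  HP_4_0_2_4_c1972

theorem HE_4_0_2 : HE 4 0 2 ⟨458129844906, 549755813888, 0, 137438953472, 274877906944, 366503875926, 0, 0⟩ :=
  HE_4_0_2_c1973

theorem HP_4_1_2_0 : HP 4 1 2 0 ⟨458129844906, 549755813888, 137438953472, 274877906944, 274877906944, 366503875926, 329853488332, 439804651111⟩ :=
  HP_4_1_2_0_c1974

theorem HP_4_1_2_1 : HP 4 1 2 1 ⟨458129844906, 549755813888, 137438953472, 274877906944, 274877906944, 366503875926, 439804651110, 549755813888⟩ :=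
  (FHolds.split1 503942829397 (FHolds.split4 494780232499 (FHolds.split2 206158430208 HP_4_1_2_1_c1975 HP_4_1_2_1_c1976) (FHolds.split2 206158430208 HP_4_1_2_1_c1977 HP_4_1_2_1_c1978)) HP_4_1_2_1_c1979)

theorem HP_4_1_2_2 : HP 4 1 2 2 ⟨458129844906, 549755813888, 137438953472, 274877906944, 274877906944, 366503875926, 549755813888, 659706976666⟩ :=
  (FHolds.split3 320690891435 (FHolds.split2 206158430208 HP_4_1_2_2_c1980 HP_4_1_2_2_c1981) (FHolds.split1 503942829397 (FHolds.split2 206158430208 HP_4_1_2_2_c1982 HP_4_1_2_2_c1983) HP_4_1_2_2_c1984))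

theorem HP_4_1_2_3 : HP 4 1 2 3 ⟨458129844906, 549755813888, 137438953472, 274877906944, 274877906944, 366503875926, 659706976665, 879609302221⟩ :=
  (FHolds.split2 206158430208 (FHolds.split3 320690891435 HP_4_1_2_3_c1985 HP_4_1_2_3_c1986) (FHolds.split3 320690891435 (FHolds.split4 769658139443 HP_4_1_2_3_c1987 HP_4_1_2_3_c1988) (FHolds.split1 503942829397 HP_4_1_2_3_c1989 HP_4_1_2_3_c1990)))

theorem HP_4_1_2_4 : HP 4 1 2 4 ⟨458129844906, 549755813888, 137438953472, 274877906944, 274877906944, 366503875926, 879609302220, 1099511627776⟩ :=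
  (FHolds.split2 206158430208 (FHolds.split3 320690891435 HP_4_1_2_4_c1991 HP_4_1_2_4_c1992) (FHolds.split3 320690891435 HP_4_1_2_4_c1993 HP_4_1_2_4_c1994))

theorem HE_4_1_2 : HE 4 1 2 ⟨458129844906, 549755813888, 137438953472, 274877906944, 274877906944, 366503875926, 0, 0⟩ :=
  HE_4_1_2_c1995

theorem HP_4_2_2_0 : HP 4 2 2 0 ⟨458129844906, 549755813888, 274877906944, 366503875926, 274876858368, 366503875926, 329853488332, 439804651111⟩ :=
  (FHolds.split4 384829069721 HP_4_2_2_0_c1996 (FHolds.split1 503942829397 (FHolds.split4 412316860416 HP_4_2_2_0_c1997 (FHolds.split3 320690367147 HP_4_2_2_0_c1998 HP_4_2_2_0_c1999)) HP_4_2_2_0_c2000))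

theorem HP_4_2_2_1 : HP 4 2 2 1 ⟨458129844906, 549755813888, 274877906944, 366503875926, 274876858368, 366503875926, 439804651110, 549755813888⟩ :=
  (FHolds.split1 503942829397 (FHolds.split4 494780232499 (FHolds.split3 320690367147 (FHolds.split2 320690891435 (FHolds.split4 467292441804 HP_4_2_2_1_c2001 HP_4_2_2_1_c2002) HP_4_2_2_1_c2003) (FHolds.split2 320690891435 HP_4_2_2_1_c2004 HP_4_2_2_1_c2005)) (FHolds.split3 320690367147 HP_4_2_2_1_c2006 HP_4_2_2_1_c2007)) (FHolds.split4 494780232499 (FHolds.split3 320690367147 HP_4_2_2_1_c2008 HP_4_2_2_1_c2009) HP_4_2_2_1_c2010))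

theorem HP_4_2_2_2 : HP 4 2 2 2 ⟨458129844906, 549755813888, 274877906944, 366503875926, 274876858368, 366503875926, 549755813888, 659706976666⟩ :=
  (FHolds.split4 604731395277 (FHolds.split1 503942829397 (FHolds.split3 320690367147 HP_4_2_2_2_c2011 HP_4_2_2_2_c2012) HP_4_2_2_2_c2013) (FHolds.split3 320690367147 (FHolds.split2 320690891435 (FHolds.split1 503942829397 HP_4_2_2_2_c2014 HP_4_2_2_2_c2015) HP_4_2_2_2_c2016) (FHolds.split2 320690891435 (FHolds.split1 503942829397 HP_4_2_2_2_c2017 HP_4_2_2_2_c2018) HP_4_2_2_2_c2019)))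

theorem HP_4_2_2_3 : HP 4 2 2 3 ⟨458129844906, 549755813888, 274877906944, 366503875926, 274876858368, 366503875926, 659706976665, 879609302221⟩ :=
  (FHolds.split3 320690367147 (FHolds.split2 320690891435 (FHolds.split4 769658139443 (FHolds.split1 503942829397 HP_4_2_2_3_c2020 HP_4_2_2_3_c2021) (FHolds.split1 503942829397 HP_4_2_2_3_c2022 HP_4_2_2_3_c2023)) HP_4_2_2_3_c2024) (FHolds.split1 503942829397 (FHolds.split2 320690891435 (FHolds.split2 297784399189 HP_4_2_2_3_c2025 HP_4_2_2_3_c2026) HP_4_2_2_3_c2027) (FHolds.split2 320690891435 (FHolds.split4 769658139443 HP_4_2_2_3_c2028 HP_4_2_2_3_c2029) HP_4_2_2_3_c2030)))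

theorem HP_4_2_2_4 : HP 4 2 2 4 ⟨458129844906, 549755813888, 274877906944, 366503875926, 274876858368, 366503875926, 879609302220, 1099511627776⟩ :=
  (FHolds.split3 320690367147 (FHolds.split2 320690891435 (FHolds.split4 989560464998 (FHolds.split1 503942829397 HP_4_2_2_4_c2031 HP_4_2_2_4_c2032) HP_4_2_2_4_c2033) HP_4_2_2_4_c2034) (FHolds.split2 320690891435 (FHolds.split1 503942829397 (FHolds.split1 481036337151 HP_4_2_2_4_c2035 HP_4_2_2_4_c2036) HP_4_2_2_4_c2037) (FHolds.split1 503942829397 HP_4_2_2_4_c2038 HP_4_2_2_4_c2039)))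

theorem HE_4_2_2 : HE 4 2 2 ⟨458129844906, 549755813888, 274877906944, 366503875926, 274876858368, 366503875926, 0, 0⟩ :=
  HE_4_2_2_c2040

theorem HP_4_0_3_0 : HP 4 0 3 0 ⟨458129844906, 549755813888, 0, 137438953472, 366503875925, 458129844907, 329853488332, 439804651111⟩ :=
  HP_4_0_3_0_c2041

theorem HP_4_0_3_1 : HP 4 0 3 1 ⟨458129844906, 549755813888, 0, 137438953472, 366503875925, 458129844907, 439804651110, 549755813888⟩ :=
  (FHolds.split4 494780232499 HP_4_0_3_1_c2042 (FHolds.split3 412316860416 HP_4_0_3_1_c2043 HP_4_0_3_1_c2044))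

theorem HP_4_0_3_2 : HP 4 0 3 2 ⟨458129844906, 549755813888, 0, 137438953472, 366503875925, 458129844907, 549755813888, 659706976666⟩ :=
  (FHolds.split2 68719476736 (FHolds.split4 604731395277 HP_4_0_3_2_c2045 HP_4_0_3_2_c2046) HP_4_0_3_2_c2047)

theorem HP_4_0_3_3 : HP 4 0 3 3 ⟨458129844906, 549755813888, 0, 137438953472, 366503875925, 458129844907, 659706976665, 879609302221⟩ :=
  HP_4_0_3_3_c2048

theorem HP_4_0_3_4 : HP 4 0 3 4 ⟨458129844906, 549755813888, 0, 137438953472, 366503875925, 458129844907, 879609302220, 1099511627776⟩ :=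
  HP_4_0_3_4_c2049

theorem HE_4_0_3 : HE 4 0 3 ⟨458129844906, 549755813888, 0, 137438953472, 366503875925, 458129844907, 0, 0⟩ :=
  HE_4_0_3_c2050

theorem HP_4_1_3_0 : HP 4 1 3 0 ⟨458129844906, 549755813888, 137438953472, 274877906944, 366503875925, 458129844907, 329853488332, 439804651111⟩ :=
  HP_4_1_3_0_c2051

theorem HP_4_1_3_1 : HP 4 1 3 1 ⟨458129844906, 549755813888, 137438953472, 274877906944, 366503875925, 458129844907, 439804651110, 549755813888⟩ :=
  (FHolds.split2 206158430208 HP_4_1_3_1_c2052 (FHolds.split4 494780232499 HP_4_1_3_1_c2053 HP_4_1_3_1_c2054))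

theorem HP_4_1_3_2 : HP 4 1 3 2 ⟨458129844906, 549755813888, 137438953472, 274877906944, 366503875925, 458129844907, 549755813888, 659706976666⟩ :=
  (FHolds.split4 604731395277 (FHolds.split1 503942829397 (FHolds.split2 206158430208 HP_4_1_3_2_c2055 HP_4_1_3_2_c2056) HP_4_1_3_2_c2057) (FHolds.split1 503942829397 (FHolds.split2 206158430208 HP_4_1_3_2_c2058 (FHolds.split2 240518168576 HP_4_1_3_2_c2059 HP_4_1_3_2_c2060)) HP_4_1_3_2_c2061))

theorem HP_4_1_3_3 : HP 4 1 3 3 ⟨458129844906, 549755813888, 137438953472, 274877906944, 366503875925, 458129844907, 659706976665, 879609302221⟩ :=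
  (FHolds.split2 206158430208 HP_4_1_3_3_c2062 (FHolds.split1 503942829397 (FHolds.split4 769658139443 (FHolds.split2 240518168576 HP_4_1_3_3_c2063 HP_4_1_3_3_c2064) (FHolds.split2 240518168576 HP_4_1_3_3_c2065 HP_4_1_3_3_c2066)) HP_4_1_3_3_c2067))

theorem HP_4_1_3_4 : HP 4 1 3 4 ⟨458129844906, 549755813888, 137438953472, 274877906944, 366503875925, 458129844907, 879609302220, 1099511627776⟩ :=
  (FHolds.split2 206158430208 HP_4_1_3_4_c2068 (FHolds.split4 989560464998 HP_4_1_3_4_c2069 HP_4_1_3_4_c2070))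

theorem HE_4_1_3 : HE 4 1 3 ⟨458129844906, 549755813888, 137438953472, 274877906944, 366503875925, 458129844907, 0, 0⟩ :=
  HE_4_1_3_c2071

theorem HP_4_2_3_0 : HP 4 2 3 0 ⟨458129844906, 549755813888, 274877906944, 366503875926, 366503875925, 458129844907, 329853488332, 439804651111⟩ :=
  HP_4_2_3_0_c2072

theorem HP_4_2_3_1 : HP 4 2 3 1 ⟨458129844906, 549755813888, 274877906944, 366503875926, 366503875925, 458129844907, 439804651110, 549755813888⟩ :=
  (FHolds.split1 503942829397 (FHolds.split4 494780232499 (FHolds.split2 320690891435 HP_4_2_3_1_c2073 HP_4_2_3_1_c2074) (FHolds.split2 320690891435 (FHolds.split1 481036337151 HP_4_2_3_1_c2075 HP_4_2_3_1_c2076) (FHolds.split1 481036337151 HP_4_2_3_1_c2077 HP_4_2_3_1_c2078))) HP_4_2_3_1_c2079)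

theorem HP_4_2_3_2 : HP 4 2 3 2 ⟨458129844906, 549755813888, 274877906944, 366503875926, 366503875925, 458129844907, 549755813888, 659706976666⟩ :=
  (FHolds.split2 320690891435 (FHolds.split1 503942829397 (FHolds.split4 604731395277 (FHolds.split3 412316860416 HP_4_2_3_2_c2080 HP_4_2_3_2_c2081) (FHolds.split2 297784399189 HP_4_2_3_2_c2082 HP_4_2_3_2_c2083)) HP_4_2_3_2_c2084) (FHolds.split1 503942829397 (FHolds.split4 604731395277 HP_4_2_3_2_c2085 HP_4_2_3_2_c2086) HP_4_2_3_2_c2087))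

theorem HP_4_2_3_3 : HP 4 2 3 3 ⟨458129844906, 549755813888, 274877906944, 366503875926, 366503875925, 458129844907, 659706976665, 879609302221⟩ :=
  (FHolds.split2 320690891435 (FHolds.split1 503942829397 (FHolds.split2 297784399189 HP_4_2_3_3_c2088 (FHolds.split3 412316860416 HP_4_2_3_3_c2089 HP_4_2_3_3_c2090)) HP_4_2_3_3_c2091) (FHolds.split1 503942829397 HP_4_2_3_3_c2092 HP_4_2_3_3_c2093))

theorem HP_4_2_3_4 : HP 4 2 3 4 ⟨458129844906, 549755813888, 274877906944, 366503875926, 366503875925, 458129844907, 879609302220, 1099511627776⟩ :=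
  (FHolds.split2 320690891435 (FHolds.split4 989560464998 (FHolds.split1 503942829397 (FHolds.split2 297784399189 HP_4_2_3_4_c2094 (FHolds.split1 481036337151 (FHolds.split3 412316860416 HP_4_2_3_4_c2095 HP_4_2_3_4_c2096) HP_4_2_3_4_c2097)) HP_4_2_3_4_c2098) (FHolds.split1 503942829397 HP_4_2_3_4_c2099 HP_4_2_3_4_c2100)) (FHolds.split1 503942829397 (FHolds.split1 481036337151 (FHolds.split2 343597383680 HP_4_2_3_4_c2101 HP_4_2_3_4_c2102) HP_4_2_3_4_c2103) HP_4_2_3_4_c2104))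

theorem HE_4_2_3 : HE 4 2 3 ⟨458129844906, 549755813888, 274877906944, 366503875926, 366503875925, 458129844907, 0, 0⟩ :=
  HE_4_2_3_c2105

theorem HP_4_3_3_0 : HP 4 3 3 0 ⟨458129844906, 549755813888, 366503875925, 458129844907, 366502827349, 458129844907, 329853488332, 439804651111⟩ :=
  HP_4_3_3_0_c2106

theorem HP_4_3_3_1 : HP 4 3 3 1 ⟨458129844906, 549755813888, 366503875925, 458129844907, 366502827349, 458129844907, 439804651110, 549755813888⟩ :=
  (FHolds.split1 503942829397 (FHolds.split4 494780232499 HP_4_3_3_1_c2107 (FHolds.split1 481036337151 (FHolds.split4 522268023193 (FHolds.split2 412316860416 HP_4_3_3_1_c2108 HP_4_3_3_1_c2109) (FHolds.split3 412316336128 HP_4_3_3_1_c2110 (FHolds.split2 412316860416 HP_4_3_3_1_c2111 HP_4_3_3_1_c2112))) HP_4_3_3_1_c2113)) HP_4_3_3_1_c2114)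

theorem HP_4_3_3_2 : HP 4 3 3 2 ⟨458129844906, 549755813888, 366503875925, 458129844907, 366502827349, 458129844907, 549755813888, 659706976666⟩ :=
  (FHolds.split1 503942829397 (FHolds.split4 604731395277 (FHolds.split4 577243604582 (FHolds.split3 412316336128 HP_4_3_3_2_c2115 (FHolds.split2 412316860416 HP_4_3_3_2_c2116 HP_4_3_3_2_c2117)) HP_4_3_3_2_c2118) HP_4_3_3_2_c2119) HP_4_3_3_2_c2120)

theorem HP_4_3_3_3 : HP 4 3 3 3 ⟨458129844906, 549755813888, 366503875925, 458129844907, 366502827349, 458129844907, 659706976665, 879609302221⟩ :=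
  HP_4_3_3_3_c2121

theorem HP_4_3_3_4 : HP 4 3 3 4 ⟨458129844906, 549755813888, 366503875925, 458129844907, 366502827349, 458129844907, 879609302220, 1099511627776⟩ :=
  HP_4_3_3_4_c2122

theorem HE_4_3_3 : HE 4 3 3 ⟨458129844906, 549755813888, 366503875925, 458129844907, 366502827349, 458129844907, 0, 0⟩ :=
  HE_4_3_3_c2123

theorem HP_4_0_4_0 : HP 4 0 4 0 ⟨458129844906, 549755813888, 0, 137438953472, 458129844906, 549755813888, 329853488332, 439804651111⟩ :=
  HP_4_0_4_0_c2124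

theorem HP_4_0_4_1 : HP 4 0 4 1 ⟨458129844906, 549755813888, 0, 137438953472, 458129844906, 549755813888, 439804651110, 549755813888⟩ :=
  HP_4_0_4_1_c2125

theorem HP_4_0_4_2 : HP 4 0 4 2 ⟨458129844906, 549755813888, 0, 137438953472, 458129844906, 549755813888, 549755813888, 659706976666⟩ :=
  (FHolds.split2 68719476736 HP_4_0_4_2_c2126 HP_4_0_4_2_c2127)

theorem HP_4_0_4_3 : HP 4 0 4 3 ⟨458129844906, 549755813888, 0, 137438953472, 458129844906, 549755813888, 659706976665, 879609302221⟩ :=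
  (FHolds.split4 769658139443 HP_4_0_4_3_c2128 HP_4_0_4_3_c2129)

theorem HP_4_0_4_4 : HP 4 0 4 4 ⟨458129844906, 549755813888, 0, 137438953472, 458129844906, 549755813888, 879609302220, 1099511627776⟩ :=
  HP_4_0_4_4_c2130

theorem HE_4_0_4 : HE 4 0 4 ⟨458129844906, 549755813888, 0, 137438953472, 458129844906, 549755813888, 0, 0⟩ :=
  HE_4_0_4_c2131

theorem HP_4_1_4_0 : HP 4 1 4 0 ⟨458129844906, 549755813888, 137438953472, 274877906944, 458129844906, 549755813888, 329853488332, 439804651111⟩ :=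
  HP_4_1_4_0_c2132

theorem HP_4_1_4_1 : HP 4 1 4 1 ⟨458129844906, 549755813888, 137438953472, 274877906944, 458129844906, 549755813888, 439804651110, 549755813888⟩ :=
  HP_4_1_4_1_c2133

theorem HP_4_1_4_2 : HP 4 1 4 2 ⟨458129844906, 549755813888, 137438953472, 274877906944, 458129844906, 549755813888, 549755813888, 659706976666⟩ :=
  (FHolds.split2 206158430208 HP_4_1_4_2_c2134 HP_4_1_4_2_c2135)

theorem HP_4_1_4_3 : HP 4 1 4 3 ⟨458129844906, 549755813888, 137438953472, 274877906944, 458129844906, 549755813888, 659706976665, 879609302221⟩ :=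
  (FHolds.split2 206158430208 HP_4_1_4_3_c2136 (FHolds.split1 503942829397 HP_4_1_4_3_c2137 HP_4_1_4_3_c2138))

theorem HP_4_1_4_4 : HP 4 1 4 4 ⟨458129844906, 549755813888, 137438953472, 274877906944, 458129844906, 549755813888, 879609302220, 1099511627776⟩ :=
  (FHolds.split2 206158430208 HP_4_1_4_4_c2139 HP_4_1_4_4_c2140)

theorem HE_4_1_4 : HE 4 1 4 ⟨458129844906, 549755813888, 137438953472, 274877906944, 458129844906, 549755813888, 0, 0⟩ :=
  HE_4_1_4_c2141

theorem HP_4_2_4_0 : HP 4 2 4 0 ⟨458129844906, 549755813888, 274877906944, 366503875926, 458129844906, 549755813888, 329853488332, 439804651111⟩ :=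
  (FHolds.split4 384829069721 HP_4_2_4_0_c2142 (FHolds.split2 320690891435 HP_4_2_4_0_c2143 HP_4_2_4_0_c2144))

theorem HP_4_2_4_1 : HP 4 2 4 1 ⟨458129844906, 549755813888, 274877906944, 366503875926, 458129844906, 549755813888, 439804651110, 549755813888⟩ :=
  (FHolds.split2 320690891435 (FHolds.split4 494780232499 (FHolds.split1 503942829397 HP_4_2_4_1_c2145 HP_4_2_4_1_c2146) HP_4_2_4_1_c2147) (FHolds.split4 494780232499 HP_4_2_4_1_c2148 HP_4_2_4_1_c2149))

theorem HP_4_2_4_2 : HP 4 2 4 2 ⟨458129844906, 549755813888, 274877906944, 366503875926, 458129844906, 549755813888, 549755813888, 659706976666⟩ :=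
  (FHolds.split2 320690891435 (FHolds.split1 503942829397 (FHolds.split4 604731395277 HP_4_2_4_2_c2150 HP_4_2_4_2_c2151) HP_4_2_4_2_c2152) (FHolds.split1 503942829397 HP_4_2_4_2_c2153 HP_4_2_4_2_c2154))

theorem HP_4_2_4_3 : HP 4 2 4 3 ⟨458129844906, 549755813888, 274877906944, 366503875926, 458129844906, 549755813888, 659706976665, 879609302221⟩ :=
  (FHolds.split4 769658139443 (FHolds.split2 320690891435 (FHolds.split3 503942829397 HP_4_2_4_3_c2155 HP_4_2_4_3_c2156) HP_4_2_4_3_c2157) (FHolds.split2 320690891435 (FHolds.split3 503942829397 (FHolds.split1 503942829397 HP_4_2_4_3_c2158 HP_4_2_4_3_c2159) HP_4_2_4_3_c2160) HP_4_2_4_3_c2161))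

theorem HP_4_2_4_4 : HP 4 2 4 4 ⟨458129844906, 549755813888, 274877906944, 366503875926, 458129844906, 549755813888, 879609302220, 1099511627776⟩ :=
  (FHolds.split2 320690891435 (FHolds.split1 503942829397 (FHolds.split2 297784399189 HP_4_2_4_4_c2162 (FHolds.split3 503942829397 (FHolds.split4 989560464998 HP_4_2_4_4_c2163 HP_4_2_4_4_c2164) HP_4_2_4_4_c2165)) HP_4_2_4_4_c2166) (FHolds.split1 503942829397 HP_4_2_4_4_c2167 HP_4_2_4_4_c2168))

theorem HE_4_2_4 : HE 4 2 4 ⟨458129844906, 549755813888, 274877906944, 366503875926, 458129844906, 549755813888, 0, 0⟩ :=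
  HE_4_2_4_c2169

theorem HP_4_3_4_0 : HP 4 3 4 0 ⟨458129844906, 549755813888, 366503875925, 458129844907, 458129844906, 549755813888, 329853488332, 439804651111⟩ :=
  HP_4_3_4_0_c2170

theorem HP_4_3_4_1 : HP 4 3 4 1 ⟨458129844906, 549755813888, 366503875925, 458129844907, 458129844906, 549755813888, 439804651110, 549755813888⟩ :=
  HP_4_3_4_1_c2171

theorem HP_4_3_4_2 : HP 4 3 4 2 ⟨458129844906, 549755813888, 366503875925, 458129844907, 458129844906, 549755813888, 549755813888, 659706976666⟩ :=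
  (FHolds.split4 604731395277 (FHolds.split1 503942829397 (FHolds.split2 412316860416 HP_4_3_4_2_c2172 (FHolds.split3 503942829397 (FHolds.split4 577243604582 (FHolds.split1 481036337151 (FHolds.split4 563499709235 HP_4_3_4_2_c2173 HP_4_3_4_2_c2174) HP_4_3_4_2_c2175) (FHolds.split1 481036337151 HP_4_3_4_2_c2176 HP_4_3_4_2_c2177)) HP_4_3_4_2_c2178)) HP_4_3_4_2_c2179) (FHolds.split1 503942829397 (FHolds.split3 503942829397 HP_4_3_4_2_c2180 HP_4_3_4_2_c2181) HP_4_3_4_2_c2182))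

theorem HP_4_3_4_3 : HP 4 3 4 3 ⟨458129844906, 549755813888, 366503875925, 458129844907, 458129844906, 549755813888, 659706976665, 879609302221⟩ :=
  HP_4_3_4_3_c2183

theorem HP_4_3_4_4 : HP 4 3 4 4 ⟨458129844906, 549755813888, 366503875925, 458129844907, 458129844906, 549755813888, 879609302220, 1099511627776⟩ :=
  HP_4_3_4_4_c2184

theorem HE_4_3_4 : HE 4 3 4 ⟨458129844906, 549755813888, 366503875925, 458129844907, 458129844906, 549755813888, 0, 0⟩ :=
  HE_4_3_4_c2185

theorem HP_4_4_4_0 : HP 4 4 4 0 ⟨458129844906, 549755813888, 458129844906, 549755813888, 458128796330, 549755813888, 329853488332, 439804651111⟩ :=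
  HP_4_4_4_0_c2186

theorem HP_4_4_4_1 : HP 4 4 4 1 ⟨458129844906, 549755813888, 458129844906, 549755813888, 458128796330, 549755813888, 439804651110, 549755813888⟩ :=
  HP_4_4_4_1_c2187

theorem HP_4_4_4_2 : HP 4 4 4 2 ⟨458129844906, 549755813888, 458129844906, 549755813888, 458128796330, 549755813888, 549755813888, 659706976666⟩ :=
  (FHolds.split4 604731395277 (FHolds.split1 503942829397 (FHolds.split3 503942305109 (FHolds.split2 503942829397 (FHolds.split4 577243604582 HP_4_4_4_2_c2188 (FHolds.split1 481036337151 HP_4_4_4_2_c2189 HP_4_4_4_2_c2190)) HP_4_4_4_2_c2191) HP_4_4_4_2_c2192) HP_4_4_4_2_c2193) (FHolds.split1 503942829397 HP_4_4_4_2_c2194 HP_4_4_4_2_c2195))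

theorem HP_4_4_4_3 : HP 4 4 4 3 ⟨458129844906, 549755813888, 458129844906, 549755813888, 458128796330, 549755813888, 659706976665, 879609302221⟩ :=
  (FHolds.split4 769658139443 (FHolds.split4 714682558054 HP_4_4_4_3_c2196 HP_4_4_4_3_c2197) HP_4_4_4_3_c2198)

theorem HP_4_4_4_4 : HP 4 4 4 4 ⟨458129844906, 549755813888, 458129844906, 549755813888, 458128796330, 549755813888, 879609302220, 1099511627776⟩ :=
  HP_4_4_4_4_c2199

theorem HE_4_4_4 : HE 4 4 4 ⟨458129844906, 549755813888, 458129844906, 549755813888, 458128796330, 549755813888, 0, 0⟩ :=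
  HE_4_4_4_c2200

theorem HP_4_0_5_0 : HP 4 0 5 0 ⟨458129844906, 549755813888, 0, 137438953472, 549755813888, 641381782870, 329853488332, 439804651111⟩ :=
  HP_4_0_5_0_c2201

theorem HP_4_0_5_1 : HP 4 0 5 1 ⟨458129844906, 549755813888, 0, 137438953472, 549755813888, 641381782870, 439804651110, 549755813888⟩ :=
  HP_4_0_5_1_c2202

theorem HP_4_0_5_2 : HP 4 0 5 2 ⟨458129844906, 549755813888, 0, 137438953472, 549755813888, 641381782870, 549755813888, 659706976666⟩ :=
  HP_4_0_5_2_c2203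

theorem HP_4_0_5_3 : HP 4 0 5 3 ⟨458129844906, 549755813888, 0, 137438953472, 549755813888, 641381782870, 659706976665, 879609302221⟩ :=
  HP_4_0_5_3_c2204

theorem HP_4_0_5_4 : HP 4 0 5 4 ⟨458129844906, 549755813888, 0, 137438953472, 549755813888, 641381782870, 879609302220, 1099511627776⟩ :=
  HP_4_0_5_4_c2205

theorem HE_4_0_5 : HE 4 0 5 ⟨458129844906, 549755813888, 0, 137438953472, 549755813888, 641381782870, 0, 0⟩ :=
  HE_4_0_5_c2206

theorem HP_4_1_5_0 : HP 4 1 5 0 ⟨458129844906, 549755813888, 137438953472, 274877906944, 549755813888, 641381782870, 329853488332, 439804651111⟩ :=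
  HP_4_1_5_0_c2207

theorem HP_4_1_5_1 : HP 4 1 5 1 ⟨458129844906, 549755813888, 137438953472, 274877906944, 549755813888, 641381782870, 439804651110, 549755813888⟩ :=
  HP_4_1_5_1_c2208

theorem HP_4_1_5_2 : HP 4 1 5 2 ⟨458129844906, 549755813888, 137438953472, 274877906944, 549755813888, 641381782870, 549755813888, 659706976666⟩ :=
  HP_4_1_5_2_c2209

theorem HP_4_1_5_3 : HP 4 1 5 3 ⟨458129844906, 549755813888, 137438953472, 274877906944, 549755813888, 641381782870, 659706976665, 879609302221⟩ :=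
  HP_4_1_5_3_c2210

theorem HP_4_1_5_4 : HP 4 1 5 4 ⟨458129844906, 549755813888, 137438953472, 274877906944, 549755813888, 641381782870, 879609302220, 1099511627776⟩ :=
  HP_4_1_5_4_c2211

theorem HE_4_1_5 : HE 4 1 5 ⟨458129844906, 549755813888, 137438953472, 274877906944, 549755813888, 641381782870, 0, 0⟩ :=
  HE_4_1_5_c2212

theorem HP_4_2_5_0 : HP 4 2 5 0 ⟨458129844906, 549755813888, 274877906944, 366503875926, 549755813888, 641381782870, 329853488332, 439804651111⟩ :=
  (FHolds.split4 384829069721 HP_4_2_5_0_c2213 (FHolds.split2 320690891435 (FHolds.split1 503942829397 (FHolds.split4 412316860416 HP_4_2_5_0_c2214 (FHolds.split2 297784399189 HP_4_2_5_0_c2215 (FHolds.split1 481036337151 HP_4_2_5_0_c2216 HP_4_2_5_0_c2217))) HP_4_2_5_0_c2218) (FHolds.split4 412316860416 HP_4_2_5_0_c2219 HP_4_2_5_0_c2220)))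

theorem HP_4_2_5_1 : HP 4 2 5 1 ⟨458129844906, 549755813888, 274877906944, 366503875926, 549755813888, 641381782870, 439804651110, 549755813888⟩ :=
  (FHolds.split2 320690891435 (FHolds.split1 503942829397 HP_4_2_5_1_c2221 HP_4_2_5_1_c2222) HP_4_2_5_1_c2223)

theorem HP_4_2_5_2 : HP 4 2 5 2 ⟨458129844906, 549755813888, 274877906944, 366503875926, 549755813888, 641381782870, 549755813888, 659706976666⟩ :=
  (FHolds.split2 320690891435 HP_4_2_5_2_c2224 HP_4_2_5_2_c2225)

theorem HP_4_2_5_3 : HP 4 2 5 3 ⟨458129844906, 549755813888, 274877906944, 366503875926, 549755813888, 641381782870, 659706976665, 879609302221⟩ :=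
  (FHolds.split2 320690891435 HP_4_2_5_3_c2226 HP_4_2_5_3_c2227)

theorem HP_4_2_5_4 : HP 4 2 5 4 ⟨458129844906, 549755813888, 274877906944, 366503875926, 549755813888, 641381782870, 879609302220, 1099511627776⟩ :=
  HP_4_2_5_4_c2228

theorem HE_4_2_5 : HE 4 2 5 ⟨458129844906, 549755813888, 274877906944, 366503875926, 549755813888, 641381782870, 0, 0⟩ :=
  HE_4_2_5_c2229

theorem HP_4_3_5_0 : HP 4 3 5 0 ⟨458129844906, 549755813888, 366503875925, 458129844907, 549755813888, 641381782870, 329853488332, 439804651111⟩ :=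
  HP_4_3_5_0_c2230

theorem HP_4_3_5_1 : HP 4 3 5 1 ⟨458129844906, 549755813888, 366503875925, 458129844907, 549755813888, 641381782870, 439804651110, 549755813888⟩ :=
  HP_4_3_5_1_c2231

theorem HP_4_3_5_2 : HP 4 3 5 2 ⟨458129844906, 549755813888, 366503875925, 458129844907, 549755813888, 641381782870, 549755813888, 659706976666⟩ :=
  HP_4_3_5_2_c2232

theorem HP_4_3_5_3 : HP 4 3 5 3 ⟨458129844906, 549755813888, 366503875925, 458129844907, 549755813888, 641381782870, 659706976665, 879609302221⟩ :=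
  HP_4_3_5_3_c2233

theorem HP_4_3_5_4 : HP 4 3 5 4 ⟨458129844906, 549755813888, 366503875925, 458129844907, 549755813888, 641381782870, 879609302220, 1099511627776⟩ :=
  HP_4_3_5_4_c2234

theorem HE_4_3_5 : HE 4 3 5 ⟨458129844906, 549755813888, 366503875925, 458129844907, 549755813888, 641381782870, 0, 0⟩ :=
  HE_4_3_5_c2235

theorem HP_4_4_5_0 : HP 4 4 5 0 ⟨458129844906, 549755813888, 458129844906, 549755813888, 549755813888, 641381782870, 329853488332, 439804651111⟩ :=
  HP_4_4_5_0_c2236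

theorem HP_4_4_5_1 : HP 4 4 5 1 ⟨458129844906, 549755813888, 458129844906, 549755813888, 549755813888, 641381782870, 439804651110, 549755813888⟩ :=
  HP_4_4_5_1_c2237

theorem HP_4_4_5_2 : HP 4 4 5 2 ⟨458129844906, 549755813888, 458129844906, 549755813888, 549755813888, 641381782870, 549755813888, 659706976666⟩ :=
  HP_4_4_5_2_c2238

theorem HP_4_4_5_3 : HP 4 4 5 3 ⟨458129844906, 549755813888, 458129844906, 549755813888, 549755813888, 641381782870, 659706976665, 879609302221⟩ :=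
  (FHolds.split4 769658139443 HP_4_4_5_3_c2239 HP_4_4_5_3_c2240)

theorem HP_4_4_5_4 : HP 4 4 5 4 ⟨458129844906, 549755813888, 458129844906, 549755813888, 549755813888, 641381782870, 879609302220, 1099511627776⟩ :=
  HP_4_4_5_4_c2241

theorem HE_4_4_5 : HE 4 4 5 ⟨458129844906, 549755813888, 458129844906, 549755813888, 549755813888, 641381782870, 0, 0⟩ :=
  HE_4_4_5_c2242

theorem HP_4_5_5_0 : HP 4 5 5 0 ⟨458129844906, 549755813888, 549755813888, 641381782870, 549754765312, 641381782870, 329853488332, 439804651111⟩ :=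
  HP_4_5_5_0_c2243

theorem HP_4_5_5_1 : HP 4 5 5 1 ⟨458129844906, 549755813888, 549755813888, 641381782870, 549754765312, 641381782870, 439804651110, 549755813888⟩ :=
  HP_4_5_5_1_c2244

theorem HP_4_5_5_2 : HP 4 5 5 2 ⟨458129844906, 549755813888, 549755813888, 641381782870, 549754765312, 641381782870, 549755813888, 659706976666⟩ :=
  HP_4_5_5_2_c2245

theorem HP_4_5_5_3 : HP 4 5 5 3 ⟨458129844906, 549755813888, 549755813888, 641381782870, 549754765312, 641381782870, 659706976665, 879609302221⟩ :=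
  HP_4_5_5_3_c2246

theorem HP_4_5_5_4 : HP 4 5 5 4 ⟨458129844906, 549755813888, 549755813888, 641381782870, 549754765312, 641381782870, 879609302220, 1099511627776⟩ :=
  HP_4_5_5_4_c2247

theorem HE_4_5_5 : HE 4 5 5 ⟨458129844906, 549755813888, 549755813888, 641381782870, 549754765312, 641381782870, 0, 0⟩ :=
  HE_4_5_5_c2248

theorem HP_5_0_0_0 : HP 5 0 0 0 ⟨549755813888, 641381782870, 0, 137438953472, (-1048576), 137438953472, 329853488332, 439804651111⟩ :=
  HP_5_0_0_0_c2249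

theorem HP_5_0_0_1 : HP 5 0 0 1 ⟨549755813888, 641381782870, 0, 137438953472, (-1048576), 137438953472, 439804651110, 549755813888⟩ :=
  HP_5_0_0_1_c2250

theorem HP_5_0_0_2 : HP 5 0 0 2 ⟨549755813888, 641381782870, 0, 137438953472, (-1048576), 137438953472, 549755813888, 659706976666⟩ :=
  HP_5_0_0_2_c2251

theorem HP_5_0_0_3 : HP 5 0 0 3 ⟨549755813888, 641381782870, 0, 137438953472, (-1048576), 137438953472, 659706976665, 879609302221⟩ :=
  HP_5_0_0_3_c2252

theorem HP_5_0_0_4 : HP 5 0 0 4 ⟨549755813888, 641381782870, 0, 137438953472, (-1048576), 137438953472, 879609302220, 1099511627776⟩ :=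
  HP_5_0_0_4_c2253

theorem HE_5_0_0 : HE 5 0 0 ⟨549755813888, 641381782870, 0, 137438953472, (-1048576), 137438953472, 0, 0⟩ :=
  HE_5_0_0_c2254

theorem HP_5_0_1_0 : HP 5 0 1 0 ⟨549755813888, 641381782870, 0, 137438953472, 137438953472, 274877906944, 329853488332, 439804651111⟩ :=
  HP_5_0_1_0_c2255

theorem HP_5_0_1_1 : HP 5 0 1 1 ⟨549755813888, 641381782870, 0, 137438953472, 137438953472, 274877906944, 439804651110, 549755813888⟩ :=
  HP_5_0_1_1_c2256

theorem HP_5_0_1_2 : HP 5 0 1 2 ⟨549755813888, 641381782870, 0, 137438953472, 137438953472, 274877906944, 549755813888, 659706976666⟩ :=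
  HP_5_0_1_2_c2257

theorem HP_5_0_1_3 : HP 5 0 1 3 ⟨549755813888, 641381782870, 0, 137438953472, 137438953472, 274877906944, 659706976665, 879609302221⟩ :=
  HP_5_0_1_3_c2258

theorem HP_5_0_1_4 : HP 5 0 1 4 ⟨549755813888, 641381782870, 0, 137438953472, 137438953472, 274877906944, 879609302220, 1099511627776⟩ :=
  HP_5_0_1_4_c2259

theorem HE_5_0_1 : HE 5 0 1 ⟨549755813888, 641381782870, 0, 137438953472, 137438953472, 274877906944, 0, 0⟩ :=
  HE_5_0_1_c2260

theorem HP_5_1_1_0 : HP 5 1 1 0 ⟨549755813888, 641381782870, 137438953472, 274877906944, 137437904896, 274877906944, 329853488332, 439804651111⟩ :=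
  HP_5_1_1_0_c2261

theorem HP_5_1_1_1 : HP 5 1 1 1 ⟨549755813888, 641381782870, 137438953472, 274877906944, 137437904896, 274877906944, 439804651110, 549755813888⟩ :=
  (FHolds.split4 494780232499 HP_5_1_1_1_c2262 HP_5_1_1_1_c2263)

theorem HP_5_1_1_2 : HP 5 1 1 2 ⟨549755813888, 641381782870, 137438953472, 274877906944, 137437904896, 274877906944, 549755813888, 659706976666⟩ :=
  HP_5_1_1_2_c2264

theorem HP_5_1_1_3 : HP 5 1 1 3 ⟨549755813888, 641381782870, 137438953472, 274877906944, 137437904896, 274877906944, 659706976665, 879609302221⟩ :=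
  HP_5_1_1_3_c2265

theorem HP_5_1_1_4 : HP 5 1 1 4 ⟨549755813888, 641381782870, 137438953472, 274877906944, 137437904896, 274877906944, 879609302220, 1099511627776⟩ :=
  HP_5_1_1_4_c2266

theorem HE_5_1_1 : HE 5 1 1 ⟨549755813888, 641381782870, 137438953472, 274877906944, 137437904896, 274877906944, 0, 0⟩ :=
  HE_5_1_1_c2267

theorem HP_5_0_2_0 : HP 5 0 2 0 ⟨549755813888, 641381782870, 0, 137438953472, 274877906944, 366503875926, 329853488332, 439804651111⟩ :=
  HP_5_0_2_0_c2268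

theorem HP_5_0_2_1 : HP 5 0 2 1 ⟨549755813888, 641381782870, 0, 137438953472, 274877906944, 366503875926, 439804651110, 549755813888⟩ :=
  HP_5_0_2_1_c2269

theorem HP_5_0_2_2 : HP 5 0 2 2 ⟨549755813888, 641381782870, 0, 137438953472, 274877906944, 366503875926, 549755813888, 659706976666⟩ :=
  (FHolds.split1 595568798379 (FHolds.split3 320690891435 HP_5_0_2_2_c2270 HP_5_0_2_2_c2271) HP_5_0_2_2_c2272)

theorem HP_5_0_2_3 : HP 5 0 2 3 ⟨549755813888, 641381782870, 0, 137438953472, 274877906944, 366503875926, 659706976665, 879609302221⟩ :=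
  (FHolds.split1 595568798379 (FHolds.split3 320690891435 HP_5_0_2_3_c2273 HP_5_0_2_3_c2274) HP_5_0_2_3_c2275)

theorem HP_5_0_2_4 : HP 5 0 2 4 ⟨549755813888, 641381782870, 0, 137438953472, 274877906944, 366503875926, 879609302220, 1099511627776⟩ :=
  HP_5_0_2_4_c2276

theorem HE_5_0_2 : HE 5 0 2 ⟨549755813888, 641381782870, 0, 137438953472, 274877906944, 366503875926, 0, 0⟩ :=
  HE_5_0_2_c2277

theorem HP_5_1_2_0 : HP 5 1 2 0 ⟨549755813888, 641381782870, 137438953472, 274877906944, 274877906944, 366503875926, 329853488332, 439804651111⟩ :=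
  HP_5_1_2_0_c2278

theorem HP_5_1_2_1 : HP 5 1 2 1 ⟨549755813888, 641381782870, 137438953472, 274877906944, 274877906944, 366503875926, 439804651110, 549755813888⟩ :=
  (FHolds.split4 494780232499 HP_5_1_2_1_c2279 HP_5_1_2_1_c2280)

theorem HP_5_1_2_2 : HP 5 1 2 2 ⟨549755813888, 641381782870, 137438953472, 274877906944, 274877906944, 366503875926, 549755813888, 659706976666⟩ :=
  (FHolds.split4 604731395277 HP_5_1_2_2_c2281 HP_5_1_2_2_c2282)

theorem HP_5_1_2_3 : HP 5 1 2 3 ⟨549755813888, 641381782870, 137438953472, 274877906944, 274877906944, 366503875926, 659706976665, 879609302221⟩ :=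
  (FHolds.split1 595568798379 (FHolds.split2 206158430208 HP_5_1_2_3_c2283 HP_5_1_2_3_c2284) HP_5_1_2_3_c2285)

theorem HP_5_1_2_4 : HP 5 1 2 4 ⟨549755813888, 641381782870, 137438953472, 274877906944, 274877906944, 366503875926, 879609302220, 1099511627776⟩ :=
  HP_5_1_2_4_c2286

theorem HE_5_1_2 : HE 5 1 2 ⟨549755813888, 641381782870, 137438953472, 274877906944, 274877906944, 366503875926, 0, 0⟩ :=
  HE_5_1_2_c2287

theorem HP_5_2_2_0 : HP 5 2 2 0 ⟨549755813888, 641381782870, 274877906944, 366503875926, 274876858368, 366503875926, 329853488332, 439804651111⟩ :=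
  HP_5_2_2_0_c2288

theorem HP_5_2_2_1 : HP 5 2 2 1 ⟨549755813888, 641381782870, 274877906944, 366503875926, 274876858368, 366503875926, 439804651110, 549755813888⟩ :=
  HP_5_2_2_1_c2289

theorem HP_5_2_2_2 : HP 5 2 2 2 ⟨549755813888, 641381782870, 274877906944, 366503875926, 274876858368, 366503875926, 549755813888, 659706976666⟩ :=
  (FHolds.split1 595568798379 (FHolds.split4 604731395277 HP_5_2_2_2_c2290 HP_5_2_2_2_c2291) HP_5_2_2_2_c2292)

theorem HP_5_2_2_3 : HP 5 2 2 3 ⟨549755813888, 641381782870, 274877906944, 366503875926, 274876858368, 366503875926, 659706976665, 879609302221⟩ :=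
  (FHolds.split1 595568798379 (FHolds.split4 769658139443 HP_5_2_2_3_c2293 HP_5_2_2_3_c2294) HP_5_2_2_3_c2295)

theorem HP_5_2_2_4 : HP 5 2 2 4 ⟨549755813888, 641381782870, 274877906944, 366503875926, 274876858368, 366503875926, 879609302220, 1099511627776⟩ :=
  (FHolds.split1 595568798379 HP_5_2_2_4_c2296 HP_5_2_2_4_c2297)

theorem HE_5_2_2 : HE 5 2 2 ⟨549755813888, 641381782870, 274877906944, 366503875926, 274876858368, 366503875926, 0, 0⟩ :=
  HE_5_2_2_c2298

theorem HP_5_0_3_0 : HP 5 0 3 0 ⟨549755813888, 641381782870, 0, 137438953472, 366503875925, 458129844907, 329853488332, 439804651111⟩ :=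
  HP_5_0_3_0_c2299

theorem HP_5_0_3_1 : HP 5 0 3 1 ⟨549755813888, 641381782870, 0, 137438953472, 366503875925, 458129844907, 439804651110, 549755813888⟩ :=
  HP_5_0_3_1_c2300

theorem HP_5_0_3_2 : HP 5 0 3 2 ⟨549755813888, 641381782870, 0, 137438953472, 366503875925, 458129844907, 549755813888, 659706976666⟩ :=
  (FHolds.split1 595568798379 HP_5_0_3_2_c2301 HP_5_0_3_2_c2302)

theorem HP_5_0_3_3 : HP 5 0 3 3 ⟨549755813888, 641381782870, 0, 137438953472, 366503875925, 458129844907, 659706976665, 879609302221⟩ :=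
  HP_5_0_3_3_c2303

theorem HP_5_0_3_4 : HP 5 0 3 4 ⟨549755813888, 641381782870, 0, 137438953472, 366503875925, 458129844907, 879609302220, 1099511627776⟩ :=
  HP_5_0_3_4_c2304

theorem HE_5_0_3 : HE 5 0 3 ⟨549755813888, 641381782870, 0, 137438953472, 366503875925, 458129844907, 0, 0⟩ :=
  HE_5_0_3_c2305

theorem HP_5_1_3_0 : HP 5 1 3 0 ⟨549755813888, 641381782870, 137438953472, 274877906944, 366503875925, 458129844907, 329853488332, 439804651111⟩ :=
  HP_5_1_3_0_c2306

theorem HP_5_1_3_1 : HP 5 1 3 1 ⟨549755813888, 641381782870, 137438953472, 274877906944, 366503875925, 458129844907, 439804651110, 549755813888⟩ :=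
  HP_5_1_3_1_c2307

theorem HP_5_1_3_2 : HP 5 1 3 2 ⟨549755813888, 641381782870, 137438953472, 274877906944, 366503875925, 458129844907, 549755813888, 659706976666⟩ :=
  HP_5_1_3_2_c2308

theorem HP_5_1_3_3 : HP 5 1 3 3 ⟨549755813888, 641381782870, 137438953472, 274877906944, 366503875925, 458129844907, 659706976665, 879609302221⟩ :=
  HP_5_1_3_3_c2309

theorem HP_5_1_3_4 : HP 5 1 3 4 ⟨549755813888, 641381782870, 137438953472, 274877906944, 366503875925, 458129844907, 879609302220, 1099511627776⟩ :=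
  HP_5_1_3_4_c2310

theorem HE_5_1_3 : HE 5 1 3 ⟨549755813888, 641381782870, 137438953472, 274877906944, 366503875925, 458129844907, 0, 0⟩ :=
  HE_5_1_3_c2311

theorem HP_5_2_3_0 : HP 5 2 3 0 ⟨549755813888, 641381782870, 274877906944, 366503875926, 366503875925, 458129844907, 329853488332, 439804651111⟩ :=
  HP_5_2_3_0_c2312

theorem HP_5_2_3_1 : HP 5 2 3 1 ⟨549755813888, 641381782870, 274877906944, 366503875926, 366503875925, 458129844907, 439804651110, 549755813888⟩ :=
  HP_5_2_3_1_c2313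

theorem HP_5_2_3_2 : HP 5 2 3 2 ⟨549755813888, 641381782870, 274877906944, 366503875926, 366503875925, 458129844907, 549755813888, 659706976666⟩ :=
  (FHolds.split1 595568798379 HP_5_2_3_2_c2314 HP_5_2_3_2_c2315)

theorem HP_5_2_3_3 : HP 5 2 3 3 ⟨549755813888, 641381782870, 274877906944, 366503875926, 366503875925, 458129844907, 659706976665, 879609302221⟩ :=
  (FHolds.split4 769658139443 HP_5_2_3_3_c2316 HP_5_2_3_3_c2317)

theorem HP_5_2_3_4 : HP 5 2 3 4 ⟨549755813888, 641381782870, 274877906944, 366503875926, 366503875925, 458129844907, 879609302220, 1099511627776⟩ :=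
  (FHolds.split1 595568798379 HP_5_2_3_4_c2318 HP_5_2_3_4_c2319)

theorem HE_5_2_3 : HE 5 2 3 ⟨549755813888, 641381782870, 274877906944, 366503875926, 366503875925, 458129844907, 0, 0⟩ :=
  HE_5_2_3_c2320

theorem HP_5_3_3_0 : HP 5 3 3 0 ⟨549755813888, 641381782870, 366503875925, 458129844907, 366502827349, 458129844907, 329853488332, 439804651111⟩ :=
  HP_5_3_3_0_c2321

theorem HP_5_3_3_1 : HP 5 3 3 1 ⟨549755813888, 641381782870, 366503875925, 458129844907, 366502827349, 458129844907, 439804651110, 549755813888⟩ :=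
  HP_5_3_3_1_c2322

theorem HP_5_3_3_2 : HP 5 3 3 2 ⟨549755813888, 641381782870, 366503875925, 458129844907, 366502827349, 458129844907, 549755813888, 659706976666⟩ :=
  HP_5_3_3_2_c2323

theorem HP_5_3_3_3 : HP 5 3 3 3 ⟨549755813888, 641381782870, 366503875925, 458129844907, 366502827349, 458129844907, 659706976665, 879609302221⟩ :=
  HP_5_3_3_3_c2324

theorem HP_5_3_3_4 : HP 5 3 3 4 ⟨549755813888, 641381782870, 366503875925, 458129844907, 366502827349, 458129844907, 879609302220, 1099511627776⟩ :=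
  HP_5_3_3_4_c2325

theorem HE_5_3_3 : HE 5 3 3 ⟨549755813888, 641381782870, 366503875925, 458129844907, 366502827349, 458129844907, 0, 0⟩ :=
  HE_5_3_3_c2326

theorem HP_5_0_4_0 : HP 5 0 4 0 ⟨549755813888, 641381782870, 0, 137438953472, 458129844906, 549755813888, 329853488332, 439804651111⟩ :=
  HP_5_0_4_0_c2327

theorem HP_5_0_4_1 : HP 5 0 4 1 ⟨549755813888, 641381782870, 0, 137438953472, 458129844906, 549755813888, 439804651110, 549755813888⟩ :=
  HP_5_0_4_1_c2328

theorem HP_5_0_4_2 : HP 5 0 4 2 ⟨549755813888, 641381782870, 0, 137438953472, 458129844906, 549755813888, 549755813888, 659706976666⟩ :=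
  HP_5_0_4_2_c2329

theorem HP_5_0_4_3 : HP 5 0 4 3 ⟨549755813888, 641381782870, 0, 137438953472, 458129844906, 549755813888, 659706976665, 879609302221⟩ :=
  HP_5_0_4_3_c2330

theorem HP_5_0_4_4 : HP 5 0 4 4 ⟨549755813888, 641381782870, 0, 137438953472, 458129844906, 549755813888, 879609302220, 1099511627776⟩ :=
  HP_5_0_4_4_c2331

theorem HE_5_0_4 : HE 5 0 4 ⟨549755813888, 641381782870, 0, 137438953472, 458129844906, 549755813888, 0, 0⟩ :=
  HE_5_0_4_c2332

theorem HP_5_1_4_0 : HP 5 1 4 0 ⟨549755813888, 641381782870, 137438953472, 274877906944, 458129844906, 549755813888, 329853488332, 439804651111⟩ :=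
  HP_5_1_4_0_c2333

theorem HP_5_1_4_1 : HP 5 1 4 1 ⟨549755813888, 641381782870, 137438953472, 274877906944, 458129844906, 549755813888, 439804651110, 549755813888⟩ :=
  HP_5_1_4_1_c2334

theorem HP_5_1_4_2 : HP 5 1 4 2 ⟨549755813888, 641381782870, 137438953472, 274877906944, 458129844906, 549755813888, 549755813888, 659706976666⟩ :=
  HP_5_1_4_2_c2335

theorem HP_5_1_4_3 : HP 5 1 4 3 ⟨549755813888, 641381782870, 137438953472, 274877906944, 458129844906, 549755813888, 659706976665, 879609302221⟩ :=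
  HP_5_1_4_3_c2336

theorem HP_5_1_4_4 : HP 5 1 4 4 ⟨549755813888, 641381782870, 137438953472, 274877906944, 458129844906, 549755813888, 879609302220, 1099511627776⟩ :=
  HP_5_1_4_4_c2337

theorem HE_5_1_4 : HE 5 1 4 ⟨549755813888, 641381782870, 137438953472, 274877906944, 458129844906, 549755813888, 0, 0⟩ :=
  HE_5_1_4_c2338

theorem HP_5_2_4_0 : HP 5 2 4 0 ⟨549755813888, 641381782870, 274877906944, 366503875926, 458129844906, 549755813888, 329853488332, 439804651111⟩ :=
  HP_5_2_4_0_c2339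

theorem HP_5_2_4_1 : HP 5 2 4 1 ⟨549755813888, 641381782870, 274877906944, 366503875926, 458129844906, 549755813888, 439804651110, 549755813888⟩ :=
  HP_5_2_4_1_c2340

theorem HP_5_2_4_2 : HP 5 2 4 2 ⟨549755813888, 641381782870, 274877906944, 366503875926, 458129844906, 549755813888, 549755813888, 659706976666⟩ :=
  HP_5_2_4_2_c2341

theorem HP_5_2_4_3 : HP 5 2 4 3 ⟨549755813888, 641381782870, 274877906944, 366503875926, 458129844906, 549755813888, 659706976665, 879609302221⟩ :=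
  (FHolds.split1 595568798379 (FHolds.split4 769658139443 HP_5_2_4_3_c2342 HP_5_2_4_3_c2343) HP_5_2_4_3_c2344)

theorem HP_5_2_4_4 : HP 5 2 4 4 ⟨549755813888, 641381782870, 274877906944, 366503875926, 458129844906, 549755813888, 879609302220, 1099511627776⟩ :=
  HP_5_2_4_4_c2345

theorem HE_5_2_4 : HE 5 2 4 ⟨549755813888, 641381782870, 274877906944, 366503875926, 458129844906, 549755813888, 0, 0⟩ :=
  HE_5_2_4_c2346

theorem HP_5_3_4_0 : HP 5 3 4 0 ⟨549755813888, 641381782870, 366503875925, 458129844907, 458129844906, 549755813888, 329853488332, 439804651111⟩ :=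
  HP_5_3_4_0_c2347

theorem HP_5_3_4_1 : HP 5 3 4 1 ⟨549755813888, 641381782870, 366503875925, 458129844907, 458129844906, 549755813888, 439804651110, 549755813888⟩ :=
  HP_5_3_4_1_c2348

theorem HP_5_3_4_2 : HP 5 3 4 2 ⟨549755813888, 641381782870, 366503875925, 458129844907, 458129844906, 549755813888, 549755813888, 659706976666⟩ :=
  HP_5_3_4_2_c2349

theorem HP_5_3_4_3 : HP 5 3 4 3 ⟨549755813888, 641381782870, 366503875925, 458129844907, 458129844906, 549755813888, 659706976665, 879609302221⟩ :=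
  HP_5_3_4_3_c2350

theorem HP_5_3_4_4 : HP 5 3 4 4 ⟨549755813888, 641381782870, 366503875925, 458129844907, 458129844906, 549755813888, 879609302220, 1099511627776⟩ :=
  HP_5_3_4_4_c2351

theorem HE_5_3_4 : HE 5 3 4 ⟨549755813888, 641381782870, 366503875925, 458129844907, 458129844906, 549755813888, 0, 0⟩ :=
  HE_5_3_4_c2352

theorem HP_5_4_4_0 : HP 5 4 4 0 ⟨549755813888, 641381782870, 458129844906, 549755813888, 458128796330, 549755813888, 329853488332, 439804651111⟩ :=
  HP_5_4_4_0_c2353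

theorem HP_5_4_4_1 : HP 5 4 4 1 ⟨549755813888, 641381782870, 458129844906, 549755813888, 458128796330, 549755813888, 439804651110, 549755813888⟩ :=
  HP_5_4_4_1_c2354

theorem HP_5_4_4_2 : HP 5 4 4 2 ⟨549755813888, 641381782870, 458129844906, 549755813888, 458128796330, 549755813888, 549755813888, 659706976666⟩ :=
  HP_5_4_4_2_c2355

theorem HP_5_4_4_3 : HP 5 4 4 3 ⟨549755813888, 641381782870, 458129844906, 549755813888, 458128796330, 549755813888, 659706976665, 879609302221⟩ :=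
  (FHolds.split1 595568798379 (FHolds.split4 769658139443 HP_5_4_4_3_c2356 HP_5_4_4_3_c2357) HP_5_4_4_3_c2358)

theorem HP_5_4_4_4 : HP 5 4 4 4 ⟨549755813888, 641381782870, 458129844906, 549755813888, 458128796330, 549755813888, 879609302220, 1099511627776⟩ :=
  HP_5_4_4_4_c2359

theorem HE_5_4_4 : HE 5 4 4 ⟨549755813888, 641381782870, 458129844906, 549755813888, 458128796330, 549755813888, 0, 0⟩ :=
  HE_5_4_4_c2360

theorem HP_5_0_5_0 : HP 5 0 5 0 ⟨549755813888, 641381782870, 0, 137438953472, 549755813888, 641381782870, 329853488332, 439804651111⟩ :=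
  HP_5_0_5_0_c2361

theorem HP_5_0_5_1 : HP 5 0 5 1 ⟨549755813888, 641381782870, 0, 137438953472, 549755813888, 641381782870, 439804651110, 549755813888⟩ :=
  HP_5_0_5_1_c2362

theorem HP_5_0_5_2 : HP 5 0 5 2 ⟨549755813888, 641381782870, 0, 137438953472, 549755813888, 641381782870, 549755813888, 659706976666⟩ :=
  HP_5_0_5_2_c2363

theorem HP_5_0_5_3 : HP 5 0 5 3 ⟨549755813888, 641381782870, 0, 137438953472, 549755813888, 641381782870, 659706976665, 879609302221⟩ :=
  HP_5_0_5_3_c2364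

theorem HP_5_0_5_4 : HP 5 0 5 4 ⟨549755813888, 641381782870, 0, 137438953472, 549755813888, 641381782870, 879609302220, 1099511627776⟩ :=
  HP_5_0_5_4_c2365

theorem HE_5_0_5 : HE 5 0 5 ⟨549755813888, 641381782870, 0, 137438953472, 549755813888, 641381782870, 0, 0⟩ :=
  HE_5_0_5_c2366

theorem HP_5_1_5_0 : HP 5 1 5 0 ⟨549755813888, 641381782870, 137438953472, 274877906944, 549755813888, 641381782870, 329853488332, 439804651111⟩ :=
  HP_5_1_5_0_c2367

theorem HP_5_1_5_1 : HP 5 1 5 1 ⟨549755813888, 641381782870, 137438953472, 274877906944, 549755813888, 641381782870, 439804651110, 549755813888⟩ :=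
  HP_5_1_5_1_c2368

theorem HP_5_1_5_2 : HP 5 1 5 2 ⟨549755813888, 641381782870, 137438953472, 274877906944, 549755813888, 641381782870, 549755813888, 659706976666⟩ :=
  HP_5_1_5_2_c2369

theorem HP_5_1_5_3 : HP 5 1 5 3 ⟨549755813888, 641381782870, 137438953472, 274877906944, 549755813888, 641381782870, 659706976665, 879609302221⟩ :=
  HP_5_1_5_3_c2370

theorem HP_5_1_5_4 : HP 5 1 5 4 ⟨549755813888, 641381782870, 137438953472, 274877906944, 549755813888, 641381782870, 879609302220, 1099511627776⟩ :=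
  HP_5_1_5_4_c2371

theorem HE_5_1_5 : HE 5 1 5 ⟨549755813888, 641381782870, 137438953472, 274877906944, 549755813888, 641381782870, 0, 0⟩ :=
  HE_5_1_5_c2372

theorem HP_5_2_5_0 : HP 5 2 5 0 ⟨549755813888, 641381782870, 274877906944, 366503875926, 549755813888, 641381782870, 329853488332, 439804651111⟩ :=
  HP_5_2_5_0_c2373

theorem HP_5_2_5_1 : HP 5 2 5 1 ⟨549755813888, 641381782870, 274877906944, 366503875926, 549755813888, 641381782870, 439804651110, 549755813888⟩ :=
  HP_5_2_5_1_c2374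

theorem HP_5_2_5_2 : HP 5 2 5 2 ⟨549755813888, 641381782870, 274877906944, 366503875926, 549755813888, 641381782870, 549755813888, 659706976666⟩ :=
  HP_5_2_5_2_c2375

theorem HP_5_2_5_3 : HP 5 2 5 3 ⟨549755813888, 641381782870, 274877906944, 366503875926, 549755813888, 641381782870, 659706976665, 879609302221⟩ :=
  HP_5_2_5_3_c2376

theorem HP_5_2_5_4 : HP 5 2 5 4 ⟨549755813888, 641381782870, 274877906944, 366503875926, 549755813888, 641381782870, 879609302220, 1099511627776⟩ :=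
  HP_5_2_5_4_c2377

theorem HE_5_2_5 : HE 5 2 5 ⟨549755813888, 641381782870, 274877906944, 366503875926, 549755813888, 641381782870, 0, 0⟩ :=
  HE_5_2_5_c2378

theorem HP_5_3_5_0 : HP 5 3 5 0 ⟨549755813888, 641381782870, 366503875925, 458129844907, 549755813888, 641381782870, 329853488332, 439804651111⟩ :=
  HP_5_3_5_0_c2379

theorem HP_5_3_5_1 : HP 5 3 5 1 ⟨549755813888, 641381782870, 366503875925, 458129844907, 549755813888, 641381782870, 439804651110, 549755813888⟩ :=
  HP_5_3_5_1_c2380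

theorem HP_5_3_5_2 : HP 5 3 5 2 ⟨549755813888, 641381782870, 366503875925, 458129844907, 549755813888, 641381782870, 549755813888, 659706976666⟩ :=
  HP_5_3_5_2_c2381

theorem HP_5_3_5_3 : HP 5 3 5 3 ⟨549755813888, 641381782870, 366503875925, 458129844907, 549755813888, 641381782870, 659706976665, 879609302221⟩ :=
  HP_5_3_5_3_c2382

theorem HP_5_3_5_4 : HP 5 3 5 4 ⟨549755813888, 641381782870, 366503875925, 458129844907, 549755813888, 641381782870, 879609302220, 1099511627776⟩ :=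
  HP_5_3_5_4_c2383

theorem HE_5_3_5 : HE 5 3 5 ⟨549755813888, 641381782870, 366503875925, 458129844907, 549755813888, 641381782870, 0, 0⟩ :=
  HE_5_3_5_c2384

theorem HP_5_4_5_0 : HP 5 4 5 0 ⟨549755813888, 641381782870, 458129844906, 549755813888, 549755813888, 641381782870, 329853488332, 439804651111⟩ :=
  HP_5_4_5_0_c2385

theorem HP_5_4_5_1 : HP 5 4 5 1 ⟨549755813888, 641381782870, 458129844906, 549755813888, 549755813888, 641381782870, 439804651110, 549755813888⟩ :=
  HP_5_4_5_1_c2386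

theorem HP_5_4_5_2 : HP 5 4 5 2 ⟨549755813888, 641381782870, 458129844906, 549755813888, 549755813888, 641381782870, 549755813888, 659706976666⟩ :=
  HP_5_4_5_2_c2387

theorem HP_5_4_5_3 : HP 5 4 5 3 ⟨549755813888, 641381782870, 458129844906, 549755813888, 549755813888, 641381782870, 659706976665, 879609302221⟩ :=
  (FHolds.split1 595568798379 HP_5_4_5_3_c2388 HP_5_4_5_3_c2389)

theorem HP_5_4_5_4 : HP 5 4 5 4 ⟨549755813888, 641381782870, 458129844906, 549755813888, 549755813888, 641381782870, 879609302220, 1099511627776⟩ :=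
  HP_5_4_5_4_c2390

theorem HE_5_4_5 : HE 5 4 5 ⟨549755813888, 641381782870, 458129844906, 549755813888, 549755813888, 641381782870, 0, 0⟩ :=
  HE_5_4_5_c2391

theorem HP_5_5_5_0 : HP 5 5 5 0 ⟨549755813888, 641381782870, 549755813888, 641381782870, 549754765312, 641381782870, 329853488332, 439804651111⟩ :=
  HP_5_5_5_0_c2392

theorem HP_5_5_5_1 : HP 5 5 5 1 ⟨549755813888, 641381782870, 549755813888, 641381782870, 549754765312, 641381782870, 439804651110, 549755813888⟩ :=
  HP_5_5_5_1_c2393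

theorem HP_5_5_5_2 : HP 5 5 5 2 ⟨549755813888, 641381782870, 549755813888, 641381782870, 549754765312, 641381782870, 549755813888, 659706976666⟩ :=
  HP_5_5_5_2_c2394

theorem HP_5_5_5_3 : HP 5 5 5 3 ⟨549755813888, 641381782870, 549755813888, 641381782870, 549754765312, 641381782870, 659706976665, 879609302221⟩ :=
  HP_5_5_5_3_c2395

theorem HP_5_5_5_4 : HP 5 5 5 4 ⟨549755813888, 641381782870, 549755813888, 641381782870, 549754765312, 641381782870, 879609302220, 1099511627776⟩ :=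
  HP_5_5_5_4_c2396

theorem HE_5_5_5 : HE 5 5 5 ⟨549755813888, 641381782870, 549755813888, 641381782870, 549754765312, 641381782870, 0, 0⟩ :=
  HE_5_5_5_c2397

theorem HU_0_0 : HU 0 0 ⟨0, 137438953472, (-1048576), 137438953472, 0, 0, 0, 0⟩ :=
  HU_0_0_c2398

theorem HU_0_1 : HU 0 1 ⟨0, 137438953472, 137438953472, 274877906944, 0, 0, 0, 0⟩ :=
  HU_0_1_c2399

theorem HU_1_1 : HU 1 1 ⟨137438953472, 274877906944, 137437904896, 274877906944, 0, 0, 0, 0⟩ :=
  HU_1_1_c2400

theorem HU_0_2 : HU 0 2 ⟨0, 137438953472, 274877906944, 366503875926, 0, 0, 0, 0⟩ :=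
  HU_0_2_c2401

theorem HU_1_2 : HU 1 2 ⟨137438953472, 274877906944, 274877906944, 366503875926, 0, 0, 0, 0⟩ :=
  HU_1_2_c2402

theorem HU_2_2 : HU 2 2 ⟨274877906944, 366503875926, 274876858368, 366503875926, 0, 0, 0, 0⟩ :=
  HU_2_2_c2403

theorem HU_0_3 : HU 0 3 ⟨0, 137438953472, 366503875925, 458129844907, 0, 0, 0, 0⟩ :=
  HU_0_3_c2404

theorem HU_1_3 : HU 1 3 ⟨137438953472, 274877906944, 366503875925, 458129844907, 0, 0, 0, 0⟩ :=
  HU_1_3_c2405

theorem HU_2_3 : HU 2 3 ⟨274877906944, 366503875926, 366503875925, 458129844907, 0, 0, 0, 0⟩ :=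
  HU_2_3_c2406

theorem HU_3_3 : HU 3 3 ⟨366503875925, 458129844907, 366502827349, 458129844907, 0, 0, 0, 0⟩ :=
  HU_3_3_c2407

theorem HU_0_4 : HU 0 4 ⟨0, 137438953472, 458129844906, 549755813888, 0, 0, 0, 0⟩ :=
  HU_0_4_c2408

theorem HU_1_4 : HU 1 4 ⟨137438953472, 274877906944, 458129844906, 549755813888, 0, 0, 0, 0⟩ :=
  HU_1_4_c2409

theorem HU_2_4 : HU 2 4 ⟨274877906944, 366503875926, 458129844906, 549755813888, 0, 0, 0, 0⟩ :=
  HU_2_4_c2410

theorem HU_3_4 : HU 3 4 ⟨366503875925, 458129844907, 458129844906, 549755813888, 0, 0, 0, 0⟩ :=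
  HU_3_4_c2411

theorem HU_4_4 : HU 4 4 ⟨458129844906, 549755813888, 458128796330, 549755813888, 0, 0, 0, 0⟩ :=
  HU_4_4_c2412

theorem HU_0_5 : HU 0 5 ⟨0, 137438953472, 549755813888, 641381782870, 0, 0, 0, 0⟩ :=
  HU_0_5_c2413

theorem HU_1_5 : HU 1 5 ⟨137438953472, 274877906944, 549755813888, 641381782870, 0, 0, 0, 0⟩ :=
  HU_1_5_c2414

theorem HU_2_5 : HU 2 5 ⟨274877906944, 366503875926, 549755813888, 641381782870, 0, 0, 0, 0⟩ :=
  HU_2_5_c2415

theorem HU_3_5 : HU 3 5 ⟨366503875925, 458129844907, 549755813888, 641381782870, 0, 0, 0, 0⟩ :=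
  HU_3_5_c2416

theorem HU_4_5 : HU 4 5 ⟨458129844906, 549755813888, 549755813888, 641381782870, 0, 0, 0, 0⟩ :=
  HU_4_5_c2417

theorem HU_5_5 : HU 5 5 ⟨549755813888, 641381782870, 549754765312, 641381782870, 0, 0, 0, 0⟩ :=
  HU_5_5_c2418

theorem HT_2_2_2_0_t_f_f : HT 2 2 2 0 true false false ⟨0, 46170898432, 0, 1099511627776, 0, 1099511627776, 329853488332, 439804651111⟩ :=
  (FHolds.split4 384829069721 HT_2_2_2_0_t_f_f_c2419 (FHolds.split1 23085449216 HT_2_2_2_0_t_f_f_c2420 (FHolds.split1 34628173824 HT_2_2_2_0_t_f_f_c2421 (FHolds.split2 549755813888 HT_2_2_2_0_t_f_f_c2422 HT_2_2_2_0_t_f_f_c2423))))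

theorem HT_2_2_2_1_t_f_f : HT 2 2 2 1 true false false ⟨0, 46170898432, 0, 1099511627776, 0, 1099511627776, 439804651110, 549755813888⟩ :=
  (FHolds.split1 23085449216 (FHolds.split2 549755813888 HT_2_2_2_1_t_f_f_c2424 HT_2_2_2_1_t_f_f_c2425) (FHolds.split2 549755813888 (FHolds.split3 549755813888 HT_2_2_2_1_t_f_f_c2426 HT_2_2_2_1_t_f_f_c2427) (FHolds.split3 549755813888 HT_2_2_2_1_t_f_f_c2428 (FHolds.split4 494780232499 HT_2_2_2_1_t_f_f_c2429 HT_2_2_2_1_t_f_f_c2430))))

theorem HT_2_2_2_2_t_f_f : HT 2 2 2 2 true false false ⟨0, 46170898432, 0, 1099511627776, 0, 1099511627776, 549755813888, 659706976666⟩ :=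
  (FHolds.split1 23085449216 HT_2_2_2_2_t_f_f_c2431 (FHolds.split2 549755813888 HT_2_2_2_2_t_f_f_c2432 HT_2_2_2_2_t_f_f_c2433))

theorem HT_2_2_2_3_t_f_f : HT 2 2 2 3 true false false ⟨0, 46170898432, 0, 1099511627776, 0, 1099511627776, 659706976665, 879609302221⟩ :=
  HT_2_2_2_3_t_f_f_c2434

theorem HT_2_2_2_4_t_f_f : HT 2 2 2 4 true false false ⟨0, 46170898432, 0, 1099511627776, 0, 1099511627776, 879609302220, 1099511627776⟩ :=
  HT_2_2_2_4_t_f_f_c2435

theorem HTE_2_2_2_t_f_f : HTE 2 2 2 true false false ⟨0, 46170898432, 0, 1099511627776, 0, 1099511627776, 0, 0⟩ :=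
  HTE_2_2_2_t_f_f_c2436

theorem HT_2_2_2_0_f_t_f : HT 2 2 2 0 false true false ⟨0, 46170898432, 0, 1099511627776, 0, 1099511627776, 329853488332, 439804651111⟩ :=
  (FHolds.split4 384829069721 (FHolds.split1 23085449216 HT_2_2_2_0_f_t_f_c2437 (FHolds.split4 357341279026 HT_2_2_2_0_f_t_f_c2438 HT_2_2_2_0_f_t_f_c2439)) (FHolds.split1 23085449216 HT_2_2_2_0_f_t_f_c2440 (FHolds.split3 549755813888 HT_2_2_2_0_f_t_f_c2441 HT_2_2_2_0_f_t_f_c2442)))

theorem HT_2_2_2_1_f_t_f : HT 2 2 2 1 false true false ⟨0, 46170898432, 0, 1099511627776, 0, 1099511627776, 439804651110, 549755813888⟩ :=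
  (FHolds.split1 23085449216 (FHolds.split3 549755813888 HT_2_2_2_1_f_t_f_c2443 HT_2_2_2_1_f_t_f_c2444) (FHolds.split3 549755813888 HT_2_2_2_1_f_t_f_c2445 HT_2_2_2_1_f_t_f_c2446))

theorem HT_2_2_2_2_f_t_f : HT 2 2 2 2 false true false ⟨0, 46170898432, 0, 1099511627776, 0, 1099511627776, 549755813888, 659706976666⟩ :=
  HT_2_2_2_2_f_t_f_c2447

theorem HT_2_2_2_3_f_t_f : HT 2 2 2 3 false true false ⟨0, 46170898432, 0, 1099511627776, 0, 1099511627776, 659706976665, 879609302221⟩ :=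
  HT_2_2_2_3_f_t_f_c2448

theorem HT_2_2_2_4_f_t_f : HT 2 2 2 4 false true false ⟨0, 46170898432, 0, 1099511627776, 0, 1099511627776, 879609302220, 1099511627776⟩ :=
  HT_2_2_2_4_f_t_f_c2449

theorem HTE_2_2_2_f_t_f : HTE 2 2 2 false true false ⟨0, 46170898432, 0, 1099511627776, 0, 1099511627776, 0, 0⟩ :=
  HTE_2_2_2_f_t_f_c2450

theorem HT_2_2_2_0_f_f_t : HT 2 2 2 0 false false true ⟨0, 46170898432, 0, 1099511627776, 0, 1099511627776, 329853488332, 439804651111⟩ :=
  (FHolds.split4 384829069721 (FHolds.split1 23085449216 HT_2_2_2_0_f_f_t_c2451 HT_2_2_2_0_f_f_t_c2452) (FHolds.split1 23085449216 HT_2_2_2_0_f_f_t_c2453 (FHolds.split3 549755813888 HT_2_2_2_0_f_f_t_c2454 HT_2_2_2_0_f_f_t_c2455)))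

theorem HT_2_2_2_1_f_f_t : HT 2 2 2 1 false false true ⟨0, 46170898432, 0, 1099511627776, 0, 1099511627776, 439804651110, 549755813888⟩ :=
  (FHolds.split1 23085449216 (FHolds.split3 549755813888 HT_2_2_2_1_f_f_t_c2456 HT_2_2_2_1_f_f_t_c2457) (FHolds.split3 549755813888 HT_2_2_2_1_f_f_t_c2458 HT_2_2_2_1_f_f_t_c2459))

theorem HT_2_2_2_2_f_f_t : HT 2 2 2 2 false false true ⟨0, 46170898432, 0, 1099511627776, 0, 1099511627776, 549755813888, 659706976666⟩ :=
  HT_2_2_2_2_f_f_t_c2460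

theorem HT_2_2_2_3_f_f_t : HT 2 2 2 3 false false true ⟨0, 46170898432, 0, 1099511627776, 0, 1099511627776, 659706976665, 879609302221⟩ :=
  HT_2_2_2_3_f_f_t_c2461

theorem HT_2_2_2_4_f_f_t : HT 2 2 2 4 false false true ⟨0, 46170898432, 0, 1099511627776, 0, 1099511627776, 879609302220, 1099511627776⟩ :=
  HT_2_2_2_4_f_f_t_c2462

theorem HTE_2_2_2_f_f_t : HTE 2 2 2 false false true ⟨0, 46170898432, 0, 1099511627776, 0, 1099511627776, 0, 0⟩ :=
  HTE_2_2_2_f_f_t_c2463

theorem HT_2_2_3_0_t_f_f : HT 2 2 3 0 true false false ⟨0, 46170898432, 0, 1099511627776, 0, 1099511627776, 329853488332, 439804651111⟩ :=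
  (FHolds.split4 384829069721 HT_2_2_3_0_t_f_f_c2464 (FHolds.split1 23085449216 (FHolds.split4 412316860416 (FHolds.split3 549755813888 HT_2_2_3_0_t_f_f_c2465 HT_2_2_3_0_t_f_f_c2466) (FHolds.split1 11542724608 HT_2_2_3_0_t_f_f_c2467 HT_2_2_3_0_t_f_f_c2468)) (FHolds.split2 549755813888 (FHolds.split3 549755813888 HT_2_2_3_0_t_f_f_c2469 HT_2_2_3_0_t_f_f_c2470) (FHolds.split3 549755813888 HT_2_2_3_0_t_f_f_c2471 HT_2_2_3_0_t_f_f_c2472))))

theorem HT_2_2_3_1_t_f_f : HT 2 2 3 1 true false false ⟨0, 46170898432, 0, 1099511627776, 0, 1099511627776, 439804651110, 549755813888⟩ :=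
  (FHolds.split2 549755813888 (FHolds.split3 549755813888 (FHolds.split3 274877906944 HT_2_2_3_1_t_f_f_c2473 HT_2_2_3_1_t_f_f_c2474) (FHolds.split1 23085449216 HT_2_2_3_1_t_f_f_c2475 HT_2_2_3_1_t_f_f_c2476)) (FHolds.split3 549755813888 (FHolds.split3 274877906944 HT_2_2_3_1_t_f_f_c2477 (FHolds.split2 824633720832 HT_2_2_3_1_t_f_f_c2478 HT_2_2_3_1_t_f_f_c2479)) (FHolds.split1 23085449216 HT_2_2_3_1_t_f_f_c2480 HT_2_2_3_1_t_f_f_c2481)))

theorem HT_2_2_3_2_t_f_f : HT 2 2 3 2 true false false ⟨0, 46170898432, 0, 1099511627776, 0, 1099511627776, 549755813888, 659706976666⟩ :=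
  (FHolds.split2 549755813888 (FHolds.split3 549755813888 (FHolds.split3 274877906944 HT_2_2_3_2_t_f_f_c2482 HT_2_2_3_2_t_f_f_c2483) (FHolds.split1 23085449216 HT_2_2_3_2_t_f_f_c2484 HT_2_2_3_2_t_f_f_c2485)) (FHolds.split3 549755813888 (FHolds.split3 274877906944 HT_2_2_3_2_t_f_f_c2486 (FHolds.split2 824633720832 HT_2_2_3_2_t_f_f_c2487 HT_2_2_3_2_t_f_f_c2488)) (FHolds.split1 23085449216 HT_2_2_3_2_t_f_f_c2489 HT_2_2_3_2_t_f_f_c2490)))

theorem HT_2_2_3_3_t_f_f : HT 2 2 3 3 true false false ⟨0, 46170898432, 0, 1099511627776, 0, 1099511627776, 659706976665, 879609302221⟩ :=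
  (FHolds.split2 549755813888 (FHolds.split3 549755813888 HT_2_2_3_3_t_f_f_c2491 HT_2_2_3_3_t_f_f_c2492) (FHolds.split3 549755813888 HT_2_2_3_3_t_f_f_c2493 (FHolds.split1 23085449216 HT_2_2_3_3_t_f_f_c2494 HT_2_2_3_3_t_f_f_c2495)))

theorem HT_2_2_3_4_t_f_f : HT 2 2 3 4 true false false ⟨0, 46170898432, 0, 1099511627776, 0, 1099511627776, 879609302220, 1099511627776⟩ :=
  (FHolds.split4 989560464998 (FHolds.split2 549755813888 HT_2_2_3_4_t_f_f_c2496 HT_2_2_3_4_t_f_f_c2497) (FHolds.split1 23085449216 (FHolds.split2 549755813888 (FHolds.split3 549755813888 HT_2_2_3_4_t_f_f_c2498 HT_2_2_3_4_t_f_f_c2499) HT_2_2_3_4_t_f_f_c2500) (FHolds.split2 549755813888 HT_2_2_3_4_t_f_f_c2501 HT_2_2_3_4_t_f_f_c2502)))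

theorem HTE_2_2_3_t_f_f : HTE 2 2 3 true false false ⟨0, 46170898432, 0, 1099511627776, 0, 1099511627776, 0, 0⟩ :=
  HTE_2_2_3_t_f_f_c2503

theorem HT_2_2_3_0_f_t_f : HT 2 2 3 0 false true false ⟨0, 46170898432, 0, 1099511627776, 0, 1099511627776, 329853488332, 439804651111⟩ :=
  (FHolds.split4 384829069721 HT_2_2_3_0_f_t_f_c2504 (FHolds.split1 23085449216 (FHolds.split4 412316860416 (FHolds.split3 549755813888 HT_2_2_3_0_f_t_f_c2505 HT_2_2_3_0_f_t_f_c2506) (FHolds.split3 549755813888 (FHolds.split2 549755813888 HT_2_2_3_0_f_t_f_c2507 HT_2_2_3_0_f_t_f_c2508) HT_2_2_3_0_f_t_f_c2509)) (FHolds.split4 412316860416 (FHolds.split3 549755813888 (FHolds.split2 549755813888 HT_2_2_3_0_f_t_f_c2510 HT_2_2_3_0_f_t_f_c2511) HT_2_2_3_0_f_t_f_c2512) HT_2_2_3_0_f_t_f_c2513)))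

theorem HT_2_2_3_1_f_t_f : HT 2 2 3 1 false true false ⟨0, 46170898432, 0, 1099511627776, 0, 1099511627776, 439804651110, 549755813888⟩ :=
  (FHolds.split3 549755813888 (FHolds.split2 549755813888 (FHolds.split1 23085449216 (FHolds.split3 274877906944 (FHolds.split3 137438953472 HT_2_2_3_1_f_t_f_c2514 HT_2_2_3_1_f_t_f_c2515) HT_2_2_3_1_f_t_f_c2516) HT_2_2_3_1_f_t_f_c2517) (FHolds.split3 274877906944 HT_2_2_3_1_f_t_f_c2518 (FHolds.split1 23085449216 HT_2_2_3_1_f_t_f_c2519 HT_2_2_3_1_f_t_f_c2520))) (FHolds.split1 23085449216 HT_2_2_3_1_f_t_f_c2521 HT_2_2_3_1_f_t_f_c2522))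

theorem HT_2_2_3_2_f_t_f : HT 2 2 3 2 false true false ⟨0, 46170898432, 0, 1099511627776, 0, 1099511627776, 549755813888, 659706976666⟩ :=
  (FHolds.split3 549755813888 (FHolds.split2 549755813888 (FHolds.split1 23085449216 HT_2_2_3_2_f_t_f_c2523 HT_2_2_3_2_f_t_f_c2524) (FHolds.split3 274877906944 HT_2_2_3_2_f_t_f_c2525 HT_2_2_3_2_f_t_f_c2526)) (FHolds.split1 23085449216 HT_2_2_3_2_f_t_f_c2527 HT_2_2_3_2_f_t_f_c2528))

theorem HT_2_2_3_3_f_t_f : HT 2 2 3 3 false true false ⟨0, 46170898432, 0, 1099511627776, 0, 1099511627776, 659706976665, 879609302221⟩ :=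
  (FHolds.split3 549755813888 (FHolds.split1 23085449216 (FHolds.split4 769658139443 HT_2_2_3_3_f_t_f_c2529 HT_2_2_3_3_f_t_f_c2530) (FHolds.split4 769658139443 HT_2_2_3_3_f_t_f_c2531 HT_2_2_3_3_f_t_f_c2532)) HT_2_2_3_3_f_t_f_c2533)

theorem HT_2_2_3_4_f_t_f : HT 2 2 3 4 false true false ⟨0, 46170898432, 0, 1099511627776, 0, 1099511627776, 879609302220, 1099511627776⟩ :=
  (FHolds.split4 989560464998 (FHolds.split3 549755813888 (FHolds.split2 549755813888 HT_2_2_3_4_f_t_f_c2534 HT_2_2_3_4_f_t_f_c2535) HT_2_2_3_4_f_t_f_c2536) (FHolds.split3 549755813888 (FHolds.split1 23085449216 HT_2_2_3_4_f_t_f_c2537 HT_2_2_3_4_f_t_f_c2538) (FHolds.split2 549755813888 HT_2_2_3_4_f_t_f_c2539 HT_2_2_3_4_f_t_f_c2540)))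

theorem HTE_2_2_3_f_t_f : HTE 2 2 3 false true false ⟨0, 46170898432, 0, 1099511627776, 0, 1099511627776, 0, 0⟩ :=
  HTE_2_2_3_f_t_f_c2541

theorem HT_2_2_3_0_f_f_t : HT 2 2 3 0 false false true ⟨0, 46170898432, 0, 1099511627776, 0, 1099511627776, 329853488332, 439804651111⟩ :=
  (FHolds.split4 384829069721 HT_2_2_3_0_f_f_t_c2542 (FHolds.split1 23085449216 (FHolds.split4 412316860416 (FHolds.split1 11542724608 HT_2_2_3_0_f_f_t_c2543 HT_2_2_3_0_f_f_t_c2544) (FHolds.split1 11542724608 HT_2_2_3_0_f_f_t_c2545 HT_2_2_3_0_f_f_t_c2546)) (FHolds.split3 549755813888 (FHolds.split4 412316860416 (FHolds.split2 549755813888 (FHolds.split1 34628173824 HT_2_2_3_0_f_f_t_c2547 HT_2_2_3_0_f_f_t_c2548) HT_2_2_3_0_f_f_t_c2549) HT_2_2_3_0_f_f_t_c2550) HT_2_2_3_0_f_f_t_c2551)))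

theorem HT_2_2_3_1_f_f_t : HT 2 2 3 1 false false true ⟨0, 46170898432, 0, 1099511627776, 0, 1099511627776, 439804651110, 549755813888⟩ :=
  (FHolds.split3 549755813888 (FHolds.split1 23085449216 (FHolds.split3 274877906944 HT_2_2_3_1_f_f_t_c2552 HT_2_2_3_1_f_f_t_c2553) HT_2_2_3_1_f_f_t_c2554) (FHolds.split1 23085449216 HT_2_2_3_1_f_f_t_c2555 HT_2_2_3_1_f_f_t_c2556))

theorem HT_2_2_3_2_f_f_t : HT 2 2 3 2 false false true ⟨0, 46170898432, 0, 1099511627776, 0, 1099511627776, 549755813888, 659706976666⟩ :=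
  (FHolds.split3 549755813888 (FHolds.split1 23085449216 HT_2_2_3_2_f_f_t_c2557 HT_2_2_3_2_f_f_t_c2558) (FHolds.split1 23085449216 HT_2_2_3_2_f_f_t_c2559 HT_2_2_3_2_f_f_t_c2560))

theorem HT_2_2_3_3_f_f_t : HT 2 2 3 3 false false true ⟨0, 46170898432, 0, 1099511627776, 0, 1099511627776, 659706976665, 879609302221⟩ :=
  (FHolds.split3 549755813888 (FHolds.split3 274877906944 HT_2_2_3_3_f_f_t_c2561 HT_2_2_3_3_f_f_t_c2562) (FHolds.split1 23085449216 HT_2_2_3_3_f_f_t_c2563 HT_2_2_3_3_f_f_t_c2564))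

theorem HT_2_2_3_4_f_f_t : HT 2 2 3 4 false false true ⟨0, 46170898432, 0, 1099511627776, 0, 1099511627776, 879609302220, 1099511627776⟩ :=
  (FHolds.split4 989560464998 (FHolds.split3 549755813888 (FHolds.split1 23085449216 HT_2_2_3_4_f_f_t_c2565 HT_2_2_3_4_f_f_t_c2566) (FHolds.split1 23085449216 HT_2_2_3_4_f_f_t_c2567 HT_2_2_3_4_f_f_t_c2568)) (FHolds.split3 549755813888 (FHolds.split2 549755813888 (FHolds.split1 23085449216 (FHolds.split4 1044536046387 HT_2_2_3_4_f_f_t_c2569 (FHolds.split3 274877906944 HT_2_2_3_4_f_f_t_c2570 HT_2_2_3_4_f_f_t_c2571)) HT_2_2_3_4_f_f_t_c2572) HT_2_2_3_4_f_f_t_c2573) (FHolds.split1 23085449216 HT_2_2_3_4_f_f_t_c2574 HT_2_2_3_4_f_f_t_c2575)))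

theorem HTE_2_2_3_f_f_t : HTE 2 2 3 false false true ⟨0, 46170898432, 0, 1099511627776, 0, 1099511627776, 0, 0⟩ :=
  HTE_2_2_3_f_f_t_c2576

theorem HT_2_3_3_0_t_f_f : HT 2 3 3 0 true false false ⟨0, 46170898432, 0, 1099511627776, 0, 1099511627776, 329853488332, 439804651111⟩ :=
  (FHolds.split4 384829069721 (FHolds.split4 357341279026 HT_2_3_3_0_t_f_f_c2577 (FHolds.split1 23085449216 HT_2_3_3_0_t_f_f_c2578 HT_2_3_3_0_t_f_f_c2579)) (FHolds.split4 412316860416 (FHolds.split2 549755813888 (FHolds.split2 274877906944 HT_2_3_3_0_t_f_f_c2580 (FHolds.split3 549755813888 (FHolds.split3 274877906944 HT_2_3_3_0_t_f_f_c2581 (FHolds.split2 412316860416 HT_2_3_3_0_t_f_f_c2582 (FHolds.split3 412316860416 HT_2_3_3_0_t_f_f_c2583 HT_2_3_3_0_t_f_f_c2584))) (FHolds.split4 398572965068 (FHolds.split1 23085449216 HT_2_3_3_0_t_f_f_c2585 HT_2_3_3_0_t_f_f_c2586) HT_2_3_3_0_t_f_f_c2587))) (FHolds.split3 549755813888 (FHolds.split3 274877906944 HT_2_3_3_0_t_f_f_c2588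 (FHolds.split4 398572965068 (FHolds.split1 23085449216 HT_2_3_3_0_t_f_f_c2589 HT_2_3_3_0_t_f_f_c2590) HT_2_3_3_0_t_f_f_c2591)) (FHolds.split1 23085449216 (FHolds.split4 398572965068 HT_2_3_3_0_t_f_f_c2592 HT_2_3_3_0_t_f_f_c2593) HT_2_3_3_0_t_f_f_c2594))) (FHolds.split2 549755813888 (FHolds.split3 549755813888 HT_2_3_3_0_t_f_f_c2595 HT_2_3_3_0_t_f_f_c2596) (FHolds.split3 549755813888 HT_2_3_3_0_t_f_f_c2597 HT_2_3_3_0_t_f_f_c2598))))

theorem HT_2_3_3_1_t_f_f : HT 2 3 3 1 true false false ⟨0, 46170898432, 0, 1099511627776, 0, 1099511627776, 439804651110, 549755813888⟩ :=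
  (FHolds.split2 549755813888 (FHolds.split2 274877906944 HT_2_3_3_1_t_f_f_c2599 HT_2_3_3_1_t_f_f_c2600) (FHolds.split3 549755813888 HT_2_3_3_1_t_f_f_c2601 HT_2_3_3_1_t_f_f_c2602))

theorem HT_2_3_3_2_t_f_f : HT 2 3 3 2 true false false ⟨0, 46170898432, 0, 1099511627776, 0, 1099511627776, 549755813888, 659706976666⟩ :=
  (FHolds.split2 549755813888 (FHolds.split2 274877906944 HT_2_3_3_2_t_f_f_c2603 HT_2_3_3_2_t_f_f_c2604) HT_2_3_3_2_t_f_f_c2605)

theorem HT_2_3_3_3_t_f_f : HT 2 3 3 3 true false false ⟨0, 46170898432, 0, 1099511627776, 0, 1099511627776, 659706976665, 879609302221⟩ :=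
  (FHolds.split2 549755813888 (FHolds.split2 274877906944 HT_2_3_3_3_t_f_f_c2606 (FHolds.split3 549755813888 HT_2_3_3_3_t_f_f_c2607 HT_2_3_3_3_t_f_f_c2608)) (FHolds.split2 824633720832 HT_2_3_3_3_t_f_f_c2609 HT_2_3_3_3_t_f_f_c2610))

theorem HT_2_3_3_4_t_f_f : HT 2 3 3 4 true false false ⟨0, 46170898432, 0, 1099511627776, 0, 1099511627776, 879609302220, 1099511627776⟩ :=
  (FHolds.split4 989560464998 (FHolds.split1 23085449216 (FHolds.split4 934584883609 (FHolds.split2 549755813888 HT_2_3_3_4_t_f_f_c2611 HT_2_3_3_4_t_f_f_c2612) HT_2_3_3_4_t_f_f_c2613) (FHolds.split2 549755813888 HT_2_3_3_4_t_f_f_c2614 HT_2_3_3_4_t_f_f_c2615)) (FHolds.split2 549755813888 (FHolds.split2 274877906944 HT_2_3_3_4_t_f_f_c2616 (FHolds.split4 1044536046387 HT_2_3_3_4_t_f_f_c2617 (FHolds.split3 549755813888 (FHolds.split3 274877906944 HT_2_3_3_4_t_f_f_c2618 (FHolds.split2 412316860416 HT_2_3_3_4_t_f_f_c2619 (FHolds.split3 412316860416 HT_2_3_3_4_t_f_f_c2620 (FHolds.split4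 1072023837081 HT_2_3_3_4_t_f_f_c2621 HT_2_3_3_4_t_f_f_c2622)))) (FHolds.split2 412316860416 HT_2_3_3_4_t_f_f_c2623 (FHolds.split3 824633720832 (FHolds.split4 1072023837081 HT_2_3_3_4_t_f_f_c2624 (FHolds.split2 481036337152 HT_2_3_3_4_t_f_f_c2625 (FHolds.split4 1085767732428 HT_2_3_3_4_t_f_f_c2626 HT_2_3_3_4_t_f_f_c2627))) HT_2_3_3_4_t_f_f_c2628))))) (FHolds.split3 549755813888 (FHolds.split3 274877906944 HT_2_3_3_4_t_f_f_c2629 (FHolds.split3 412316860416 HT_2_3_3_4_t_f_f_c2630 (FHolds.split2 824633720832 (FHolds.split4 1044536046387 HT_2_3_3_4_t_f_f_c2631 (FHolds.split4 1072023837081 HT_2_3_3_4_t_f_f_c2632 (FHolds.split3 481036337152 HT_2_3_3_4_t_f_f_c2633 (FHolds.split4 1085767732428 HT_2_3_3_4_t_f_f_c2634 HT_2_3_3_4_t_f_f_c2635)))) HT_2_3_3_4_t_f_f_c2636))) (FHolds.split2 824633720832 (FHolds.split3 824633720832 (FHolds.split2 687194767360 (FHolds.split4 1044536046387 HT_2_3_3_4_t_f_f_c2637 (FHolds.split4 1072023837081 HT_2_3_3_4_t_f_f_c2638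 (FHolds.split4 1085767732428 HT_2_3_3_4_t_f_f_c2639 HT_2_3_3_4_t_f_f_c2640))) (FHolds.split4 1044536046387 HT_2_3_3_4_t_f_f_c2641 HT_2_3_3_4_t_f_f_c2642)) (FHolds.split4 1044536046387 HT_2_3_3_4_t_f_f_c2643 HT_2_3_3_4_t_f_f_c2644)) (FHolds.split3 824633720832 HT_2_3_3_4_t_f_f_c2645 HT_2_3_3_4_t_f_f_c2646)))))

theorem HTE_2_3_3_t_f_f : HTE 2 3 3 true false false ⟨0, 46170898432, 0, 1099511627776, 0, 1099511627776, 0, 0⟩ :=
  HTE_2_3_3_t_f_f_c2647

theorem HT_2_3_3_0_f_t_f : HT 2 3 3 0 false true false ⟨0, 46170898432, 0, 1099511627776, 0, 1099511627776, 329853488332, 439804651111⟩ :=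
  (FHolds.split4 384829069721 HT_2_3_3_0_f_t_f_c2648 (FHolds.split4 412316860416 (FHolds.split1 23085449216 (FHolds.split4 398572965068 (FHolds.split1 11542724608 (FHolds.split3 549755813888 (FHolds.split4 391701017394 HT_2_3_3_0_f_t_f_c2649 (FHolds.split3 274877906944 (FHolds.split2 549755813888 HT_2_3_3_0_f_t_f_c2650 HT_2_3_3_0_f_t_f_c2651) HT_2_3_3_0_f_t_f_c2652)) HT_2_3_3_0_f_t_f_c2653) (FHolds.split4 391701017394 HT_2_3_3_0_f_t_f_c2654 (FHolds.split3 549755813888 HT_2_3_3_0_f_t_f_c2655 HT_2_3_3_0_f_t_f_c2656))) (FHolds.split3 549755813888 HT_2_3_3_0_f_t_f_c2657 HT_2_3_3_0_f_t_f_c2658)) (FHolds.split2 549755813888 (FHolds.split3 549755813888 (FHolds.split4 398572965068 (FHolds.split4 391701017394 HT_2_3_3_0_f_t_f_c2659 (FHolds.split1 34628173824 HT_2_3_3_0_f_t_f_c2660 HT_2_3_3_0_f_t_f_c2661)) HT_2_3_3_0_f_t_f_c2662) HT_2_3_3_0_f_t_f_c2663) HT_2_3_3_0_f_t_f_c2664)) (FHolds.split1 23085449216 (FHolds.split3 549755813888 (FHolds.split2 549755813888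 HT_2_3_3_0_f_t_f_c2665 HT_2_3_3_0_f_t_f_c2666) HT_2_3_3_0_f_t_f_c2667) (FHolds.split2 549755813888 HT_2_3_3_0_f_t_f_c2668 HT_2_3_3_0_f_t_f_c2669))))

theorem HT_2_3_3_1_f_t_f : HT 2 3 3 1 false true false ⟨0, 46170898432, 0, 1099511627776, 0, 1099511627776, 439804651110, 549755813888⟩ :=
  (FHolds.split3 549755813888 (FHolds.split3 274877906944 (FHolds.split2 549755813888 (FHolds.split2 274877906944 HT_2_3_3_1_f_t_f_c2670 HT_2_3_3_1_f_t_f_c2671) HT_2_3_3_1_f_t_f_c2672) HT_2_3_3_1_f_t_f_c2673) HT_2_3_3_1_f_t_f_c2674)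

theorem HT_2_3_3_2_f_t_f : HT 2 3 3 2 false true false ⟨0, 46170898432, 0, 1099511627776, 0, 1099511627776, 549755813888, 659706976666⟩ :=
  (FHolds.split3 549755813888 (FHolds.split3 274877906944 HT_2_3_3_2_f_t_f_c2675 HT_2_3_3_2_f_t_f_c2676) HT_2_3_3_2_f_t_f_c2677)

theorem HT_2_3_3_3_f_t_f : HT 2 3 3 3 false true false ⟨0, 46170898432, 0, 1099511627776, 0, 1099511627776, 659706976665, 879609302221⟩ :=
  (FHolds.split3 549755813888 (FHolds.split3 274877906944 (FHolds.split2 549755813888 (FHolds.split3 137438953472 HT_2_3_3_3_f_t_f_c2678 HT_2_3_3_3_f_t_f_c2679) HT_2_3_3_3_f_t_f_c2680) HT_2_3_3_3_f_t_f_c2681) HT_2_3_3_3_f_t_f_c2682)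

theorem HT_2_3_3_4_f_t_f : HT 2 3 3 4 false true false ⟨0, 46170898432, 0, 1099511627776, 0, 1099511627776, 879609302220, 1099511627776⟩ :=
  (FHolds.split4 989560464998 (FHolds.split3 549755813888 (FHolds.split2 549755813888 (FHolds.split3 274877906944 (FHolds.split2 274877906944 (FHolds.split3 137438953472 (FHolds.split4 934584883609 HT_2_3_3_4_f_t_f_c2683 HT_2_3_3_4_f_t_f_c2684) HT_2_3_3_4_f_t_f_c2685) HT_2_3_3_4_f_t_f_c2686) HT_2_3_3_4_f_t_f_c2687) (FHolds.split4 934584883609 HT_2_3_3_4_f_t_f_c2688 HT_2_3_3_4_f_t_f_c2689)) HT_2_3_3_4_f_t_f_c2690) (FHolds.split3 549755813888 (FHolds.split4 1044536046387 HT_2_3_3_4_f_t_f_c2691 (FHolds.split2 549755813888 (FHolds.split3 274877906944 (FHolds.split4 1072023837081 HT_2_3_3_4_f_t_f_c2692 (FHolds.split1 23085449216 (FHolds.split4 1085767732428 HT_2_3_3_4_f_t_f_c2693 (FHolds.split1 11542724608 (FHolds.split2 274877906944 (FHolds.split3 137438953472 (FHolds.split4 1092639680102 HT_2_3_3_4_f_t_f_c2694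 (FHolds.split2 137438953472 (FHolds.split3 68719476736 (FHolds.split1 5771362304 (FHolds.split4 1096075653939 HT_2_3_3_4_f_t_f_c2695 (FHolds.split2 68719476736 HT_2_3_3_4_f_t_f_c2696 HT_2_3_3_4_f_t_f_c2697)) HT_2_3_3_4_f_t_f_c2698) HT_2_3_3_4_f_t_f_c2699) HT_2_3_3_4_f_t_f_c2700)) HT_2_3_3_4_f_t_f_c2701) (FHolds.split3 137438953472 HT_2_3_3_4_f_t_f_c2702 (FHolds.split4 1092639680102 HT_2_3_3_4_f_t_f_c2703 (FHolds.split3 206158430208 HT_2_3_3_4_f_t_f_c2704 HT_2_3_3_4_f_t_f_c2705)))) (FHolds.split2 274877906944 HT_2_3_3_4_f_t_f_c2706 HT_2_3_3_4_f_t_f_c2707))) (FHolds.split4 1085767732428 HT_2_3_3_4_f_t_f_c2708 (FHolds.split2 274877906944 (FHolds.split3 137438953472 (FHolds.split4 1092639680102 HT_2_3_3_4_f_t_f_c2709 HT_2_3_3_4_f_t_f_c2710) HT_2_3_3_4_f_t_f_c2711) HT_2_3_3_4_f_t_f_c2712)))) (FHolds.split2 274877906944 HT_2_3_3_4_f_t_f_c2713 HT_2_3_3_4_f_t_f_c2714)) (FHolds.split4 1072023837081 HT_2_3_3_4_f_t_f_c2715 (FHolds.split3 274877906944 HT_2_3_3_4_f_t_f_c2716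 (FHolds.split2 824633720832 (FHolds.split1 23085449216 (FHolds.split4 1085767732428 HT_2_3_3_4_f_t_f_c2717 (FHolds.split4 1092639680102 HT_2_3_3_4_f_t_f_c2718 (FHolds.split1 11542724608 (FHolds.split4 1096075653939 HT_2_3_3_4_f_t_f_c2719 HT_2_3_3_4_f_t_f_c2720) HT_2_3_3_4_f_t_f_c2721))) HT_2_3_3_4_f_t_f_c2722) (FHolds.split4 1085767732428 HT_2_3_3_4_f_t_f_c2723 (FHolds.split3 412316860416 HT_2_3_3_4_f_t_f_c2724 HT_2_3_3_4_f_t_f_c2725))))))) (FHolds.split2 549755813888 HT_2_3_3_4_f_t_f_c2726 (FHolds.split3 824633720832 (FHolds.split2 824633720832 HT_2_3_3_4_f_t_f_c2727 HT_2_3_3_4_f_t_f_c2728) HT_2_3_3_4_f_t_f_c2729))))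

theorem HTE_2_3_3_f_t_f : HTE 2 3 3 false true false ⟨0, 46170898432, 0, 1099511627776, 0, 1099511627776, 0, 0⟩ :=
  HTE_2_3_3_f_t_f_c2730

theorem HT_2_3_3_0_f_f_t : HT 2 3 3 0 false false true ⟨0, 46170898432, 0, 1099511627776, 0, 1099511627776, 329853488332, 439804651111⟩ :=
  (FHolds.split4 384829069721 HT_2_3_3_0_f_f_t_c2731 (FHolds.split4 412316860416 (FHolds.split1 23085449216 (FHolds.split4 398572965068 (FHolds.split1 11542724608 (FHolds.split3 549755813888 (FHolds.split4 391701017394 HT_2_3_3_0_f_f_t_c2732 (FHolds.split3 274877906944 (FHolds.split2 549755813888 (FHolds.split3 137438953472 HT_2_3_3_0_f_f_t_c2733 HT_2_3_3_0_f_f_t_c2734) HT_2_3_3_0_f_f_t_c2735) (FHolds.split2 549755813888 HT_2_3_3_0_f_f_t_c2736 (FHolds.split3 412316860416 HT_2_3_3_0_f_f_t_c2737 HT_2_3_3_0_f_f_t_c2738)))) HT_2_3_3_0_f_f_t_c2739) (FHolds.split4 391701017394 HT_2_3_3_0_f_f_t_c2740 (FHolds.split3 549755813888 (FHolds.split2 549755813888 HT_2_3_3_0_f_f_t_c2741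 HT_2_3_3_0_f_f_t_c2742) HT_2_3_3_0_f_f_t_c2743))) (FHolds.split3 549755813888 (FHolds.split2 549755813888 HT_2_3_3_0_f_f_t_c2744 HT_2_3_3_0_f_f_t_c2745) HT_2_3_3_0_f_f_t_c2746)) (FHolds.split2 549755813888 (FHolds.split3 549755813888 (FHolds.split4 398572965068 (FHolds.split4 391701017394 HT_2_3_3_0_f_f_t_c2747 (FHolds.split1 34628173824 HT_2_3_3_0_f_f_t_c2748 HT_2_3_3_0_f_f_t_c2749)) HT_2_3_3_0_f_f_t_c2750) HT_2_3_3_0_f_f_t_c2751) HT_2_3_3_0_f_f_t_c2752)) (FHolds.split1 23085449216 (FHolds.split3 549755813888 (FHolds.split2 549755813888 (FHolds.split3 274877906944 HT_2_3_3_0_f_f_t_c2753 HT_2_3_3_0_f_f_t_c2754) HT_2_3_3_0_f_f_t_c2755) HT_2_3_3_0_f_f_t_c2756) (FHolds.split2 549755813888 HT_2_3_3_0_f_f_t_c2757 HT_2_3_3_0_f_f_t_c2758))))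

theorem HT_2_3_3_1_f_f_t : HT 2 3 3 1 false false true ⟨0, 46170898432, 0, 1099511627776, 0, 1099511627776, 439804651110, 549755813888⟩ :=
  (FHolds.split3 549755813888 (FHolds.split3 274877906944 (FHolds.split2 549755813888 (FHolds.split2 274877906944 (FHolds.split3 137438953472 (FHolds.split2 137438953472 HT_2_3_3_1_f_f_t_c2759 HT_2_3_3_1_f_f_t_c2760) HT_2_3_3_1_f_f_t_c2761) HT_2_3_3_1_f_f_t_c2762) HT_2_3_3_1_f_f_t_c2763) (FHolds.split2 549755813888 HT_2_3_3_1_f_f_t_c2764 HT_2_3_3_1_f_f_t_c2765)) HT_2_3_3_1_f_f_t_c2766)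

theorem HT_2_3_3_2_f_f_t : HT 2 3 3 2 false false true ⟨0, 46170898432, 0, 1099511627776, 0, 1099511627776, 549755813888, 659706976666⟩ :=
  (FHolds.split3 549755813888 (FHolds.split3 274877906944 (FHolds.split2 549755813888 (FHolds.split2 274877906944 HT_2_3_3_2_f_f_t_c2767 HT_2_3_3_2_f_f_t_c2768) HT_2_3_3_2_f_f_t_c2769) HT_2_3_3_2_f_f_t_c2770) HT_2_3_3_2_f_f_t_c2771)

theorem HT_2_3_3_3_f_f_t : HT 2 3 3 3 false false true ⟨0, 46170898432, 0, 1099511627776, 0, 1099511627776, 659706976665, 879609302221⟩ :=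
  (FHolds.split3 549755813888 (FHolds.split3 274877906944 (FHolds.split2 549755813888 (FHolds.split3 137438953472 HT_2_3_3_3_f_f_t_c2772 HT_2_3_3_3_f_f_t_c2773) HT_2_3_3_3_f_f_t_c2774) (FHolds.split2 549755813888 HT_2_3_3_3_f_f_t_c2775 (FHolds.split4 769658139443 HT_2_3_3_3_f_f_t_c2776 HT_2_3_3_3_f_f_t_c2777))) HT_2_3_3_3_f_f_t_c2778)

theorem HT_2_3_3_4_f_f_t : HT 2 3 3 4 false false true ⟨0, 46170898432, 0, 1099511627776, 0, 1099511627776, 879609302220, 1099511627776⟩ :=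
  (FHolds.split4 989560464998 (FHolds.split3 549755813888 (FHolds.split2 549755813888 (FHolds.split3 274877906944 (FHolds.split2 274877906944 (FHolds.split3 137438953472 (FHolds.split4 934584883609 (FHolds.split1 23085449216 (FHolds.split4 907097092914 (FHolds.split4 893353197567 HT_2_3_3_4_f_f_t_c2779 HT_2_3_3_4_f_f_t_c2780) HT_2_3_3_4_f_f_t_c2781) HT_2_3_3_4_f_f_t_c2782) HT_2_3_3_4_f_f_t_c2783) HT_2_3_3_4_f_f_t_c2784) HT_2_3_3_4_f_f_t_c2785) HT_2_3_3_4_f_f_t_c2786) (FHolds.split4 934584883609 (FHolds.split4 907097092914 (FHolds.split3 274877906944 HT_2_3_3_4_f_f_t_c2787 (FHolds.split1 23085449216 HT_2_3_3_4_f_f_t_c2788 HT_2_3_3_4_f_f_t_c2789)) HT_2_3_3_4_f_f_t_c2790) HT_2_3_3_4_f_f_t_c2791)) HT_2_3_3_4_f_f_t_c2792) (FHolds.split3 549755813888 (FHolds.split4 1044536046387 HT_2_3_3_4_f_f_t_c2793 (FHolds.split2 549755813888 (FHolds.split3 274877906944 (FHolds.split4 1072023837081 HT_2_3_3_4_f_f_t_c2794 (FHolds.split1 23085449216 (FHolds.split4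 1085767732428 HT_2_3_3_4_f_f_t_c2795 (FHolds.split1 11542724608 (FHolds.split2 274877906944 (FHolds.split3 137438953472 (FHolds.split4 1092639680102 HT_2_3_3_4_f_f_t_c2796 (FHolds.split2 137438953472 (FHolds.split3 68719476736 (FHolds.split1 5771362304 (FHolds.split4 1096075653939 HT_2_3_3_4_f_f_t_c2797 (FHolds.split2 68719476736 (FHolds.split3 34359738368 (FHolds.split1 2885681152 (FHolds.split2 34359738368 (FHolds.split3 17179869184 HT_2_3_3_4_f_f_t_c2798 HT_2_3_3_4_f_f_t_c2799) HT_2_3_3_4_f_f_t_c2800) HT_2_3_3_4_f_f_t_c2801) HT_2_3_3_4_f_f_t_c2802) HT_2_3_3_4_f_f_t_c2803)) (FHolds.split4 1096075653939 HT_2_3_3_4_f_f_t_c2804 (FHolds.split2 68719476736 HT_2_3_3_4_f_f_t_c2805 HT_2_3_3_4_f_f_t_c2806))) HT_2_3_3_4_f_f_t_c2807) (FHolds.split3 68719476736 HT_2_3_3_4_f_f_t_c2808 (FHolds.split4 1096075653939 HT_2_3_3_4_f_f_t_c2809 HT_2_3_3_4_f_f_t_c2810)))) HT_2_3_3_4_f_f_t_c2811) (FHolds.split3 137438953472 HT_2_3_3_4_f_f_t_c2812 (FHolds.split4 1092639680102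 HT_2_3_3_4_f_f_t_c2813 (FHolds.split3 206158430208 HT_2_3_3_4_f_f_t_c2814 (FHolds.split4 1096075653939 HT_2_3_3_4_f_f_t_c2815 (FHolds.split4 1097793640857 HT_2_3_3_4_f_f_t_c2816 (FHolds.split1 5771362304 (FHolds.split1 2885681152 (FHolds.split1 1442840576 HT_2_3_3_4_f_f_t_c2817 HT_2_3_3_4_f_f_t_c2818) HT_2_3_3_4_f_f_t_c2819) HT_2_3_3_4_f_f_t_c2820))))))) (FHolds.split2 274877906944 (FHolds.split3 137438953472 (FHolds.split4 1092639680102 HT_2_3_3_4_f_f_t_c2821 (FHolds.split2 137438953472 (FHolds.split3 68719476736 (FHolds.split4 1096075653939 HT_2_3_3_4_f_f_t_c2822 (FHolds.split2 68719476736 HT_2_3_3_4_f_f_t_c2823 HT_2_3_3_4_f_f_t_c2824)) HT_2_3_3_4_f_f_t_c2825) HT_2_3_3_4_f_f_t_c2826)) HT_2_3_3_4_f_f_t_c2827) (FHolds.split3 137438953472 HT_2_3_3_4_f_f_t_c2828 HT_2_3_3_4_f_f_t_c2829)))) (FHolds.split4 1085767732428 HT_2_3_3_4_f_f_t_c2830 (FHolds.split2 274877906944 (FHolds.split3 137438953472 (FHolds.split4 1092639680102 HT_2_3_3_4_f_f_t_c2831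 (FHolds.split2 137438953472 (FHolds.split3 68719476736 (FHolds.split4 1096075653939 HT_2_3_3_4_f_f_t_c2832 (FHolds.split2 68719476736 HT_2_3_3_4_f_f_t_c2833 HT_2_3_3_4_f_f_t_c2834)) HT_2_3_3_4_f_f_t_c2835) (FHolds.split3 68719476736 HT_2_3_3_4_f_f_t_c2836 HT_2_3_3_4_f_f_t_c2837))) HT_2_3_3_4_f_f_t_c2838) HT_2_3_3_4_f_f_t_c2839)))) (FHolds.split2 274877906944 HT_2_3_3_4_f_f_t_c2840 (FHolds.split3 412316860416 (FHolds.split2 412316860416 HT_2_3_3_4_f_f_t_c2841 (FHolds.split4 1072023837081 HT_2_3_3_4_f_f_t_c2842 (FHolds.split3 343597383680 HT_2_3_3_4_f_f_t_c2843 HT_2_3_3_4_f_f_t_c2844))) HT_2_3_3_4_f_f_t_c2845))) (FHolds.split4 1072023837081 HT_2_3_3_4_f_f_t_c2846 (FHolds.split3 274877906944 (FHolds.split2 824633720832 (FHolds.split3 137438953472 HT_2_3_3_4_f_f_t_c2847 (FHolds.split2 687194767360 (FHolds.split3 206158430208 HT_2_3_3_4_f_f_t_c2848 HT_2_3_3_4_f_f_t_c2849) HT_2_3_3_4_f_f_t_c2850)) HT_2_3_3_4_f_f_t_c2851) (FHolds.split2 824633720832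 (FHolds.split1 23085449216 (FHolds.split4 1085767732428 HT_2_3_3_4_f_f_t_c2852 (FHolds.split4 1092639680102 HT_2_3_3_4_f_f_t_c2853 (FHolds.split1 11542724608 (FHolds.split4 1096075653939 HT_2_3_3_4_f_f_t_c2854 (FHolds.split1 5771362304 (FHolds.split4 1097793640857 HT_2_3_3_4_f_f_t_c2855 HT_2_3_3_4_f_f_t_c2856) HT_2_3_3_4_f_f_t_c2857)) HT_2_3_3_4_f_f_t_c2858))) HT_2_3_3_4_f_f_t_c2859) (FHolds.split4 1085767732428 HT_2_3_3_4_f_f_t_c2860 (FHolds.split3 412316860416 HT_2_3_3_4_f_f_t_c2861 HT_2_3_3_4_f_f_t_c2862))))))) (FHolds.split2 549755813888 (FHolds.split4 1044536046387 HT_2_3_3_4_f_f_t_c2863 HT_2_3_3_4_f_f_t_c2864) (FHolds.split3 824633720832 (FHolds.split2 824633720832 HT_2_3_3_4_f_f_t_c2865 (FHolds.split4 1044536046387 HT_2_3_3_4_f_f_t_c2866 (FHolds.split3 687194767360 (FHolds.split4 1072023837081 HT_2_3_3_4_f_f_t_c2867 HT_2_3_3_4_f_f_t_c2868) HT_2_3_3_4_f_f_t_c2869))) HT_2_3_3_4_f_f_t_c2870))))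

theorem HTE_2_3_3_f_f_t : HTE 2 3 3 false false true ⟨0, 46170898432, 0, 1099511627776, 0, 1099511627776, 0, 0⟩ :=
  HTE_2_3_3_f_f_t_c2871

theorem HT_3_2_2_0_t_f_f : HT 3 2 2 0 true false false ⟨0, 46170898432, 0, 1099511627776, 0, 1099511627776, 329853488332, 439804651111⟩ :=
  (FHolds.split4 384829069721 HT_3_2_2_0_t_f_f_c2872 (FHolds.split2 549755813888 (FHolds.split3 549755813888 (FHolds.split4 412316860416 (FHolds.split1 23085449216 HT_3_2_2_0_t_f_f_c2873 HT_3_2_2_0_t_f_f_c2874) HT_3_2_2_0_t_f_f_c2875) (FHolds.split3 824633720832 (FHolds.split4 412316860416 (FHolds.split3 687194767360 HT_3_2_2_0_t_f_f_c2876 HT_3_2_2_0_t_f_f_c2877) HT_3_2_2_0_t_f_f_c2878) HT_3_2_2_0_t_f_f_c2879)) (FHolds.split3 549755813888 (FHolds.split2 824633720832 (FHolds.split4 412316860416 (FHolds.split2 687194767360 HT_3_2_2_0_t_f_f_c2880 HT_3_2_2_0_t_f_f_c2881) HT_3_2_2_0_t_f_f_c2882) HT_3_2_2_0_t_f_f_c2883) (FHolds.split2 824633720832 (FHolds.split3 824633720832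 (FHolds.split4 412316860416 HT_3_2_2_0_t_f_f_c2884 HT_3_2_2_0_t_f_f_c2885) HT_3_2_2_0_t_f_f_c2886) HT_3_2_2_0_t_f_f_c2887))))

theorem HT_3_2_2_1_t_f_f : HT 3 2 2 1 true false false ⟨0, 46170898432, 0, 1099511627776, 0, 1099511627776, 439804651110, 549755813888⟩ :=
  (FHolds.split2 549755813888 (FHolds.split3 549755813888 (FHolds.split2 274877906944 HT_3_2_2_1_t_f_f_c2888 HT_3_2_2_1_t_f_f_c2889) (FHolds.split3 824633720832 HT_3_2_2_1_t_f_f_c2890 HT_3_2_2_1_t_f_f_c2891)) (FHolds.split2 824633720832 (FHolds.split3 549755813888 (FHolds.split3 274877906944 HT_3_2_2_1_t_f_f_c2892 HT_3_2_2_1_t_f_f_c2893) HT_3_2_2_1_t_f_f_c2894) HT_3_2_2_1_t_f_f_c2895))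

theorem HT_3_2_2_2_t_f_f : HT 3 2 2 2 true false false ⟨0, 46170898432, 0, 1099511627776, 0, 1099511627776, 549755813888, 659706976666⟩ :=
  (FHolds.split2 549755813888 (FHolds.split3 549755813888 HT_3_2_2_2_t_f_f_c2896 HT_3_2_2_2_t_f_f_c2897) (FHolds.split2 824633720832 (FHolds.split3 549755813888 HT_3_2_2_2_t_f_f_c2898 HT_3_2_2_2_t_f_f_c2899) HT_3_2_2_2_t_f_f_c2900))

theorem HT_3_2_2_3_t_f_f : HT 3 2 2 3 true false false ⟨0, 46170898432, 0, 1099511627776, 0, 1099511627776, 659706976665, 879609302221⟩ :=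
  (FHolds.split2 549755813888 (FHolds.split2 274877906944 HT_3_2_2_3_t_f_f_c2901 (FHolds.split3 549755813888 HT_3_2_2_3_t_f_f_c2902 HT_3_2_2_3_t_f_f_c2903)) (FHolds.split3 549755813888 (FHolds.split2 824633720832 HT_3_2_2_3_t_f_f_c2904 HT_3_2_2_3_t_f_f_c2905) (FHolds.split2 824633720832 (FHolds.split3 824633720832 HT_3_2_2_3_t_f_f_c2906 HT_3_2_2_3_t_f_f_c2907) HT_3_2_2_3_t_f_f_c2908)))

theorem HT_3_2_2_4_t_f_f : HT 3 2 2 4 true false false ⟨0, 46170898432, 0, 1099511627776, 0, 1099511627776, 879609302220, 1099511627776⟩ :=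
  (FHolds.split4 989560464998 (FHolds.split1 23085449216 (FHolds.split1 11542724608 (FHolds.split2 549755813888 HT_3_2_2_4_t_f_f_c2909 HT_3_2_2_4_t_f_f_c2910) HT_3_2_2_4_t_f_f_c2911) (FHolds.split2 549755813888 HT_3_2_2_4_t_f_f_c2912 HT_3_2_2_4_t_f_f_c2913)) (FHolds.split1 23085449216 (FHolds.split2 549755813888 (FHolds.split2 274877906944 (FHolds.split3 549755813888 HT_3_2_2_4_t_f_f_c2914 HT_3_2_2_4_t_f_f_c2915) (FHolds.split3 549755813888 (FHolds.split3 274877906944 HT_3_2_2_4_t_f_f_c2916 (FHolds.split2 412316860416 HT_3_2_2_4_t_f_f_c2917 (FHolds.split3 412316860416 HT_3_2_2_4_t_f_f_c2918 (FHolds.split2 481036337152 HT_3_2_2_4_t_f_f_c2919 HT_3_2_2_4_t_f_f_c2920)))) (FHolds.split3 824633720832 HT_3_2_2_4_t_f_f_c2921 HT_3_2_2_4_t_f_f_c2922))) (FHolds.split3 549755813888 (FHolds.split3 274877906944 HT_3_2_2_4_t_f_f_c2923 (FHolds.split2 824633720832 (FHolds.split3 412316860416 HT_3_2_2_4_t_f_f_c2924 HT_3_2_2_4_t_f_f_c2925) HT_3_2_2_4_t_f_f_c2926))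 HT_3_2_2_4_t_f_f_c2927)) (FHolds.split2 549755813888 (FHolds.split2 274877906944 HT_3_2_2_4_t_f_f_c2928 HT_3_2_2_4_t_f_f_c2929) HT_3_2_2_4_t_f_f_c2930)))

theorem HTE_3_2_2_t_f_f : HTE 3 2 2 true false false ⟨0, 46170898432, 0, 1099511627776, 0, 1099511627776, 0, 0⟩ :=
  HTE_3_2_2_t_f_f_c2931

theorem HT_3_2_2_0_f_t_f : HT 3 2 2 0 false true false ⟨0, 46170898432, 0, 1099511627776, 0, 1099511627776, 329853488332, 439804651111⟩ :=
  (FHolds.split4 384829069721 HT_3_2_2_0_f_t_f_c2932 (FHolds.split3 549755813888 (FHolds.split4 412316860416 (FHolds.split2 549755813888 (FHolds.split3 274877906944 HT_3_2_2_0_f_t_f_c2933 HT_3_2_2_0_f_t_f_c2934) HT_3_2_2_0_f_t_f_c2935) (FHolds.split1 23085449216 HT_3_2_2_0_f_t_f_c2936 HT_3_2_2_0_f_t_f_c2937)) (FHolds.split2 549755813888 HT_3_2_2_0_f_t_f_c2938 HT_3_2_2_0_f_t_f_c2939)))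

theorem HT_3_2_2_1_f_t_f : HT 3 2 2 1 false true false ⟨0, 46170898432, 0, 1099511627776, 0, 1099511627776, 439804651110, 549755813888⟩ :=
  (FHolds.split3 549755813888 (FHolds.split3 274877906944 (FHolds.split1 23085449216 (FHolds.split2 549755813888 (FHolds.split2 274877906944 HT_3_2_2_1_f_t_f_c2940 HT_3_2_2_1_f_t_f_c2941) HT_3_2_2_1_f_t_f_c2942) HT_3_2_2_1_f_t_f_c2943) (FHolds.split2 549755813888 HT_3_2_2_1_f_t_f_c2944 HT_3_2_2_1_f_t_f_c2945)) HT_3_2_2_1_f_t_f_c2946)

theorem HT_3_2_2_2_f_t_f : HT 3 2 2 2 false true false ⟨0, 46170898432, 0, 1099511627776, 0, 1099511627776, 549755813888, 659706976666⟩ :=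
  (FHolds.split3 549755813888 (FHolds.split3 274877906944 HT_3_2_2_2_f_t_f_c2947 HT_3_2_2_2_f_t_f_c2948) HT_3_2_2_2_f_t_f_c2949)

theorem HT_3_2_2_3_f_t_f : HT 3 2 2 3 false true false ⟨0, 46170898432, 0, 1099511627776, 0, 1099511627776, 659706976665, 879609302221⟩ :=
  (FHolds.split3 549755813888 (FHolds.split1 23085449216 HT_3_2_2_3_f_t_f_c2950 HT_3_2_2_3_f_t_f_c2951) HT_3_2_2_3_f_t_f_c2952)

theorem HT_3_2_2_4_f_t_f : HT 3 2 2 4 false true false ⟨0, 46170898432, 0, 1099511627776, 0, 1099511627776, 879609302220, 1099511627776⟩ :=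
  (FHolds.split4 989560464998 HT_3_2_2_4_f_t_f_c2953 (FHolds.split1 23085449216 (FHolds.split3 549755813888 HT_3_2_2_4_f_t_f_c2954 HT_3_2_2_4_f_t_f_c2955) (FHolds.split3 549755813888 HT_3_2_2_4_f_t_f_c2956 HT_3_2_2_4_f_t_f_c2957)))

theorem HTE_3_2_2_f_t_f : HTE 3 2 2 false true false ⟨0, 46170898432, 0, 1099511627776, 0, 1099511627776, 0, 0⟩ :=
  HTE_3_2_2_f_t_f_c2958

theorem HT_3_2_2_0_f_f_t : HT 3 2 2 0 false false true ⟨0, 46170898432, 0, 1099511627776, 0, 1099511627776, 329853488332, 439804651111⟩ :=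
  (FHolds.split4 384829069721 HT_3_2_2_0_f_f_t_c2959 (FHolds.split3 549755813888 (FHolds.split4 412316860416 (FHolds.split2 549755813888 (FHolds.split3 274877906944 (FHolds.split4 398572965068 HT_3_2_2_0_f_f_t_c2960 HT_3_2_2_0_f_f_t_c2961) HT_3_2_2_0_f_f_t_c2962) (FHolds.split4 398572965068 HT_3_2_2_0_f_f_t_c2963 HT_3_2_2_0_f_f_t_c2964)) (FHolds.split1 23085449216 (FHolds.split2 549755813888 HT_3_2_2_0_f_f_t_c2965 HT_3_2_2_0_f_f_t_c2966) HT_3_2_2_0_f_f_t_c2967)) (FHolds.split2 549755813888 HT_3_2_2_0_f_f_t_c2968 HT_3_2_2_0_f_f_t_c2969)))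

theorem HT_3_2_2_1_f_f_t : HT 3 2 2 1 false false true ⟨0, 46170898432, 0, 1099511627776, 0, 1099511627776, 439804651110, 549755813888⟩ :=
  (FHolds.split3 549755813888 (FHolds.split3 274877906944 (FHolds.split1 23085449216 (FHolds.split2 549755813888 (FHolds.split2 274877906944 (FHolds.split3 137438953472 HT_3_2_2_1_f_f_t_c2970 HT_3_2_2_1_f_f_t_c2971) HT_3_2_2_1_f_f_t_c2972) HT_3_2_2_1_f_f_t_c2973) HT_3_2_2_1_f_f_t_c2974) (FHolds.split2 549755813888 HT_3_2_2_1_f_f_t_c2975 (FHolds.split1 23085449216 HT_3_2_2_1_f_f_t_c2976 HT_3_2_2_1_f_f_t_c2977))) HT_3_2_2_1_f_f_t_c2978)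

theorem HT_3_2_2_2_f_f_t : HT 3 2 2 2 false false true ⟨0, 46170898432, 0, 1099511627776, 0, 1099511627776, 549755813888, 659706976666⟩ :=
  (FHolds.split3 549755813888 (FHolds.split3 274877906944 (FHolds.split1 23085449216 HT_3_2_2_2_f_f_t_c2979 HT_3_2_2_2_f_f_t_c2980) HT_3_2_2_2_f_f_t_c2981) HT_3_2_2_2_f_f_t_c2982)

theorem HT_3_2_2_3_f_f_t : HT 3 2 2 3 false false true ⟨0, 46170898432, 0, 1099511627776, 0, 1099511627776, 659706976665, 879609302221⟩ :=
  (FHolds.split3 549755813888 (FHolds.split1 23085449216 (FHolds.split4 769658139443 HT_3_2_2_3_f_f_t_c2983 HT_3_2_2_3_f_f_t_c2984) HT_3_2_2_3_f_f_t_c2985) HT_3_2_2_3_f_f_t_c2986)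

theorem HT_3_2_2_4_f_f_t : HT 3 2 2 4 false false true ⟨0, 46170898432, 0, 1099511627776, 0, 1099511627776, 879609302220, 1099511627776⟩ :=
  (FHolds.split4 989560464998 (FHolds.split1 23085449216 HT_3_2_2_4_f_f_t_c2987 HT_3_2_2_4_f_f_t_c2988) (FHolds.split1 23085449216 (FHolds.split3 549755813888 (FHolds.split2 549755813888 HT_3_2_2_4_f_f_t_c2989 HT_3_2_2_4_f_f_t_c2990) HT_3_2_2_4_f_f_t_c2991) (FHolds.split3 549755813888 (FHolds.split2 549755813888 HT_3_2_2_4_f_f_t_c2992 HT_3_2_2_4_f_f_t_c2993) HT_3_2_2_4_f_f_t_c2994)))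

theorem HTE_3_2_2_f_f_t : HTE 3 2 2 false false true ⟨0, 46170898432, 0, 1099511627776, 0, 1099511627776, 0, 0⟩ :=
  HTE_3_2_2_f_f_t_c2995

theorem HT_3_2_3_0_t_f_f : HT 3 2 3 0 true false false ⟨0, 46170898432, 0, 1099511627776, 0, 1099511627776, 329853488332, 439804651111⟩ :=
  (FHolds.split4 384829069721 HT_3_2_3_0_t_f_f_c2996 (FHolds.split1 23085449216 (FHolds.split2 549755813888 (FHolds.split4 412316860416 (FHolds.split1 11542724608 HT_3_2_3_0_t_f_f_c2997 HT_3_2_3_0_t_f_f_c2998) HT_3_2_3_0_t_f_f_c2999) (FHolds.split4 412316860416 HT_3_2_3_0_t_f_f_c3000 HT_3_2_3_0_t_f_f_c3001)) (FHolds.split2 549755813888 (FHolds.split4 412316860416 (FHolds.split2 274877906944 HT_3_2_3_0_t_f_f_c3002 HT_3_2_3_0_t_f_f_c3003) (FHolds.split3 549755813888 HT_3_2_3_0_t_f_f_c3004 HT_3_2_3_0_t_f_f_c3005)) (FHolds.split2 824633720832 (FHolds.split4 412316860416 HT_3_2_3_0_t_f_f_c3006 HT_3_2_3_0_t_f_f_c3007) HT_3_2_3_0_t_f_f_c3008))))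

theorem HT_3_2_3_1_t_f_f : HT 3 2 3 1 true false false ⟨0, 46170898432, 0, 1099511627776, 0, 1099511627776, 439804651110, 549755813888⟩ :=
  (FHolds.split1 23085449216 (FHolds.split2 549755813888 (FHolds.split2 274877906944 HT_3_2_3_1_t_f_f_c3009 HT_3_2_3_1_t_f_f_c3010) (FHolds.split2 824633720832 HT_3_2_3_1_t_f_f_c3011 HT_3_2_3_1_t_f_f_c3012)) (FHolds.split2 549755813888 (FHolds.split2 274877906944 HT_3_2_3_1_t_f_f_c3013 HT_3_2_3_1_t_f_f_c3014) HT_3_2_3_1_t_f_f_c3015))

theorem HT_3_2_3_2_t_f_f : HT 3 2 3 2 true false false ⟨0, 46170898432, 0, 1099511627776, 0, 1099511627776, 549755813888, 659706976666⟩ :=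
  (FHolds.split2 549755813888 (FHolds.split1 23085449216 HT_3_2_3_2_t_f_f_c3016 HT_3_2_3_2_t_f_f_c3017) (FHolds.split2 824633720832 (FHolds.split3 549755813888 HT_3_2_3_2_t_f_f_c3018 HT_3_2_3_2_t_f_f_c3019) HT_3_2_3_2_t_f_f_c3020))

theorem HT_3_2_3_3_t_f_f : HT 3 2 3 3 true false false ⟨0, 46170898432, 0, 1099511627776, 0, 1099511627776, 659706976665, 879609302221⟩ :=
  (FHolds.split2 549755813888 (FHolds.split2 274877906944 HT_3_2_3_3_t_f_f_c3021 (FHolds.split3 549755813888 HT_3_2_3_3_t_f_f_c3022 HT_3_2_3_3_t_f_f_c3023)) (FHolds.split2 824633720832 (FHolds.split3 549755813888 HT_3_2_3_3_t_f_f_c3024 (FHolds.split2 687194767360 HT_3_2_3_3_t_f_f_c3025 HT_3_2_3_3_t_f_f_c3026)) HT_3_2_3_3_t_f_f_c3027))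

theorem HT_3_2_3_4_t_f_f : HT 3 2 3 4 true false false ⟨0, 46170898432, 0, 1099511627776, 0, 1099511627776, 879609302220, 1099511627776⟩ :=
  (FHolds.split4 989560464998 (FHolds.split2 549755813888 HT_3_2_3_4_t_f_f_c3028 (FHolds.split2 824633720832 HT_3_2_3_4_t_f_f_c3029 HT_3_2_3_4_t_f_f_c3030)) (FHolds.split2 549755813888 (FHolds.split2 274877906944 (FHolds.split1 23085449216 HT_3_2_3_4_t_f_f_c3031 HT_3_2_3_4_t_f_f_c3032) (FHolds.split1 23085449216 (FHolds.split2 412316860416 HT_3_2_3_4_t_f_f_c3033 (FHolds.split3 549755813888 HT_3_2_3_4_t_f_f_c3034 HT_3_2_3_4_t_f_f_c3035)) HT_3_2_3_4_t_f_f_c3036)) (FHolds.split1 23085449216 (FHolds.split2 824633720832 (FHolds.split2 687194767360 HT_3_2_3_4_t_f_f_c3037 HT_3_2_3_4_t_f_f_c3038) HT_3_2_3_4_t_f_f_c3039) HT_3_2_3_4_t_f_f_c3040)))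

theorem HTE_3_2_3_t_f_f : HTE 3 2 3 true false false ⟨0, 46170898432, 0, 1099511627776, 0, 1099511627776, 0, 0⟩ :=
  HTE_3_2_3_t_f_f_c3041

theorem HT_3_2_3_0_f_t_f : HT 3 2 3 0 false true false ⟨0, 46170898432, 0, 1099511627776, 0, 1099511627776, 329853488332, 439804651111⟩ :=
  (FHolds.split4 384829069721 HT_3_2_3_0_f_t_f_c3042 (FHolds.split1 23085449216 HT_3_2_3_0_f_t_f_c3043 (FHolds.split4 412316860416 HT_3_2_3_0_f_t_f_c3044 HT_3_2_3_0_f_t_f_c3045)))

theorem HT_3_2_3_1_f_t_f : HT 3 2 3 1 false true false ⟨0, 46170898432, 0, 1099511627776, 0, 1099511627776, 439804651110, 549755813888⟩ :=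
  (FHolds.split1 23085449216 HT_3_2_3_1_f_t_f_c3046 HT_3_2_3_1_f_t_f_c3047)

theorem HT_3_2_3_2_f_t_f : HT 3 2 3 2 false true false ⟨0, 46170898432, 0, 1099511627776, 0, 1099511627776, 549755813888, 659706976666⟩ :=
  HT_3_2_3_2_f_t_f_c3048

theorem HT_3_2_3_3_f_t_f : HT 3 2 3 3 false true false ⟨0, 46170898432, 0, 1099511627776, 0, 1099511627776, 659706976665, 879609302221⟩ :=
  HT_3_2_3_3_f_t_f_c3049

theorem HT_3_2_3_4_f_t_f : HT 3 2 3 4 false true false ⟨0, 46170898432, 0, 1099511627776, 0, 1099511627776, 879609302220, 1099511627776⟩ :=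
  (FHolds.split4 989560464998 HT_3_2_3_4_f_t_f_c3050 (FHolds.split2 549755813888 (FHolds.split3 549755813888 HT_3_2_3_4_f_t_f_c3051 HT_3_2_3_4_f_t_f_c3052) HT_3_2_3_4_f_t_f_c3053))

theorem HTE_3_2_3_f_t_f : HTE 3 2 3 false true false ⟨0, 46170898432, 0, 1099511627776, 0, 1099511627776, 0, 0⟩ :=
  HTE_3_2_3_f_t_f_c3054

theorem HT_3_2_3_0_f_f_t : HT 3 2 3 0 false false true ⟨0, 46170898432, 0, 1099511627776, 0, 1099511627776, 329853488332, 439804651111⟩ :=
  (FHolds.split4 384829069721 HT_3_2_3_0_f_f_t_c3055 (FHolds.split1 23085449216 (FHolds.split3 549755813888 (FHolds.split4 412316860416 (FHolds.split1 11542724608 (FHolds.split2 549755813888 (FHolds.split3 274877906944 (FHolds.split4 398572965068 (FHolds.split4 391701017394 HT_3_2_3_0_f_f_t_c3056 (FHolds.split2 274877906944 HT_3_2_3_0_f_f_t_c3057 HT_3_2_3_0_f_f_t_c3058)) (FHolds.split2 274877906944 HT_3_2_3_0_f_f_t_c3059 HT_3_2_3_0_f_f_t_c3060)) HT_3_2_3_0_f_f_t_c3061) (FHolds.split3 274877906944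 HT_3_2_3_0_f_f_t_c3062 (FHolds.split4 398572965068 HT_3_2_3_0_f_f_t_c3063 HT_3_2_3_0_f_f_t_c3064))) (FHolds.split2 549755813888 (FHolds.split3 274877906944 (FHolds.split4 398572965068 (FHolds.split4 391701017394 HT_3_2_3_0_f_f_t_c3065 (FHolds.split2 274877906944 HT_3_2_3_0_f_f_t_c3066 HT_3_2_3_0_f_f_t_c3067)) (FHolds.split2 274877906944 HT_3_2_3_0_f_f_t_c3068 HT_3_2_3_0_f_f_t_c3069)) HT_3_2_3_0_f_f_t_c3070) (FHolds.split3 274877906944 HT_3_2_3_0_f_f_t_c3071 (FHolds.split2 824633720832 HT_3_2_3_0_f_f_t_c3072 HT_3_2_3_0_f_f_t_c3073)))) (FHolds.split1 11542724608 (FHolds.split2 549755813888 (FHolds.split3 274877906944 HT_3_2_3_0_f_f_t_c3074 HT_3_2_3_0_f_f_t_c3075) HT_3_2_3_0_f_f_t_c3076) (FHolds.split3 274877906944 (FHolds.split2 549755813888 HT_3_2_3_0_f_f_t_c3077 HT_3_2_3_0_f_f_t_c3078) HT_3_2_3_0_f_f_t_c3079))) (FHolds.split2 549755813888 HT_3_2_3_0_f_f_t_c3080 HT_3_2_3_0_f_f_t_c3081)) (FHolds.split3 549755813888 (FHolds.split4 412316860416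 (FHolds.split2 549755813888 (FHolds.split3 274877906944 (FHolds.split4 398572965068 (FHolds.split4 391701017394 HT_3_2_3_0_f_f_t_c3082 (FHolds.split2 274877906944 (FHolds.split3 137438953472 (FHolds.split2 137438953472 HT_3_2_3_0_f_f_t_c3083 HT_3_2_3_0_f_f_t_c3084) HT_3_2_3_0_f_f_t_c3085) (FHolds.split3 137438953472 HT_3_2_3_0_f_f_t_c3086 (FHolds.split2 412316860416 HT_3_2_3_0_f_f_t_c3087 HT_3_2_3_0_f_f_t_c3088)))) (FHolds.split2 274877906944 (FHolds.split3 137438953472 (FHolds.split4 405444912742 HT_3_2_3_0_f_f_t_c3089 HT_3_2_3_0_f_f_t_c3090) HT_3_2_3_0_f_f_t_c3091) (FHolds.split3 137438953472 HT_3_2_3_0_f_f_t_c3092 (FHolds.split2 412316860416 HT_3_2_3_0_f_f_t_c3093 HT_3_2_3_0_f_f_t_c3094)))) (FHolds.split2 274877906944 HT_3_2_3_0_f_f_t_c3095 HT_3_2_3_0_f_f_t_c3096)) (FHolds.split1 34628173824 (FHolds.split3 274877906944 HT_3_2_3_0_f_f_t_c3097 (FHolds.split2 824633720832 HT_3_2_3_0_f_f_t_c3098 HT_3_2_3_0_f_f_t_c3099)) (FHolds.split3 274877906944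 HT_3_2_3_0_f_f_t_c3100 (FHolds.split2 824633720832 HT_3_2_3_0_f_f_t_c3101 HT_3_2_3_0_f_f_t_c3102)))) (FHolds.split1 34628173824 (FHolds.split2 549755813888 HT_3_2_3_0_f_f_t_c3103 (FHolds.split3 274877906944 HT_3_2_3_0_f_f_t_c3104 HT_3_2_3_0_f_f_t_c3105)) (FHolds.split2 549755813888 (FHolds.split3 274877906944 (FHolds.split4 426060755763 HT_3_2_3_0_f_f_t_c3106 HT_3_2_3_0_f_f_t_c3107) HT_3_2_3_0_f_f_t_c3108) (FHolds.split3 274877906944 (FHolds.split4 426060755763 HT_3_2_3_0_f_f_t_c3109 HT_3_2_3_0_f_f_t_c3110) (FHolds.split4 426060755763 HT_3_2_3_0_f_f_t_c3111 HT_3_2_3_0_f_f_t_c3112))))) (FHolds.split2 549755813888 (FHolds.split4 412316860416 (FHolds.split1 34628173824 HT_3_2_3_0_f_f_t_c3113 HT_3_2_3_0_f_f_t_c3114) HT_3_2_3_0_f_f_t_c3115) (FHolds.split3 824633720832 HT_3_2_3_0_f_f_t_c3116 HT_3_2_3_0_f_f_t_c3117)))))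

theorem HT_3_2_3_1_f_f_t : HT 3 2 3 1 false false true ⟨0, 46170898432, 0, 1099511627776, 0, 1099511627776, 439804651110, 549755813888⟩ :=
  (FHolds.split3 549755813888 (FHolds.split1 23085449216 (FHolds.split3 274877906944 (FHolds.split2 549755813888 (FHolds.split3 137438953472 (FHolds.split2 274877906944 (FHolds.split3 68719476736 HT_3_2_3_1_f_f_t_c3118 HT_3_2_3_1_f_f_t_c3119) HT_3_2_3_1_f_f_t_c3120) (FHolds.split2 274877906944 HT_3_2_3_1_f_f_t_c3121 HT_3_2_3_1_f_f_t_c3122)) HT_3_2_3_1_f_f_t_c3123) (FHolds.split2 549755813888 HT_3_2_3_1_f_f_t_c3124 (FHolds.split3 412316860416 HT_3_2_3_1_f_f_t_c3125 HT_3_2_3_1_f_f_t_c3126))) (FHolds.split3 274877906944 (FHolds.split4 494780232499 HT_3_2_3_1_f_f_t_c3127 HT_3_2_3_1_f_f_t_c3128) HT_3_2_3_1_f_f_t_c3129)) (FHolds.split3 824633720832 HT_3_2_3_1_f_f_t_c3130 HT_3_2_3_1_f_f_t_c3131))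

theorem HT_3_2_3_2_f_f_t : HT 3 2 3 2 false false true ⟨0, 46170898432, 0, 1099511627776, 0, 1099511627776, 549755813888, 659706976666⟩ :=
  (FHolds.split3 549755813888 (FHolds.split3 274877906944 (FHolds.split1 23085449216 (FHolds.split2 549755813888 (FHolds.split3 137438953472 (FHolds.split2 274877906944 HT_3_2_3_2_f_f_t_c3132 HT_3_2_3_2_f_f_t_c3133) HT_3_2_3_2_f_f_t_c3134) HT_3_2_3_2_f_f_t_c3135) HT_3_2_3_2_f_f_t_c3136) (FHolds.split2 549755813888 HT_3_2_3_2_f_f_t_c3137 (FHolds.split1 23085449216 (FHolds.split3 412316860416 HT_3_2_3_2_f_f_t_c3138 HT_3_2_3_2_f_f_t_c3139) HT_3_2_3_2_f_f_t_c3140))) (FHolds.split3 824633720832 HT_3_2_3_2_f_f_t_c3141 HT_3_2_3_2_f_f_t_c3142))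

theorem HT_3_2_3_3_f_f_t : HT 3 2 3 3 false false true ⟨0, 46170898432, 0, 1099511627776, 0, 1099511627776, 659706976665, 879609302221⟩ :=
  (FHolds.split3 549755813888 (FHolds.split3 274877906944 (FHolds.split2 549755813888 (FHolds.split3 137438953472 (FHolds.split2 274877906944 (FHolds.split3 68719476736 HT_3_2_3_3_f_f_t_c3143 HT_3_2_3_3_f_f_t_c3144) HT_3_2_3_3_f_f_t_c3145) (FHolds.split2 274877906944 HT_3_2_3_3_f_f_t_c3146 (FHolds.split3 206158430208 HT_3_2_3_3_f_f_t_c3147 HT_3_2_3_3_f_f_t_c3148))) HT_3_2_3_3_f_f_t_c3149) (FHolds.split2 549755813888 HT_3_2_3_3_f_f_t_c3150 (FHolds.split1 23085449216 (FHolds.split3 412316860416 (FHolds.split2 824633720832 (FHolds.split3 343597383680 HT_3_2_3_3_f_f_t_c3151 HT_3_2_3_3_f_f_t_c3152) HT_3_2_3_3_f_f_t_c3153) (FHolds.split2 824633720832 HT_3_2_3_3_f_f_t_c3154 (FHolds.split3 481036337152 HT_3_2_3_3_f_f_t_c3155 HT_3_2_3_3_f_f_t_c3156))) (FHolds.split3 412316860416 HT_3_2_3_3_f_f_t_c3157 HT_3_2_3_3_f_f_t_c3158))))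 (FHolds.split3 824633720832 (FHolds.split2 549755813888 HT_3_2_3_3_f_f_t_c3159 HT_3_2_3_3_f_f_t_c3160) HT_3_2_3_3_f_f_t_c3161))

theorem HT_3_2_3_4_f_f_t : HT 3 2 3 4 false false true ⟨0, 46170898432, 0, 1099511627776, 0, 1099511627776, 879609302220, 1099511627776⟩ :=
  (FHolds.split4 989560464998 (FHolds.split3 549755813888 (FHolds.split1 23085449216 (FHolds.split3 274877906944 (FHolds.split2 549755813888 (FHolds.split3 137438953472 (FHolds.split2 274877906944 (FHolds.split4 934584883609 HT_3_2_3_4_f_f_t_c3162 HT_3_2_3_4_f_f_t_c3163) HT_3_2_3_4_f_f_t_c3164) HT_3_2_3_4_f_f_t_c3165) HT_3_2_3_4_f_f_t_c3166) (FHolds.split2 549755813888 HT_3_2_3_4_f_f_t_c3167 (FHolds.split3 412316860416 HT_3_2_3_4_f_f_t_c3168 (FHolds.split2 824633720832 HT_3_2_3_4_f_f_t_c3169 HT_3_2_3_4_f_f_t_c3170)))) (FHolds.split3 274877906944 (FHolds.split2 549755813888 (FHolds.split3 137438953472 HT_3_2_3_4_f_f_t_c3171 HT_3_2_3_4_f_f_t_c3172) HT_3_2_3_4_f_f_t_c3173) (FHolds.split2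 549755813888 HT_3_2_3_4_f_f_t_c3174 (FHolds.split4 934584883609 HT_3_2_3_4_f_f_t_c3175 HT_3_2_3_4_f_f_t_c3176)))) (FHolds.split3 824633720832 (FHolds.split2 549755813888 HT_3_2_3_4_f_f_t_c3177 HT_3_2_3_4_f_f_t_c3178) HT_3_2_3_4_f_f_t_c3179)) (FHolds.split1 23085449216 (FHolds.split3 549755813888 (FHolds.split4 1044536046387 (FHolds.split1 11542724608 HT_3_2_3_4_f_f_t_c3180 HT_3_2_3_4_f_f_t_c3181) (FHolds.split1 11542724608 (FHolds.split4 1072023837081 HT_3_2_3_4_f_f_t_c3182 (FHolds.split2 549755813888 (FHolds.split2 274877906944 (FHolds.split3 274877906944 (FHolds.split4 1085767732428 HT_3_2_3_4_f_f_t_c3183 (FHolds.split2 137438953472 (FHolds.split3 137438953472 (FHolds.split4 1092639680102 HT_3_2_3_4_f_f_t_c3184 (FHolds.split2 68719476736 (FHolds.split3 68719476736 (FHolds.split4 1096075653939 HT_3_2_3_4_f_f_t_c3185 (FHolds.split2 34359738368 (FHolds.split3 34359738368 (FHolds.split1 5771362304 (FHolds.split1 2885681152 HT_3_2_3_4_f_f_t_c3186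 HT_3_2_3_4_f_f_t_c3187) HT_3_2_3_4_f_f_t_c3188) HT_3_2_3_4_f_f_t_c3189) (FHolds.split1 5771362304 HT_3_2_3_4_f_f_t_c3190 HT_3_2_3_4_f_f_t_c3191))) HT_3_2_3_4_f_f_t_c3192) (FHolds.split1 5771362304 (FHolds.split4 1096075653939 HT_3_2_3_4_f_f_t_c3193 (FHolds.split3 68719476736 HT_3_2_3_4_f_f_t_c3194 HT_3_2_3_4_f_f_t_c3195)) HT_3_2_3_4_f_f_t_c3196))) HT_3_2_3_4_f_f_t_c3197) (FHolds.split4 1092639680102 HT_3_2_3_4_f_f_t_c3198 (FHolds.split3 137438953472 HT_3_2_3_4_f_f_t_c3199 HT_3_2_3_4_f_f_t_c3200)))) HT_3_2_3_4_f_f_t_c3201) (FHolds.split3 274877906944 (FHolds.split3 137438953472 HT_3_2_3_4_f_f_t_c3202 HT_3_2_3_4_f_f_t_c3203) HT_3_2_3_4_f_f_t_c3204)) (FHolds.split3 274877906944 HT_3_2_3_4_f_f_t_c3205 (FHolds.split1 5771362304 HT_3_2_3_4_f_f_t_c3206 HT_3_2_3_4_f_f_t_c3207)))) (FHolds.split2 549755813888 (FHolds.split4 1072023837081 HT_3_2_3_4_f_f_t_c3208 (FHolds.split2 274877906944 (FHolds.split3 274877906944 (FHolds.split4 1085767732428 HT_3_2_3_4_f_f_t_c3209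 (FHolds.split2 137438953472 (FHolds.split3 137438953472 HT_3_2_3_4_f_f_t_c3210 HT_3_2_3_4_f_f_t_c3211) HT_3_2_3_4_f_f_t_c3212)) HT_3_2_3_4_f_f_t_c3213) HT_3_2_3_4_f_f_t_c3214)) HT_3_2_3_4_f_f_t_c3215))) (FHolds.split2 549755813888 HT_3_2_3_4_f_f_t_c3216 HT_3_2_3_4_f_f_t_c3217)) (FHolds.split3 549755813888 (FHolds.split2 549755813888 (FHolds.split4 1044536046387 HT_3_2_3_4_f_f_t_c3218 (FHolds.split4 1072023837081 HT_3_2_3_4_f_f_t_c3219 (FHolds.split3 274877906944 (FHolds.split2 274877906944 (FHolds.split4 1085767732428 HT_3_2_3_4_f_f_t_c3220 (FHolds.split2 137438953472 (FHolds.split3 137438953472 (FHolds.split4 1092639680102 HT_3_2_3_4_f_f_t_c3221 (FHolds.split2 68719476736 (FHolds.split3 68719476736 (FHolds.split4 1096075653939 HT_3_2_3_4_f_f_t_c3222 (FHolds.split2 34359738368 HT_3_2_3_4_f_f_t_c3223 HT_3_2_3_4_f_f_t_c3224)) HT_3_2_3_4_f_f_t_c3225) HT_3_2_3_4_f_f_t_c3226)) HT_3_2_3_4_f_f_t_c3227) HT_3_2_3_4_f_f_t_c3228)) HT_3_2_3_4_f_f_t_c3229)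 HT_3_2_3_4_f_f_t_c3230))) (FHolds.split3 274877906944 HT_3_2_3_4_f_f_t_c3231 (FHolds.split4 1044536046387 HT_3_2_3_4_f_f_t_c3232 HT_3_2_3_4_f_f_t_c3233))) (FHolds.split2 549755813888 HT_3_2_3_4_f_f_t_c3234 HT_3_2_3_4_f_f_t_c3235))))

theorem HTE_3_2_3_f_f_t : HTE 3 2 3 false false true ⟨0, 46170898432, 0, 1099511627776, 0, 1099511627776, 0, 0⟩ :=
  HTE_3_2_3_f_f_t_c3236

theorem HT_3_3_3_0_t_f_f : HT 3 3 3 0 true false false ⟨0, 46170898432, 0, 1099511627776, 0, 1099511627776, 329853488332, 439804651111⟩ :=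
  (FHolds.split4 384829069721 HT_3_3_3_0_t_f_f_c3237 (FHolds.split1 23085449216 HT_3_3_3_0_t_f_f_c3238 (FHolds.split1 34628173824 HT_3_3_3_0_t_f_f_c3239 HT_3_3_3_0_t_f_f_c3240)))

theorem HT_3_3_3_1_t_f_f : HT 3 3 3 1 true false false ⟨0, 46170898432, 0, 1099511627776, 0, 1099511627776, 439804651110, 549755813888⟩ :=
  (FHolds.split1 23085449216 HT_3_3_3_1_t_f_f_c3241 (FHolds.split4 494780232499 (FHolds.split2 549755813888 HT_3_3_3_1_t_f_f_c3242 HT_3_3_3_1_t_f_f_c3243) HT_3_3_3_1_t_f_f_c3244))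

theorem HT_3_3_3_2_t_f_f : HT 3 3 3 2 true false false ⟨0, 46170898432, 0, 1099511627776, 0, 1099511627776, 549755813888, 659706976666⟩ :=
  (FHolds.split1 23085449216 HT_3_3_3_2_t_f_f_c3245 HT_3_3_3_2_t_f_f_c3246)

theorem HT_3_3_3_3_t_f_f : HT 3 3 3 3 true false false ⟨0, 46170898432, 0, 1099511627776, 0, 1099511627776, 659706976665, 879609302221⟩ :=
  HT_3_3_3_3_t_f_f_c3247

theorem HT_3_3_3_4_t_f_f : HT 3 3 3 4 true false false ⟨0, 46170898432, 0, 1099511627776, 0, 1099511627776, 879609302220, 1099511627776⟩ :=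
  (FHolds.split1 23085449216 HT_3_3_3_4_t_f_f_c3248 (FHolds.split4 989560464998 HT_3_3_3_4_t_f_f_c3249 (FHolds.split2 549755813888 HT_3_3_3_4_t_f_f_c3250 HT_3_3_3_4_t_f_f_c3251)))

theorem HTE_3_3_3_t_f_f : HTE 3 3 3 true false false ⟨0, 46170898432, 0, 1099511627776, 0, 1099511627776, 0, 0⟩ :=
  HTE_3_3_3_t_f_f_c3252

theorem HT_3_3_3_0_f_t_f : HT 3 3 3 0 false true false ⟨0, 46170898432, 0, 1099511627776, 0, 1099511627776, 329853488332, 439804651111⟩ :=
  (FHolds.split4 384829069721 HT_3_3_3_0_f_t_f_c3253 (FHolds.split1 23085449216 (FHolds.split4 412316860416 HT_3_3_3_0_f_t_f_c3254 HT_3_3_3_0_f_t_f_c3255) (FHolds.split4 412316860416 (FHolds.split2 549755813888 HT_3_3_3_0_f_t_f_c3256 HT_3_3_3_0_f_t_f_c3257) HT_3_3_3_0_f_t_f_c3258)))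

theorem HT_3_3_3_1_f_t_f : HT 3 3 3 1 false true false ⟨0, 46170898432, 0, 1099511627776, 0, 1099511627776, 439804651110, 549755813888⟩ :=
  (FHolds.split1 23085449216 HT_3_3_3_1_f_t_f_c3259 (FHolds.split4 494780232499 HT_3_3_3_1_f_t_f_c3260 HT_3_3_3_1_f_t_f_c3261))

theorem HT_3_3_3_2_f_t_f : HT 3 3 3 2 false true false ⟨0, 46170898432, 0, 1099511627776, 0, 1099511627776, 549755813888, 659706976666⟩ :=
  HT_3_3_3_2_f_t_f_c3262

theorem HT_3_3_3_3_f_t_f : HT 3 3 3 3 false true false ⟨0, 46170898432, 0, 1099511627776, 0, 1099511627776, 659706976665, 879609302221⟩ :=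
  HT_3_3_3_3_f_t_f_c3263

theorem HT_3_3_3_4_f_t_f : HT 3 3 3 4 false true false ⟨0, 46170898432, 0, 1099511627776, 0, 1099511627776, 879609302220, 1099511627776⟩ :=
  (FHolds.split4 989560464998 HT_3_3_3_4_f_t_f_c3264 (FHolds.split2 549755813888 (FHolds.split1 23085449216 (FHolds.split4 1044536046387 HT_3_3_3_4_f_t_f_c3265 (FHolds.split3 549755813888 HT_3_3_3_4_f_t_f_c3266 HT_3_3_3_4_f_t_f_c3267)) (FHolds.split4 1044536046387 HT_3_3_3_4_f_t_f_c3268 HT_3_3_3_4_f_t_f_c3269)) HT_3_3_3_4_f_t_f_c3270))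

theorem HTE_3_3_3_f_t_f : HTE 3 3 3 false true false ⟨0, 46170898432, 0, 1099511627776, 0, 1099511627776, 0, 0⟩ :=
  HTE_3_3_3_f_t_f_c3271

theorem HT_3_3_3_0_f_f_t : HT 3 3 3 0 false false true ⟨0, 46170898432, 0, 1099511627776, 0, 1099511627776, 329853488332, 439804651111⟩ :=
  (FHolds.split4 384829069721 HT_3_3_3_0_f_f_t_c3272 (FHolds.split1 23085449216 (FHolds.split4 412316860416 HT_3_3_3_0_f_f_t_c3273 HT_3_3_3_0_f_f_t_c3274) (FHolds.split4 412316860416 (FHolds.split2 549755813888 (FHolds.split3 549755813888 HT_3_3_3_0_f_f_t_c3275 HT_3_3_3_0_f_f_t_c3276) HT_3_3_3_0_f_f_t_c3277) HT_3_3_3_0_f_f_t_c3278)))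

theorem HT_3_3_3_1_f_f_t : HT 3 3 3 1 false false true ⟨0, 46170898432, 0, 1099511627776, 0, 1099511627776, 439804651110, 549755813888⟩ :=
  (FHolds.split1 23085449216 HT_3_3_3_1_f_f_t_c3279 (FHolds.split4 494780232499 HT_3_3_3_1_f_f_t_c3280 HT_3_3_3_1_f_f_t_c3281))

theorem HT_3_3_3_2_f_f_t : HT 3 3 3 2 false false true ⟨0, 46170898432, 0, 1099511627776, 0, 1099511627776, 549755813888, 659706976666⟩ :=
  HT_3_3_3_2_f_f_t_c3282

theorem HT_3_3_3_3_f_f_t : HT 3 3 3 3 false false true ⟨0, 46170898432, 0, 1099511627776, 0, 1099511627776, 659706976665, 879609302221⟩ :=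
  HT_3_3_3_3_f_f_t_c3283

theorem HT_3_3_3_4_f_f_t : HT 3 3 3 4 false false true ⟨0, 46170898432, 0, 1099511627776, 0, 1099511627776, 879609302220, 1099511627776⟩ :=
  (FHolds.split4 989560464998 HT_3_3_3_4_f_f_t_c3284 (FHolds.split2 549755813888 (FHolds.split1 23085449216 (FHolds.split4 1044536046387 HT_3_3_3_4_f_f_t_c3285 (FHolds.split3 549755813888 (FHolds.split2 274877906944 (FHolds.split4 1072023837081 HT_3_3_3_4_f_f_t_c3286 (FHolds.split4 1085767732428 HT_3_3_3_4_f_f_t_c3287 HT_3_3_3_4_f_f_t_c3288)) HT_3_3_3_4_f_f_t_c3289) HT_3_3_3_4_f_f_t_c3290)) (FHolds.split4 1044536046387 HT_3_3_3_4_f_f_t_c3291 (FHolds.split3 549755813888 HT_3_3_3_4_f_f_t_c3292 HT_3_3_3_4_f_f_t_c3293))) HT_3_3_3_4_f_f_t_c3294))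

theorem HTE_3_3_3_f_f_t : HTE 3 3 3 false false true ⟨0, 46170898432, 0, 1099511627776, 0, 1099511627776, 0, 0⟩ :=
  HTE_3_3_3_f_f_t_c3295

theorem HTU_2_2_t : HTU 2 2 true ⟨0, 46170898432, 0, 1099511627776, 0, 0, 0, 0⟩ :=
  HTU_2_2_t_c3296

theorem HTU_2_2_f : HTU 2 2 false ⟨0, 46170898432, 0, 1099511627776, 0, 0, 0, 0⟩ :=
  HTU_2_2_f_c3297

theorem HTU_2_3_t : HTU 2 3 true ⟨0, 46170898432, 0, 1099511627776, 0, 0, 0, 0⟩ :=
  HTU_2_3_t_c3298

theorem HTU_2_3_f : HTU 2 3 false ⟨0, 46170898432, 0, 1099511627776, 0, 0, 0, 0⟩ :=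
  HTU_2_3_f_c3299

theorem HTU_3_3_t : HTU 3 3 true ⟨0, 46170898432, 0, 1099511627776, 0, 0, 0, 0⟩ :=
  HTU_3_3_t_c3300

theorem HTU_3_3_f : HTU 3 3 false ⟨0, 46170898432, 0, 1099511627776, 0, 0, 0, 0⟩ :=
  HTU_3_3_f_c3301

theorem HO_0_t_f_f : HO 0 true false false ⟨0, 34896609280, 0, 1099511627776, 0, 1099511627776, 329853488332, 439804651111⟩ :=
  HO_0_t_f_f_c3302

theorem HO_1_t_f_f : HO 1 true false false ⟨0, 34896609280, 0, 1099511627776, 0, 1099511627776, 439804651110, 549755813888⟩ :=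
  HO_1_t_f_f_c3303

theorem HO_2_t_f_f : HO 2 true false false ⟨0, 34896609280, 0, 1099511627776, 0, 1099511627776, 549755813888, 659706976666⟩ :=
  HO_2_t_f_f_c3304

theorem HO_3_t_f_f : HO 3 true false false ⟨0, 34896609280, 0, 1099511627776, 0, 1099511627776, 659706976665, 879609302221⟩ :=
  HO_3_t_f_f_c3305

theorem HO_4_t_f_f : HO 4 true false false ⟨0, 34896609280, 0, 1099511627776, 0, 1099511627776, 879609302220, 1099511627776⟩ :=
  HO_4_t_f_f_c3306

theorem HOE_t_f_f : HOE true false false ⟨0, 34896609280, 0, 1099511627776, 0, 1099511627776, 0, 0⟩ :=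
  HOE_t_f_f_c3307

theorem HO_0_f_t_f : HO 0 false true false ⟨0, 34896609280, 0, 1099511627776, 0, 1099511627776, 329853488332, 439804651111⟩ :=
  HO_0_f_t_f_c3308

theorem HO_1_f_t_f : HO 1 false true false ⟨0, 34896609280, 0, 1099511627776, 0, 1099511627776, 439804651110, 549755813888⟩ :=
  HO_1_f_t_f_c3309

theorem HO_2_f_t_f : HO 2 false true false ⟨0, 34896609280, 0, 1099511627776, 0, 1099511627776, 549755813888, 659706976666⟩ :=
  HO_2_f_t_f_c3310

theorem HO_3_f_t_f : HO 3 false true false ⟨0, 34896609280, 0, 1099511627776, 0, 1099511627776, 659706976665, 879609302221⟩ :=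
  HO_3_f_t_f_c3311

theorem HO_4_f_t_f : HO 4 false true false ⟨0, 34896609280, 0, 1099511627776, 0, 1099511627776, 879609302220, 1099511627776⟩ :=
  HO_4_f_t_f_c3312

theorem HOE_f_t_f : HOE false true false ⟨0, 34896609280, 0, 1099511627776, 0, 1099511627776, 0, 0⟩ :=
  HOE_f_t_f_c3313

theorem HO_0_f_f_t : HO 0 false false true ⟨0, 34896609280, 0, 1099511627776, 0, 1099511627776, 329853488332, 439804651111⟩ :=
  HO_0_f_f_t_c3314

theorem HO_1_f_f_t : HO 1 false false true ⟨0, 34896609280, 0, 1099511627776, 0, 1099511627776, 439804651110, 549755813888⟩ :=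
  HO_1_f_f_t_c3315

theorem HO_2_f_f_t : HO 2 false false true ⟨0, 34896609280, 0, 1099511627776, 0, 1099511627776, 549755813888, 659706976666⟩ :=
  HO_2_f_f_t_c3316

theorem HO_3_f_f_t : HO 3 false false true ⟨0, 34896609280, 0, 1099511627776, 0, 1099511627776, 659706976665, 879609302221⟩ :=
  HO_3_f_f_t_c3317

theorem HO_4_f_f_t : HO 4 false false true ⟨0, 34896609280, 0, 1099511627776, 0, 1099511627776, 879609302220, 1099511627776⟩ :=
  HO_4_f_f_t_c3318

theorem HOE_f_f_t : HOE false false true ⟨0, 34896609280, 0, 1099511627776, 0, 1099511627776, 0, 0⟩ :=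
  HOE_f_f_t_c3319

end Crest.Agent.R310.Bx
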